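import Vale.Agent.P128.Bridge.Compact.Gradient

/-!
# P128 bridge B3a: compactness of almost-minimisers on exhausting domains
-/

open MeasureTheory Set Metric Filter
open scoped ENNReal Topology Real RealInnerProductSpace

noncomputable section

namespace Vale.Agent.P128.Bridge

variable {Uj Kj : ℕ → Set ℂ} {uj : ℕ → ℂ → ℝ} {Gj : ℕ → ℂ → ℂ} {Aj Mj Λj : ℕ → ℝ}
variable {K : Set ℂ}

theorem LocConv.comp {U : Set ℂ} (h : LocConv U Kj K) {φ : ℕ → ℕ} (hφ : StrictMono φ) :
    LocConv U (Kj ∘ φ) K :=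
  ⟨fun C hC hCU ε hε => hφ.tendsto_atTop.eventually (h.1 C hC hCU ε hε),
    fun z hz ε hε => hφ.tendsto_atTop.eventually (h.2 z hz ε hε)⟩

/-- The limit pair has finite energy in every disc. -/
theorem BlowData.finite_limit (hU : UpperSpec) (hC : ConcSpec) (hLsc : LscSpec)
    (h : BlowData Uj Kj uj Gj Aj Mj Λj) (hK : IsClosed K) (hconv : LocConv univ Kj K)
    {G : ℂ → ℂ}
    (hae : ∀ᵐ x ∂volume.restrict Kᶜ, Tendsto (fun k => zeroExt Uj Kj Gj k x) atTop (𝓝 (G x)))
    (c : ℂ) (r : ℝ) : weakEnergy K G (ball c r) < ⊤ := by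
  rcases le_or_gt r 0 with hr | hr
  · simp [weakEnergy, ball_eq_empty.2 hr]
  set B : ℝ≥0∞ := ENNReal.ofReal (2 * π * r + r ^ 2) with hB
  have hbound : ∀ᶠ j in atTop, weakEnergy (Kj j) (Gj j) (closedBall c r) ≤ B ∧
      closedBall c r ⊆ Uj j := by
    filter_upwards [h.eventually_subset (isCompact_closedBall c r),
      h.eventually_mul_le (r ^ 2) (show (0 : ℝ) < r ^ 2 by positivity)] with j hj hΛ
    exact ⟨(hU _ _ _ _ _ _ _ (h.alm j) c r hr hj).trans (ENNReal.ofReal_le_ofReal (by linarith)),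
      hj⟩
  refine ENNReal.add_lt_top.2 ⟨?_, ?_⟩
  · have hlim : ∀ᵐ x ∂volume.restrict (ball c r \ K),
        Tendsto (fun k => ‖zeroExt Uj Kj Gj k x‖ₑ ^ 2) atTop (𝓝 (‖G x‖ₑ ^ 2)) := by
      filter_upwards [ae_restrict_of_ae_restrict_of_subset (fun x hx => hx.2) hae] with x hx
      exact ((ENNReal.continuous_pow 2).tendsto _).comp hx.enorm
    calc ∫⁻ x in ball c r \ K, ‖G x‖ₑ ^ 2
        = ∫⁻ x in ball c r \ K, liminf (fun k => ‖zeroExt Uj Kj Gj k x‖ₑ ^ 2) atTop :=
          lintegral_congr_ae (hlim.mono fun x hx => hx.liminf_eq.symm)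
      _ ≤ liminf (fun k => ∫⁻ x in ball c r \ K, ‖zeroExt Uj Kj Gj k x‖ₑ ^ 2) atTop :=
          lintegral_liminf_le' fun k => (h.aestronglyMeasurable_zeroExt k _).enorm.pow_const _
      _ ≤ B := by
          refine liminf_le_of_frequently_le' (Eventually.frequently ?_)
          filter_upwards [hbound] with k hk
          refine le_trans ?_ (le_trans le_self_add hk.1)
          have hmeas : MeasurableSet (Uj k \ Kj k) := (h.alm k).isOpen_compl.measurableSet
          calc ∫⁻ x in ball c r \ K, ‖zeroExt Uj Kj Gj k x‖ₑ ^ 2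
              = ∫⁻ x in ball c r \ K, (Uj k \ Kj k).indicator (fun y => ‖Gj k y‖ₑ ^ 2) x := by
                refine lintegral_congr fun x => ?_
                by_cases hx : x ∈ Uj k \ Kj k <;> simp [zeroExt, hx]
            _ = ∫⁻ x in (Uj k \ Kj k) ∩ (ball c r \ K), ‖Gj k x‖ₑ ^ 2 := by
                rw [lintegral_indicator hmeas, Measure.restrict_restrict hmeas]
            _ ≤ ∫⁻ x in closedBall c r \ Kj k, ‖Gj k x‖ₑ ^ 2 :=
                lintegral_mono_set fun x hx => ⟨ball_subset_closedBall hx.2.1, hx.1.2⟩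
      _ < ⊤ := ENNReal.ofReal_lt_top
  · refine lt_of_le_of_lt ((h.length_le hC hLsc hK hconv c r).trans
      (liminf_le_of_frequently_le' (Eventually.frequently ?_))) (ENNReal.ofReal_lt_top (r := 2 * π * r + r ^ 2))
    filter_upwards [hbound] with k hk
    exact le_trans (measure_mono (inter_subset_inter_right _ ball_subset_closedBall))
      (le_trans le_add_self hk.1)

/-- B3a: compactness of almost-minimisers. -/
theorem compact (hU : UpperSpec) (hL : LowerSpec) (hH : HolderSpec) (hC : ConcSpec)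
    (hLsc : LscSpec) : CompactSpec := by
  intro Uj Kj uj Gj Aj Mj Λj halm hred h0 hex hA hΛ
  have h : BlowData Uj Kj uj Gj Aj Mj Λj := ⟨halm, hred, hex, hA, hΛ⟩
  obtain ⟨φ₁, hφ₁, K, hK, hK0, hconv₁⟩ := exists_limit_set h0
  obtain ⟨φ₂, hφ₂, v, hv, hunif₂⟩ := (h.comp hφ₁).exists_limit_fun hH hK hconv₁
  have h₂ := (h.comp hφ₁).comp hφ₂
  have hconv₂ := hconv₁.comp hφ₂
  obtain ⟨φ₃, hφ₃, G, hGm, hae, hgrad⟩ := h₂.exists_limit_grad hK ⟨0, hK0⟩ hconv₂ hunif₂
  have h₃ := h₂.comp hφ₃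
  have hconv₃ := hconv₂.comp hφ₃
  have hunif : ∀ S : Set ℂ, IsCompact S → S ⊆ Kᶜ →
      TendstoUniformlyOn (fun j => normFun K (uj (φ₁ (φ₂ (φ₃ j))))) v atTop S :=
    fun S hS hSK U hU' => hφ₃.tendsto_atTop.eventually (hunif₂ S hS hSK U hU')
  have hweak : HasWeakGradOn Kᶜ v G :=
    h₃.weakGrad_limit hK hconv₃ hv hunif hGm hgrad
  let P : Pair :=
    { K := K
      u := v
      G := G
      isClosed := hK
      memL2 := fun S hS hSK => by
        obtain ⟨b, hb⟩ := hS.exists_bound_of_continuousOn (hv.mono hSK)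
        have : IsFiniteMeasure (volume.restrict S) := isFiniteMeasure_restrict.2 hS.measure_lt_top.ne
        exact MemLp.of_bound ((hv.mono hSK).aestronglyMeasurable hS.measurableSet) b
          ((ae_restrict_mem hS.measurableSet).mono hb)
      grad_meas := hGm
      weakGrad := hweak
      finite := fun c r => h₃.finite_limit hU hC hLsc hK hconv₃ hae c r }
  refine ⟨φ₁ ∘ φ₂ ∘ φ₃, hφ₁.comp (hφ₂.comp hφ₃), P, hK0, h₃.reduced hU hL hK hconv₃,
    ⟨hconv₃, hv, fun p hp S hS hSp => ?_, hgrad, fun c r => h₃.length_le hC hLsc hK hconv₃ c r⟩⟩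
  have hS' : insert p S ⊆ Kᶜ :=
    insert_subset hp (hSp.trans (connectedComponentIn_subset _ _))
  rw [Metric.tendstoUniformlyOn_iff]
  intro ε hε
  filter_upwards [Metric.tendstoUniformlyOn_iff.1 (hunif _ (hS.insert p) hS') (ε / 2)
    (half_pos hε)] with j hj x hx
  have h1 := hj x (mem_insert_of_mem p hx)
  have h2 := hj p (mem_insert p S)
  have h3 := normFun_sub_normFun (K := K) (uj (φ₁ (φ₂ (φ₃ j)))) (hSp hx)
  simp only [Function.comp_apply, Real.dist_eq, abs_lt, P] at *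
  constructor <;> linarith

end Vale.Agent.P128.Bridge
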