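import Vale.Agent.P128.Bridge.Conc.Cut
import Vale.Agent.P128.Circle.Eilenberg

/-!
# P128 bridge B2a: concentration

At a scale where `∫ ‖G‖` is small, most circles must meet `K` twice (otherwise a cut competitor
beats the lower density), so Eilenberg's inequality gives length nearly the diameter.
-/

open MeasureTheory Set Metric Filter
open scoped ENNReal NNReal Topology Real

noncomputable section

namespace Vale.Agent.P128.Bridge

variable {U K : Set ℂ} {u : ℂ → ℝ} {G : ℂ → ℂ} {A M Λ : ℝ}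

theorem measurable_circInt (h : IsAlmostMin U K u G A M Λ) (n : ℕ) (z : ℂ) :
    Measurable (circInt U K G n z) :=
  Measurable.lintegral_prod_right'
    (f := fun q : ℝ × ℝ => gnorm U K G (circleMap z q.1 q.2) ^ n)
    (((measurable_gnorm h).comp (continuous_circleMap_uncurry z).measurable).pow_const n)

/-- The radii with a large circle integral are few. -/
theorem few_bad_radii (h : IsAlmostMin U K u G A M Λ) (n : ℕ) (z : ℂ) {ρ B e : ℝ} (hρ : 0 < ρ)
    (hB : 0 < B) (he : 0 < e)
    (hint : ∫⁻ y in ball z ρ, gnorm U K G y ^ n ≤ ENNReal.ofReal B) :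
    volume ({r | ENNReal.ofReal (B / (e * ρ)) ≤ ENNReal.ofReal r * circInt U K G n z r} ∩
      Ioo 0 ρ) ≤ ENNReal.ofReal (e * ρ) := by
  rw [lintegral_ball_polar ((measurable_gnorm h).pow_const n).aemeasurable.restrict] at hint
  have hm := mul_meas_ge_le_lintegral₀ (μ := volume.restrict (Ioo 0 ρ))
    (f := fun r => ENNReal.ofReal r * circInt U K G n z r)
    ((ENNReal.measurable_ofReal.mul (measurable_circInt h n z)).aemeasurable)
    (ENNReal.ofReal (B / (e * ρ)))
  rw [Measure.restrict_apply' measurableSet_Ioo] at hm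
  have h2 := hm.trans hint
  have hc : ENNReal.ofReal (B / (e * ρ)) ≠ 0 := by simp; positivity
  rw [← ENNReal.mul_le_mul_iff_right hc ENNReal.ofReal_ne_top]
  refine h2.trans (le_of_eq ?_)
  rw [← ENNReal.ofReal_mul (by positivity)]
  congr 1
  field_simp

theorem real_of_not_bad {r : ℝ} (hr : 0 < r) {c : ℝ} {X : ℝ≥0∞}
    (hX : ¬ENNReal.ofReal c ≤ ENNReal.ofReal r * X) : X ≤ ENNReal.ofReal (c / r) := by
  rw [ENNReal.ofReal_div_of_pos hr,
    ENNReal.le_div_iff_mul_le (Or.inl (by simpa using hr)) (Or.inl ENNReal.ofReal_ne_top), mul_comm]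
  exact (not_le.1 hX).le

/-- **B2a, concentration.** -/
theorem conc (hU : UpperSpec) (hL : LowerSpec) : ConcSpec := by
  intro ε hε
  obtain ⟨η, δL, hη, hδL, hlow⟩ := hL
  set e : ℝ := min ε 1 / 4 with hedef
  have he : 0 < e := by positivity
  have he1 : e ≤ 1 / 4 := div_le_div_of_nonneg_right (min_le_right _ _) (by norm_num)
  have heε : 4 * e ≤ ε := by rw [hedef]; linarith [min_le_left ε 1]
  set τ : ℝ := min (1 / 2) (η / (4 * (256 / e + 1))) with hτdef
  have hτ : 0 < τ := by positivity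
  have hτ2 : τ ≤ 1 / 2 := min_le_left _ _
  set S : ℝ := Real.sqrt (τ * e ^ 3 * η / 256) with hSdef
  have hS : 0 < S := Real.sqrt_pos.2 (by positivity)
  have hS2 : S ^ 2 = τ * e ^ 3 * η / 256 := Real.sq_sqrt (by positivity)
  obtain ⟨c, hc, hscale⟩ := exists_small_scale hU hη hδL hlow hS
  refine ⟨c, min δL (min 1 (η / 4)), hc, by positivity,
    fun U K u G A M Λ h hred x hx t ht hsub hΛt => ?_⟩
  have hΛL : Λ * t ≤ δL := hΛt.trans (min_le_left _ _)
  have hΛ1 : Λ * t ≤ 1 := hΛt.trans ((min_le_right _ _).trans (min_le_left _ _))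
  have hΛη : Λ * t ≤ η / 4 := hΛt.trans ((min_le_right _ _).trans (min_le_right _ _))
  obtain ⟨z, hz, ρ, hcρ, hzρ, hL1⟩ := hscale U K u G A M Λ h hred x hx t ht hsub hΛL hΛ1
  refine ⟨z, hz, ρ, hcρ, hzρ, ?_⟩
  have hρ : 0 < ρ := lt_of_lt_of_le (by positivity) hcρ
  have hρt : ρ ≤ t := by
    have h1 : z + (ρ : ℂ) ∈ closedBall x t := hzρ (by simp [abs_of_pos hρ])
    have h2 : z - (ρ : ℂ) ∈ closedBall x t := hzρ (by simp [abs_of_pos hρ])
    have h3 := dist_triangle_right (z + (ρ : ℂ)) (z - (ρ : ℂ)) x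
    rw [mem_closedBall] at h1 h2
    rw [dist_eq_norm, show z + (ρ : ℂ) - (z - ρ) = ((2 * ρ : ℝ) : ℂ) by push_cast; ring,
      Complex.norm_real, Real.norm_of_nonneg (by linarith)] at h3
    linarith
  have hΛ0 := Λ_nonneg h
  have hsubz : closedBall z ρ ⊆ U := hzρ.trans hsub
  set sq := Real.sqrt ρ with hsqdef
  have hsq : 0 < sq := Real.sqrt_pos.2 hρ
  have hsq2 : sq * sq = ρ := Real.mul_self_sqrt hρ.le
  have hbad1 := few_bad_radii h 1 z hρ (B := S * ρ * sq) (e := e) (by positivity) he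
    (by simpa using hL1)
  have hbad2 := few_bad_radii h 2 z hρ (B := 8 * ρ) (e := e) (by positivity) he
    ((lintegral_mono_set ball_subset_closedBall).trans
      ((lintegral_gnorm_sq_le h measurableSet_closedBall).trans
        (energy_le hU h z hρ hsubz (by nlinarith))))
  set b1 := {r | ENNReal.ofReal (S * ρ * sq / (e * ρ)) ≤ ENNReal.ofReal r * circInt U K G 1 z r}
    with hb1
  set b2 := {r | ENNReal.ofReal (8 * ρ / (e * ρ)) ≤ ENNReal.ofReal r * circInt U K G 2 z r}
    with hb2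
  have hb1m : MeasurableSet b1 := measurableSet_le measurable_const
    (ENNReal.measurable_ofReal.mul (measurable_circInt h 1 z))
  have hb2m : MeasurableSet b2 := measurableSet_le measurable_const
    (ENNReal.measurable_ofReal.mul (measurable_circInt h 2 z))
  set good := Ioo (e * ρ) ρ \ (b1 ∪ b2) with hgood
  have hgoodm : MeasurableSet good := measurableSet_Ioo.diff (hb1m.union hb2m)
  -- every good circle meets `K` twice
  have htwice : ∀ r ∈ good,
      (2 : ℝ≥0∞) ≤ (((K ∩ closedBall z ρ) ∩ {y | dist y z = r}).encard : ℝ≥0∞) := by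
    rintro r ⟨⟨hre, hrρ⟩, hb⟩
    simp only [mem_union, not_or] at hb
    have hr : 0 < r := lt_trans (by positivity) hre
    have hrsub : closedBall z r ⊆ U := (closedBall_subset_closedBall hrρ.le).trans hsubz
    by_contra hlt
    have hsubs : (K ∩ sphere z r).Subsingleton := by
      by_contra hns
      obtain ⟨a, ha, b, hb', hab⟩ := not_subsingleton_iff.1 hns
      refine hlt ?_
      have hpair : ({a, b} : Set ℂ) ⊆ (K ∩ closedBall z ρ) ∩ {y | dist y z = r} := by
        rintro y (rfl | rfl)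
        · exact ⟨⟨ha.1, mem_closedBall.2 ((mem_sphere.1 ha.2).le.trans hrρ.le)⟩, ha.2⟩
        · exact ⟨⟨hb'.1, mem_closedBall.2 ((mem_sphere.1 hb'.2).le.trans hrρ.le)⟩, hb'.2⟩
      have h2 := encard_le_encard hpair
      rw [encard_pair hab] at h2
      exact_mod_cast h2
    obtain ⟨p, hp, hKp⟩ : ∃ p ∈ sphere z r, K ∩ sphere z r ⊆ {p} := by
      rcases (K ∩ sphere z r).eq_empty_or_nonempty with he' | ⟨p, hp⟩
      · exact ⟨circleMap z r 0, circleMap_mem_sphere z hr.le 0, by simp [he']⟩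
      · exact ⟨p, hp.2, fun q hq => hsubs hq hp⟩
    have hJ1 := real_of_not_bad hr hb.1
    have hJ2 := real_of_not_bad hr hb.2
    have hcut := cut_bound h (z := z) (a := (1 - τ) * r) (r := r) (by nlinarith) (by nlinarith)
      hrsub hp hKp (by positivity) (by positivity) hJ1 hJ2
    have hlo := hlow U K u G A M Λ h hred z hz r hr hrsub
      (le_trans (mul_le_mul_of_nonneg_left (hrρ.le.trans hρt) hΛ0) hΛL)
    have hfin := hlo.trans hcut
    have hd : r - (1 - τ) * r = τ * r := by ring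
    rw [hd] at hfin
    have hΛr : Λ * r ^ 2 ≤ η / 4 * r := by
      nlinarith [mul_le_mul_of_nonneg_left (hrρ.le.trans hρt) hΛ0]
    have hmain : 64 * r * (r * (S * ρ * sq / (e * ρ) / r)) ^ 2 / (τ * r) +
        32 * (τ * r) * r * (8 * ρ / (e * ρ) / r) + τ * r ≤ η / 2 * r := by
      have e1 : 64 * r * (r * (S * ρ * sq / (e * ρ) / r)) ^ 2 / (τ * r) = η / 4 * (e * ρ) := by
        have hsq' : sq ^ 2 = ρ := by rw [pow_two, hsq2]
        rw [show r * (S * ρ * sq / (e * ρ) / r) = S * sq / e by field_simp, div_pow, mul_pow,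
          hsq', hS2]
        field_simp
        norm_num
      have e2 : 32 * (τ * r) * r * (8 * ρ / (e * ρ) / r) + τ * r = τ * (256 / e + 1) * r := by
        field_simp
        ring
      have e3 : τ * (256 / e + 1) ≤ η / 4 := by
        have := mul_le_mul_of_nonneg_right (min_le_right (1 / 2 : ℝ) (η / (4 * (256 / e + 1))))
          (show (0 : ℝ) ≤ 256 / e + 1 by positivity)
        rw [← hτdef] at this
        refine this.trans_eq ?_
        field_simp
      nlinarith [mul_le_mul_of_nonneg_left hre.le (show 0 ≤ η / 4 by positivity),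
        mul_le_mul_of_nonneg_right e3 hr.le]
    rw [ENNReal.ofReal_le_ofReal_iff (by positivity)] at hfin
    nlinarith [mul_pos hη hr]
  -- Eilenberg
  refine le_trans ?_ (eilenberg_dist z (K ∩ closedBall z ρ))
  have hvol : ENNReal.ofReal ((1 - 3 * e) * ρ) ≤ volume good := by
    have hcover : Ioo (e * ρ) ρ ⊆ good ∪ ((b1 ∩ Ioo 0 ρ) ∪ (b2 ∩ Ioo 0 ρ)) := fun r hr => by
      have hr0 : r ∈ Ioo 0 ρ := ⟨lt_trans (by positivity) hr.1, hr.2⟩
      by_cases h1 : r ∈ b1
      · exact Or.inr (Or.inl ⟨h1, hr0⟩)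
      by_cases h2 : r ∈ b2
      · exact Or.inr (Or.inr ⟨h2, hr0⟩)
      exact Or.inl ⟨hr, fun h' => h'.elim h1 h2⟩
    have h1 := ((measure_mono hcover).trans (measure_union_le _ _)).trans
      (add_le_add le_rfl ((measure_union_le _ _).trans (add_le_add hbad1 hbad2)))
    rw [Real.volume_Ioo, ← ENNReal.ofReal_add (by positivity) (by positivity)] at h1
    have h2 : ENNReal.ofReal (ρ - e * ρ) =
        ENNReal.ofReal ((1 - 3 * e) * ρ) + ENNReal.ofReal (e * ρ + e * ρ) := by
      rw [← ENNReal.ofReal_add (by nlinarith) (by positivity)]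
      congr 1
      ring
    rw [h2] at h1
    exact (ENNReal.add_le_add_iff_right ENNReal.ofReal_ne_top).1 h1
  calc ENNReal.ofReal ((1 - ε) * (2 * ρ)) ≤ ENNReal.ofReal (2 * ((1 - 3 * e) * ρ)) :=
        ENNReal.ofReal_le_ofReal (by nlinarith)
    _ = 2 * ENNReal.ofReal ((1 - 3 * e) * ρ) := by
        rw [ENNReal.ofReal_mul zero_le_two, ENNReal.ofReal_ofNat]
    _ ≤ 2 * volume good := mul_le_mul_right hvol _
    _ = ∫⁻ _ in good, 2 := (setLIntegral_const _ _).symm
    _ ≤ ∫⁻ r in good, (((K ∩ closedBall z ρ) ∩ {y | dist y z = r}).encard : ℝ≥0∞) :=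
        setLIntegral_mono' hgoodm htwice
    _ ≤ _ := setLIntegral_le_lintegral _ _

end Vale.Agent.P128.Bridge
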