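import Vale.Agent.P128.Bridge.Defs

/-!
# P128 bridge: sets of small upper density are null; length of circles; the decay iteration
-/

open MeasureTheory Set Metric Filter
open scoped ENNReal NNReal Topology Real

noncomputable section

namespace Vale.Agent.P128.Bridge

/-- The length of a circle is at most `2πt`. -/
theorem hausdorff_sphere_le (z : ℂ) {t : ℝ} (ht : 0 ≤ t) :
    μH[1] (sphere z t) ≤ ENNReal.ofReal (2 * π * t) := by
  have himg : circleMap z t '' Ioc 0 (2 * π) = sphere z t := by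
    rw [image_circleMap_Ioc, abs_of_nonneg ht]
  rw [← himg]
  refine ((lipschitzWith_circleMap z t).hausdorffMeasure_image_le zero_le_one _).trans (le_of_eq ?_)
  rw [ENNReal.rpow_one, hausdorffMeasure_real, Real.volume_Ioc, sub_zero, ← ENNReal.ofReal_coe_nnreal,
    ← ENNReal.ofReal_mul (NNReal.coe_nonneg _), Real.coe_nnabs, abs_of_nonneg ht]
  congr 1
  ring

/-- The set of centres with at most half density below scale `T` is closed. -/
theorem isClosed_density (K : Set ℂ) (T : ℝ) :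
    IsClosed {x : ℂ | ∀ r : ℝ, 0 < r → r ≤ T → μH[1] (K ∩ ball x r) ≤ ENNReal.ofReal (r / 2)} := by
  refine IsSeqClosed.isClosed fun xs x hxs hlim r hr hrT => ?_
  have hU : K ∩ ball x r = ⋃ m : ℕ, K ∩ ball x (r - 1 / (m + 1)) := by
    rw [← inter_iUnion]
    congr 1
    ext y
    simp only [mem_ball, mem_iUnion]
    refine ⟨fun hy => ?_, fun ⟨m, hm⟩ => hm.trans_le (sub_le_self _ (by positivity))⟩
    obtain ⟨m, hm⟩ := exists_nat_one_div_lt (sub_pos.2 hy)
    exact ⟨m, by linarith⟩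
  have hmono : Monotone fun m : ℕ => K ∩ ball x (r - 1 / (m + 1)) := fun a b hab =>
    inter_subset_inter_right _ (ball_subset_ball (sub_le_sub_left
      (one_div_le_one_div_of_le (by positivity) (by exact_mod_cast Nat.add_le_add_right hab 1)) _))
  rw [hU, hmono.measure_iUnion]
  refine iSup_le fun m => ?_
  obtain ⟨k, hk⟩ := (Metric.tendsto_atTop.1 hlim) (1 / ((m : ℝ) + 1)) (by positivity)
  refine (measure_mono (inter_subset_inter_right _ ?_)).trans (hxs k r hr hrT)
  refine ball_subset_ball' ?_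
  linarith [hk k le_rfl, dist_comm x (xs k)]

/-- A set of finite length with upper density at most one half is null. -/
theorem hausdorff_null_of_density {S K : Set ℂ} (hS : MeasurableSet S) (hSK : S ⊆ K)
    (hfin : μH[1] S < ⊤)
    (hd : ∀ x ∈ S, ∃ T : ℝ, 0 < T ∧ ∀ r : ℝ, 0 < r → r ≤ T →
      μH[1] (K ∩ ball x r) ≤ ENNReal.ofReal (r / 2)) :
    μH[1] S = 0 := by
  set E : ℕ → Set ℂ := fun n => S ∩ {x | ∀ r : ℝ, 0 < r → r ≤ 1 / ((n : ℝ) + 1) →
    μH[1] (K ∩ ball x r) ≤ ENNReal.ofReal (r / 2)} with hE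
  have hcov : S ⊆ ⋃ n, E n := fun x hx => by
    obtain ⟨T, hT, h⟩ := hd x hx
    obtain ⟨n, hn⟩ := exists_nat_one_div_lt hT
    exact mem_iUnion.2 ⟨n, hx, fun r hr hrn => h r hr (hrn.trans hn.le)⟩
  refine measure_mono_null hcov (measure_iUnion_null fun n => ?_)
  have hEm : MeasurableSet (E n) := hS.inter (isClosed_density K _).measurableSet
  have hEfin : μH[1] (E n) < ⊤ := (measure_mono inter_subset_left).trans_lt hfin
  set μ : Measure ℂ := (2 : ℝ≥0∞) • (μH[1]).restrict (E n) with hμ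
  have hle : μ ≤ μH[1] := by
    refine Measure.le_hausdorffMeasure 1 μ (ENNReal.ofReal (1 / (2 * ((n : ℝ) + 1))))
      (ENNReal.ofReal_pos.2 (by positivity)) fun s hs => ?_
    rw [hμ, Measure.smul_apply, Measure.restrict_apply' hEm, smul_eq_mul, ENNReal.rpow_one]
    rcases (s ∩ E n).eq_empty_or_nonempty with he | ⟨x, hxs, hxE⟩
    · simp [he]
    have hdtop : ediam s ≠ ⊤ := ne_top_of_le_ne_top ENNReal.ofReal_ne_top hs
    set δ := (ediam s).toReal with hδ
    have hδ0 : 0 ≤ δ := ENNReal.toReal_nonneg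
    have hδn : δ ≤ 1 / (2 * ((n : ℝ) + 1)) :=
      ENNReal.toReal_le_of_le_ofReal (by positivity) hs
    rw [← ENNReal.ofReal_toReal hdtop, ← hδ]
    have key : ∀ r : ℝ, δ < r → r ≤ 1 / ((n : ℝ) + 1) →
        2 * μH[1] (s ∩ E n) ≤ ENNReal.ofReal r := by
      intro r hr hrn
      have hsub : s ∩ E n ⊆ K ∩ ball x r := fun y hy => ⟨hSK hy.2.1, by
        rw [mem_ball]
        refine lt_of_le_of_lt ?_ hr
        rw [hδ, dist_edist]
        exact ENNReal.toReal_mono hdtop (edist_le_ediam_of_mem hy.1 hxs)⟩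
      calc 2 * μH[1] (s ∩ E n) ≤ 2 * ENNReal.ofReal (r / 2) := by
            gcongr
            exact (measure_mono hsub).trans (hxE.2 r (hδ0.trans_lt hr) hrn)
        _ = ENNReal.ofReal r := by
            rw [show (2 : ℝ≥0∞) = ENNReal.ofReal 2 by simp, ← ENNReal.ofReal_mul (by norm_num)]
            congr 1; ring
    have hgap : 1 / (2 * ((n : ℝ) + 1)) < 1 / ((n : ℝ) + 1) := by
      apply one_div_lt_one_div_of_lt <;> linarith [(Nat.cast_nonneg n : (0 : ℝ) ≤ n)]
    have hlim : Tendsto (fun r => ENNReal.ofReal r) (𝓝[>] δ) (𝓝 (ENNReal.ofReal δ)) :=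
      (ENNReal.continuous_ofReal.tendsto δ).mono_left nhdsWithin_le_nhds
    refine ge_of_tendsto hlim ?_
    filter_upwards [Ioo_mem_nhdsGT (hδn.trans_lt hgap)] with r hr using key r hr.1 hr.2.le
  have h2 := hle (E n)
  rw [hμ, Measure.smul_apply, Measure.restrict_apply_self, smul_eq_mul, two_mul] at h2
  by_contra hne
  exact absurd h2 (not_le.2 (ENNReal.lt_add_right hEfin.ne hne))

/-- The decay iteration: small length at the top stays small at every scale. -/
theorem iteration (Y₀ C : ℝ) (hY : 0 ≤ Y₀) (hC : 1 ≤ C) :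
    ∃ η δ : ℝ, 0 < η ∧ 0 < δ ∧ ∀ (y h : ℕ → ℝ) (a : ℝ), 0 ≤ a → a ≤ δ → y 0 ≤ Y₀ → h 0 ≤ η →
      (∀ k, h k ≤ h 0 / (3 / 4) ^ k) →
      (∀ k, h k ≤ 1 / 100 → y (k + 1) ≤ 19 / 20 * y k + C * a ∧ h (k + 1) ≤ C * y k + C * a) →
      ∀ k, h k ≤ 1 / 100 := by
  obtain ⟨N, hN⟩ := exists_pow_lt_of_lt_one
    (show (0 : ℝ) < 1 / (400 * C * (Y₀ + 1)) by positivity) (show (19 / 20 : ℝ) < 1 by norm_num)
  refine ⟨(3 / 4) ^ (N + 1) / 100, 1 / (8000 * C ^ 2), by positivity, by positivity,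
    fun y h a ha haδ hy0 hh0 hmono hstep => ?_⟩
  have hC0 : 0 < C := by linarith
  have hCa : C * (20 * (C * a) + a) ≤ 1 / 200 := by
    rw [le_div_iff₀ (by positivity)] at haδ
    have := mul_le_mul_of_nonneg_left haδ (show (0 : ℝ) ≤ 1 by norm_num)
    nlinarith [mul_nonneg ha hC0.le, mul_le_mul_of_nonneg_left hC (mul_nonneg ha hC0.le)]
  suffices hmain : ∀ k, y k ≤ (19 / 20) ^ k * Y₀ + 20 * (C * a) ∧ h k ≤ 1 / 100 from
    fun k => (hmain k).2
  intro k
  induction k with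
  | zero =>
    refine ⟨by simp only [pow_zero, one_mul]; nlinarith, hh0.trans ?_⟩
    have : ((3 : ℝ) / 4) ^ (N + 1) ≤ 1 := pow_le_one₀ (by norm_num) (by norm_num)
    linarith
  | succ k ih =>
    obtain ⟨hy, hh⟩ := hstep k ih.2
    refine ⟨?_, ?_⟩
    · rw [pow_succ]
      nlinarith [ih.1]
    rcases le_or_gt (k + 1) (N + 1) with hk | hk
    · refine (hmono (k + 1)).trans ?_
      rw [div_le_iff₀ (by positivity)]
      have : ((3 : ℝ) / 4) ^ (N + 1) ≤ (3 / 4) ^ (k + 1) :=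
        pow_le_pow_of_le_one (by norm_num) (by norm_num) hk
      linarith
    · refine hh.trans ?_
      have h1 : ((19 : ℝ) / 20) ^ k ≤ (19 / 20) ^ N :=
        pow_le_pow_of_le_one (by norm_num) (by norm_num) (by omega)
      have h2 : C * ((19 / 20) ^ k * Y₀) ≤ 1 / 400 := by
        have h3 := h1.trans hN.le
        rw [le_div_iff₀ (by positivity)] at h3
        have h4 : 0 ≤ ((19 : ℝ) / 20) ^ k := by positivity
        nlinarith
      nlinarith [mul_le_mul_of_nonneg_left ih.1 hC0.le]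

end Vale.Agent.P128.Bridge
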