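import Vale.Agent.P128.Bridge.Defs

/-!
# P128 bridge: statements of the pieces

A piece file proves `theorem xxx : XxxSpec` (taking earlier Specs as hypotheses when needed).
-/

open MeasureTheory Set Metric Filter
open scoped ENNReal Topology Real RealInnerProductSpace

noncomputable section

namespace Vale.Agent.P128.Bridge

/-- B0: a minimiser is an almost-minimiser near every point of `Ω`. -/
def RegSpec : Prop :=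
  ∀ (Ω : Set ℂ) (g : ℂ → ℝ) (P : Admissible Ω), IsOpen Ω → MemLp g ⊤ (volume.restrict Ω) →
    IsMinimizer Ω g P → ∀ x ∈ Ω, ∃ R : ℝ, 0 < R ∧ closedBall x R ⊆ Ω ∧
      ∃ (v : ℂ → ℝ) (Gv : ℂ → ℂ) (A M Λ : ℝ),
        v =ᵐ[volume.restrict (ball x R)] P.u ∧
        Gv =ᵐ[volume.restrict (ball x R \ P.K)] P.G ∧
        IsAlmostMin (ball x R) (P.K ∩ ball x R) v Gv A M Λ

/-- B1a: upper bound in every closed disc. -/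
def UpperSpec : Prop :=
  ∀ (U K : Set ℂ) (u : ℂ → ℝ) (G : ℂ → ℂ) (A M Λ : ℝ), IsAlmostMin U K u G A M Λ →
    ∀ (z : ℂ) (t : ℝ), 0 < t → closedBall z t ⊆ U →
      weakEnergy K G (closedBall z t) ≤ ENNReal.ofReal (2 * π * t + Λ * t ^ 2)

/-- B1b: lower density with universal constants. -/
def LowerSpec : Prop :=
  ∃ η δ : ℝ, 0 < η ∧ 0 < δ ∧
    ∀ (U K : Set ℂ) (u : ℂ → ℝ) (G : ℂ → ℂ) (A M Λ : ℝ), IsAlmostMin U K u G A M Λ →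
      IsReducedIn U K → ∀ z ∈ K, ∀ t : ℝ, 0 < t → closedBall z t ⊆ U → Λ * t ≤ δ →
        ENNReal.ofReal (η * t) ≤ μH[1] (K ∩ closedBall z t)

/-- B1c: interior Hölder bound. -/
def HolderSpec : Prop :=
  ∃ C : ℝ, 0 ≤ C ∧
    ∀ (U K : Set ℂ) (u : ℂ → ℝ) (G : ℂ → ℂ) (A M Λ : ℝ), IsAlmostMin U K u G A M Λ →
      ∀ (x : ℂ) (R : ℝ), 0 < R → closedBall x R ⊆ U \ K → Λ * R ≤ 1 →
        ∀ y : ℂ, dist x y ≤ R / 4 → |u x - u y| ≤ C * Real.sqrt (dist x y)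

/-- B2a: concentration property. -/
def ConcSpec : Prop :=
  ∀ ε : ℝ, 0 < ε → ∃ c δ : ℝ, 0 < c ∧ 0 < δ ∧
    ∀ (U K : Set ℂ) (u : ℂ → ℝ) (G : ℂ → ℂ) (A M Λ : ℝ), IsAlmostMin U K u G A M Λ →
      IsReducedIn U K → ∀ x ∈ K, ∀ t : ℝ, 0 < t → closedBall x t ⊆ U → Λ * t ≤ δ →
        ∃ z ∈ K, ∃ ρ : ℝ, c * t ≤ ρ ∧ closedBall z ρ ⊆ closedBall x t ∧
          ENNReal.ofReal ((1 - ε) * (2 * ρ)) ≤ μH[1] (K ∩ closedBall z ρ)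

/-- B2b: lower semicontinuity of length under uniform concentration (no minimality). -/
def LscSpec : Prop :=
  ∀ (U : Set ℂ) (Kj : ℕ → Set ℂ) (K : Set ℂ), IsOpen U → IsClosed K → LocConv U Kj K →
    (∀ ε : ℝ, 0 < ε → ∃ c : ℝ, 0 < c ∧ ∀ t : ℝ, 0 < t → ∀ᶠ j in atTop,
      ∀ x ∈ Kj j, closedBall x t ⊆ U → ∃ z ∈ Kj j, ∃ ρ : ℝ, c * t ≤ ρ ∧
        closedBall z ρ ⊆ closedBall x t ∧
        ENNReal.ofReal ((1 - ε) * (2 * ρ)) ≤ μH[1] (Kj j ∩ closedBall z ρ)) →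
    μH[1] (K ∩ U) ≤ liminf (fun j => μH[1] (Kj j ∩ U)) atTop

/-- B3a: compactness of almost-minimisers on exhausting domains. -/
def CompactSpec : Prop :=
  ∀ (Uj Kj : ℕ → Set ℂ) (uj : ℕ → ℂ → ℝ) (Gj : ℕ → ℂ → ℂ) (Aj Mj Λj : ℕ → ℝ),
    (∀ j, IsAlmostMin (Uj j) (Kj j) (uj j) (Gj j) (Aj j) (Mj j) (Λj j)) →
    (∀ j, IsReducedIn (Uj j) (Kj j)) → (∀ j, (0 : ℂ) ∈ Kj j) →
    (∀ R : ℝ, ∀ᶠ j in atTop, closedBall (0 : ℂ) R ⊆ Uj j) →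
    Tendsto Aj atTop (𝓝 0) → Tendsto Λj atTop (𝓝 0) →
    ∃ φ : ℕ → ℕ, StrictMono φ ∧ ∃ P : Pair, (0 : ℂ) ∈ P.K ∧ IsReduced P.K ∧
      Converges (Kj ∘ φ) (uj ∘ φ) (Gj ∘ φ) P

/-- B3b: limits of almost-minimisers are global minimisers. -/
def LimitSpec : Prop :=
  ∀ (Uj Kj : ℕ → Set ℂ) (uj : ℕ → ℂ → ℝ) (Gj : ℕ → ℂ → ℂ) (Aj Mj Λj : ℕ → ℝ),
    (∀ j, IsAlmostMin (Uj j) (Kj j) (uj j) (Gj j) (Aj j) (Mj j) (Λj j)) →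
    (∀ R : ℝ, ∀ᶠ j in atTop, closedBall (0 : ℂ) R ⊆ Uj j) →
    Tendsto Λj atTop (𝓝 0) →
    ∀ P : Pair, Converges Kj uj Gj P → IsGlobalMinimizer P

/-- Scale covariance of almost-minimality. -/
def ScaleSpec : Prop :=
  ∀ (U K : Set ℂ) (u : ℂ → ℝ) (G : ℂ → ℂ) (A M Λ : ℝ), IsAlmostMin U K u G A M Λ →
    ∀ (x : ℂ) (r : ℝ), 0 < r →
      IsAlmostMin (blowSet x r U) (blowSet x r K) (blowFun x r u) (blowGrad x r G)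
        (A * (r * Real.sqrt r)) (M / Real.sqrt r) (Λ * r)

/-- Target: blow-ups of reduced minimisers are reduced global minimisers. -/
def BlowUpSpec : Prop :=
  ∀ (Ω : Set ℂ) (g : ℂ → ℝ) (P : Admissible Ω), IsOpen Ω → MemLp g ⊤ (volume.restrict Ω) →
    IsMinimizer Ω g P → IsReducedIn Ω P.K → ∀ x ∈ P.K, ∀ r : ℕ → ℝ, (∀ j, 0 < r j) →
      Tendsto r atTop (𝓝 0) →
      ∃ φ : ℕ → ℕ, StrictMono φ ∧ ∃ Q : Pair, IsGlobalMinimizer Q ∧ IsReduced Q.K ∧ (0 : ℂ) ∈ Q.K ∧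
        LocConv univ (fun j => blowSet x (r (φ j)) P.K) Q.K ∧
        ∀ C : Set ℂ, IsCompact C → C ⊆ Q.Kᶜ →
          Tendsto (fun j => ∫⁻ z in C, ‖blowGrad x (r (φ j)) P.G z - Q.G z‖ₑ ^ 2) atTop (𝓝 0)

end Vale.Agent.P128.Bridge
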