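import Vale.Agent.P128.Bridge.Sobolev
import Vale.Agent.P128.Bridge.Spec
import Vale.Agent.P128.Bridge.Covering

/-!
# P128 bridge B1a: the upper bound

Replace `u` by zero in the disc and add its circle.
-/

open MeasureTheory Set Metric Filter
open scoped ENNReal NNReal Topology Real RealInnerProductSpace

noncomputable section

namespace Vale.Agent.P128.Bridge

theorem upper : UpperSpec := by
  intro U K u G A M Λ h z t ht hsub
  classical
  set L : Set ℂ := (K \ closedBall z t) ∪ sphere z t with hL
  set w : ℂ → ℝ := fun x => if x ∈ closedBall z t then 0 else u x with hw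
  set Gw : ℂ → ℂ := fun x => if x ∈ closedBall z t then 0 else G x with hGw
  have heq : U \ L = (U \ K) \ closedBall z t ∪ ball z t := by
    ext x
    simp only [hL, Set.mem_sdiff, mem_union, mem_closedBall, mem_ball, mem_sphere, not_or, not_and,
      not_not]
    constructor
    · rintro ⟨hxU, h1, h2⟩
      by_cases hx : dist x z ≤ t
      · exact Or.inr (lt_of_le_of_ne hx h2)
      · exact Or.inl ⟨⟨hxU, fun hK => hx (h1 hK)⟩, hx⟩
    · rintro (⟨⟨hxU, hK⟩, hx⟩ | hx)
      · exact ⟨hxU, fun hK' => absurd hK' hK, fun h2 => hx h2.le⟩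
      · exact ⟨hsub (mem_closedBall.2 hx.le), fun _ => hx.le, hx.ne⟩
  have hopen1 : IsOpen ((U \ K) \ closedBall z t) := h.isOpen_compl.sdiff isClosed_closedBall
  have hLU : L ⊆ U :=
    union_subset (fun x hx => h.subset hx.1) (sphere_subset_closedBall.trans hsub)
  have hLopen : IsOpen (U \ L) := heq ▸ hopen1.union isOpen_ball
  have hLK : L \ closedBall z t = K \ closedBall z t := by
    rw [hL, union_sdiff_distrib, sdiff_eq_empty.2 sphere_subset_closedBall, union_empty,
      Set.sdiff_sdiff, union_self]
  have hsob : IsSobolevOn (U \ L) w Gw := by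
    rw [heq]
    refine IsSobolevOn.union hopen1 isOpen_ball ?_ ?_
    · refine (h.isSobolevOn.mono sdiff_subset).congr hopen1.measurableSet ?_ ?_ <;>
        filter_upwards [ae_restrict_mem hopen1.measurableSet] with x hx
      · simp only [hw]; rw [if_neg hx.2]
      · simp only [hGw]; rw [if_neg hx.2]
    · refine (isSobolevOn_const isOpen_ball 0).congr measurableSet_ball ?_ ?_ <;>
        filter_upwards [ae_restrict_mem measurableSet_ball] with x hx
      · simp only [hw]; rw [if_pos (ball_subset_closedBall hx)]
      · simp only [hGw]; rw [if_pos (ball_subset_closedBall hx)]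
  have hout : ∀ᵐ x ∂volume.restrict (U \ closedBall z t), w x = u x := by
    filter_upwards [ae_restrict_mem (h.isOpen.measurableSet.diff measurableSet_closedBall)] with x hx
    simp only [hw]; rw [if_neg hx.2]
  have hcomp := h.almostMin z t ht hsub L w Gw hLU hLopen hLK hsob hout
  have hen : weakEnergy L Gw (closedBall z t) ≤ ENNReal.ofReal (2 * π * t) := by
    have h1 : ∫⁻ x in closedBall z t \ L, ‖Gw x‖ₑ ^ 2 = 0 := by
      have hm : MeasurableSet (closedBall z t \ L) := by
        have : closedBall z t \ L = closedBall z t ∩ (U \ L) :=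
          ext fun x => ⟨fun hx => ⟨hx.1, hsub hx.1, hx.2⟩, fun hx => ⟨hx.1, hx.2.2⟩⟩
        rw [this]
        exact measurableSet_closedBall.inter hLopen.measurableSet
      refine lintegral_eq_zero_of_ae_eq_zero ?_
      filter_upwards [ae_restrict_mem hm] with x hx
      simp only [hGw]
      rw [if_pos hx.1]
      simp
    have h2 : L ∩ closedBall z t ⊆ sphere z t := fun x hx =>
      hx.1.resolve_left fun h' => h'.2 hx.2
    unfold weakEnergy
    rw [h1, zero_add]
    exact (measure_mono h2).trans (hausdorff_sphere_le z ht.le)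
  refine hcomp.trans ?_
  rw [ENNReal.ofReal_add (by positivity)
    (mul_nonneg ((mul_nonneg h.A_nonneg h.M_nonneg).trans h.AM_le) (sq_nonneg t))]
  exact add_le_add hen le_rfl

end Vale.Agent.P128.Bridge
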