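import Vale.Agent.P128.Bridge.CircleTest
import Vale.Agent.P128.Bridge.Upper

/-!
# P128 bridge B1c: the interior Hölder bound

The upper bound gives energy `≤ 8ρ` in discs; average the radial oscillation over a disc.
-/

open MeasureTheory Set Metric Filter
open scoped ENNReal NNReal Topology Real RealInnerProductSpace

noncomputable section

namespace Vale.Agent.P128.Bridge

variable {U K : Set ℂ} {u : ℂ → ℝ} {G : ℂ → ℂ} {A M Λ : ℝ} {a : ℂ} {d : ℝ}
  (h : IsAlmostMin U K u G A M Λ) (hd : 0 < d) (hsub : closedBall a d ⊆ U \ K) (hΛ : Λ * d ≤ 1)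
include h hd hsub

/-- The energy density along rays, continued constantly. -/
theorem continuous_rays :
    Continuous fun p : ℝ × ℝ => ‖G (circleMap a (max 0 (min d p.2)) p.1)‖ := by
  refine (h.contGrad.comp_continuous ((continuous_circleMap_uncurry a).comp
    ((continuous_const.max (continuous_const.min continuous_snd)).prodMk continuous_fst))
      fun p => hsub ?_).norm
  simp only [Function.comp_apply, mem_closedBall, dist_eq_norm, circleMap_sub_center,
    norm_circleMap_zero, abs_of_nonneg (le_max_left (0 : ℝ) _)]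
  exact max_le hd.le (min_le_left _ _)

/-- The fundamental theorem along a radius. -/
theorem radial_le {r : ℝ} (hr : 0 < r) (hrd : r < d) (θ : ℝ) :
    ENNReal.ofReal |u (circleMap a r θ) - u a| ≤
      ∫⁻ ρ in Ioo 0 d, ENNReal.ofReal ‖G (circleMap a (max 0 (min d ρ)) θ)‖ := by
  set e : ℂ := Complex.exp (θ * Complex.I) with he
  have hmem : ∀ t ∈ Icc 0 r, circleMap a t θ ∈ U \ K := fun t ht => hsub <| by
    rw [mem_closedBall, dist_eq_norm, circleMap_sub_center, norm_circleMap_zero, abs_of_nonneg ht.1]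
    exact ht.2.trans hrd.le
  have hder : ∀ t ∈ uIcc 0 r,
      HasDerivAt (fun t => u (circleMap a t θ)) ⟪G (circleMap a t θ), e⟫ t := fun t ht => by
    rw [uIcc_of_le hr.le] at ht
    have h1 : HasDerivAt (fun t : ℝ => circleMap a t θ) e t := by
      simpa [circleMap, he] using
        ((Complex.ofRealCLM.hasDerivAt (x := t)).mul_const e).const_add a
    exact (h.hasGrad _ (hmem t ht)).comp_hasDerivAt t h1
  have hc : Continuous fun t : ℝ => ‖G (circleMap a (max 0 (min d t)) θ)‖ :=
    (continuous_rays h hd hsub).comp (continuous_const.prodMk continuous_id)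
  have hci : ContinuousOn (fun t => ⟪G (circleMap a t θ), e⟫) (uIcc 0 r) := by
    rw [uIcc_of_le hr.le]
    exact (h.contGrad.comp (((continuous_circleMap_uncurry a).comp
      (continuous_id.prodMk continuous_const)).continuousOn) hmem).inner continuousOn_const
  have h2 : |u (circleMap a r θ) - u a| ≤ ∫ t in (0)..r, ‖G (circleMap a (max 0 (min d t)) θ)‖ := by
    have h3 := intervalIntegral.integral_eq_sub_of_hasDerivAt hder hci.intervalIntegrable
    simp only [circleMap_zero_radius, Function.const_apply] at h3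
    rw [← h3]
    refine (intervalIntegral.abs_integral_le_integral_abs hr.le).trans
      (intervalIntegral.integral_mono_on hr.le hci.abs.intervalIntegrable
        (hc.intervalIntegrable _ _) fun t ht => ?_)
    rw [min_eq_right (ht.2.trans hrd.le), max_eq_right ht.1]
    refine (abs_real_inner_le_norm _ _).trans ?_
    rw [he, Complex.norm_exp_ofReal_mul_I, mul_one]
  refine (ENNReal.ofReal_le_ofReal h2).trans ?_
  rw [intervalIntegral.integral_of_le hr.le,
    ofReal_integral_eq_lintegral_ofReal (hc.integrableOn_Icc.mono_set Ioc_subset_Icc_self)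
      (Eventually.of_forall fun t => norm_nonneg _)]
  exact lintegral_mono_set fun t ht => ⟨ht.1, ht.2.trans_lt hrd⟩

include hΛ

/-- One dyadic range of radii. -/
theorem shell_le {p : ℝ} (hp : 0 < p) (hpd : p ≤ d) :
    ∫⁻ ρ in Ioc (p / 4) p, ∫⁻ θ in Ioo (-π) π,
        ENNReal.ofReal ‖G (circleMap a (max 0 (min d ρ)) θ)‖ ≤
      ENNReal.ofReal (40 * Real.sqrt p) := by
  have hsp := Real.sqrt_pos.2 hp
  set b := (Real.sqrt p)⁻¹ with hb
  have hb0 : 0 < b := inv_pos.2 hsp
  have hpt : ∀ ρ ∈ Ioc (p / 4) p, ∀ θ : ℝ,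
      ENNReal.ofReal ‖G (circleMap a (max 0 (min d ρ)) θ)‖ ≤
        ENNReal.ofReal b * (ENNReal.ofReal ρ * ‖G (circleMap a ρ θ)‖ₑ ^ 2) +
          ENNReal.ofReal (4 / (b * p)) := fun ρ hρ θ => by
    have hρ0 : 0 < ρ := lt_trans (by linarith) hρ.1
    rw [min_eq_right (hρ.2.trans hpd), max_eq_right hρ0.le, ← ofReal_norm,
      ← ENNReal.ofReal_pow (norm_nonneg _), ← ENNReal.ofReal_mul hρ0.le,
      ← ENNReal.ofReal_mul hb0.le, ← ENNReal.ofReal_add (by positivity) (by positivity)]
    refine ENNReal.ofReal_le_ofReal ?_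
    set N := ‖G (circleMap a ρ θ)‖
    have hN : 0 ≤ N := norm_nonneg _
    set c := b * p / 4 with hc
    have hc0 : 0 < c := by positivity
    have h1 : c * N ^ 2 ≤ b * (ρ * N ^ 2) := by
      rw [← mul_assoc]
      refine mul_le_mul_of_nonneg_right ?_ (sq_nonneg _)
      rw [hc, mul_div_assoc]
      exact mul_le_mul_of_nonneg_left hρ.1.le hb0.le
    have h2 : 4 / (b * p) = 1 / c := by rw [hc]; field_simp
    rw [h2]
    have h3 : N ≤ c * N ^ 2 + 1 / c := by
      rw [← sub_nonneg]
      have : 0 ≤ (c * N - 1) ^ 2 / c := by positivity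
      have e : c * N ^ 2 + 1 / c = (c * N - 1) ^ 2 / c + 2 * N := by field_simp; ring
      linarith
    linarith
  refine (setLIntegral_mono' measurableSet_Ioc fun ρ hρ => lintegral_mono fun θ => hpt ρ hρ θ).trans ?_
  simp only [lintegral_add_right _ measurable_const, setLIntegral_const, Real.volume_Ioo,
    Real.volume_Ioc]
  have hball : ∫⁻ ρ in Ioo (0 : ℝ) p, ∫⁻ θ in Ioo (-π) π,
      ENNReal.ofReal b * (ENNReal.ofReal ρ * ‖G (circleMap a ρ θ)‖ₑ ^ 2) ≤
        ENNReal.ofReal b * ENNReal.ofReal (8 * p) := by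
    simp only [lintegral_const_mul' _ _ ENNReal.ofReal_ne_top]
    rw [← lintegral_ball_polar (f := fun y => ‖G y‖ₑ ^ 2)
      (((h.contGrad.mono (ball_subset_closedBall.trans
        ((closedBall_subset_closedBall hpd).trans hsub))).aemeasurable
          measurableSet_ball).enorm.pow_const (2 : ℕ))]
    refine mul_le_mul_right ?_ _
    have hU : closedBall a p ⊆ U :=
      ((closedBall_subset_closedBall hpd).trans hsub).trans sdiff_subset
    refine le_trans (lintegral_mono_set (show ball a p ⊆ closedBall a p \ K from fun y hy =>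
      ⟨ball_subset_closedBall hy,
        (hsub (closedBall_subset_closedBall hpd (ball_subset_closedBall hy))).2⟩))
      ((le_self_add.trans (upper U K u G A M Λ h a p hp hU)).trans (ENNReal.ofReal_le_ofReal ?_))
    have hΛ0 : 0 ≤ Λ := (mul_nonneg h.A_nonneg h.M_nonneg).trans h.AM_le
    nlinarith [mul_le_mul_of_nonneg_right ((mul_le_mul_of_nonneg_left hpd hΛ0).trans hΛ) hp.le,
      mul_le_mul_of_nonneg_right Real.pi_lt_d2.le hp.le]
  refine (add_le_add_left ((lintegral_mono_set fun ρ hρ => ⟨by linarith [hρ.1], hρ.2⟩ :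
    _ ≤ ∫⁻ ρ in Ioc (0 : ℝ) p, _).trans
      ((setLIntegral_congr Ioo_ae_eq_Ioc).symm.le.trans hball)) _).trans ?_
  have hq : 0 ≤ π - -π := by linarith [Real.pi_pos]
  rw [← ENNReal.ofReal_mul hb0.le, ← ENNReal.ofReal_mul (by positivity),
    ← ENNReal.ofReal_mul (by positivity), ← ENNReal.ofReal_add (by positivity) (mul_nonneg
      (mul_nonneg (by positivity) hq) (by linarith))]
  refine ENNReal.ofReal_le_ofReal ?_
  have e1 : b * p = Real.sqrt p := by
    rw [hb, inv_mul_eq_div, Real.div_sqrt]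
  have e2 : 1 / (b * p) * p = Real.sqrt p := by
    rw [e1, one_div_mul_eq_div, Real.div_sqrt]
  rw [show b * (8 * p) + 4 / (b * p) * (π - -π) * (p - p / 4) =
    8 * (b * p) + 6 * π * (1 / (b * p) * p) by ring, e2, e1]
  nlinarith [Real.pi_lt_d2]

/-- Averaged oscillation at the centre. -/
theorem ball_osc_le :
    ∫⁻ y in ball a d, ENNReal.ofReal |u y - u a| ≤ ENNReal.ofReal (80 * (d ^ 2 * Real.sqrt d)) := by
  have hm : AEMeasurable (fun y => ENNReal.ofReal |u y - u a|) (volume.restrict (ball a d)) := by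
    refine ((ContinuousOn.aemeasurable (fun y hy => ?_) measurableSet_ball)).ennreal_ofReal
    exact (((h.hasGrad y (hsub (ball_subset_closedBall hy))).continuousAt.sub
      continuousAt_const).abs).continuousWithinAt
  rw [lintegral_ball_polar hm]
  set γ : ℝ → ℝ → ℝ≥0∞ := fun θ ρ => ENNReal.ofReal ‖G (circleMap a (max 0 (min d ρ)) θ)‖ with hγ
  calc ∫⁻ r in Ioo 0 d, ENNReal.ofReal r *
        ∫⁻ θ in Ioo (-π) π, ENNReal.ofReal |u (circleMap a r θ) - u a|
      ≤ ∫⁻ _ in Ioo 0 d, ENNReal.ofReal d * ∫⁻ θ in Ioo (-π) π, ∫⁻ ρ in Ioo 0 d, γ θ ρ :=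
        setLIntegral_mono' measurableSet_Ioo fun r hr =>
          mul_le_mul' (ENNReal.ofReal_le_ofReal hr.2.le)
            (lintegral_mono fun θ => radial_le h hd hsub hr.1 hr.2 θ)
    _ = ENNReal.ofReal d * ENNReal.ofReal d * ∫⁻ ρ in Ioo 0 d, ∫⁻ θ in Ioo (-π) π, γ θ ρ := by
        rw [setLIntegral_const, Real.volume_Ioo, sub_zero, lintegral_lintegral_swap]
        · ring
        · exact ((continuous_rays h hd hsub).measurable.ennreal_ofReal).aemeasurable
    _ ≤ ENNReal.ofReal d * ENNReal.ofReal d * ENNReal.ofReal (80 * Real.sqrt d) := by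
        refine mul_le_mul_right ?_ _
        set J : ℕ → Set ℝ := fun k => Ioc (d * (1 / 4) ^ k / 4) (d * (1 / 4) ^ k) with hJ
        have hcov : Ioo 0 d ⊆ ⋃ k, J k := fun ρ hρ => by
          obtain ⟨k, hk1, hk2⟩ := exists_nat_pow_near_of_lt_one (div_pos hρ.1 hd)
            ((div_le_one hd).2 hρ.2.le) (show (0 : ℝ) < 1 / 4 by norm_num) (by norm_num)
          rw [lt_div_iff₀ hd, pow_succ] at hk1
          rw [div_le_iff₀ hd] at hk2
          exact mem_iUnion.2 ⟨k, by linarith, by linarith⟩
        have hk : ∀ k, ∫⁻ ρ in J k, ∫⁻ θ in Ioo (-π) π, γ θ ρ ≤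
            ENNReal.ofReal (40 * Real.sqrt d * (1 / 2) ^ k) := fun k => by
          have hle : d * (1 / 4) ^ k ≤ d :=
            mul_le_of_le_one_right hd.le (pow_le_one₀ (by norm_num) (by norm_num))
          refine (shell_le h hd hsub hΛ (by positivity) hle).trans (ENNReal.ofReal_le_ofReal ?_)
          rw [Real.sqrt_mul hd.le, show ((1 : ℝ) / 4) ^ k = ((1 / 2) ^ k) ^ 2 by
            rw [← pow_mul, mul_comm k, pow_mul]; norm_num, Real.sqrt_sq (by positivity), mul_assoc]
        refine ((lintegral_mono_set hcov).trans (lintegral_iUnion_le _ _)).trans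
          ((ENNReal.tsum_le_tsum hk).trans (le_of_eq ?_))
        rw [← ENNReal.ofReal_tsum_of_nonneg (fun k => by positivity)
          (summable_geometric_two.mul_left _), tsum_mul_left, tsum_geometric_two]
        congr 1
        ring
    _ = _ := by
        rw [← ENNReal.ofReal_mul hd.le, ← ENNReal.ofReal_mul (by positivity)]
        congr 1
        ring

end Vale.Agent.P128.Bridge

namespace Vale.Agent.P128.Bridge

theorem holder : HolderSpec := by
  refine ⟨640, by norm_num, fun U K u G A M Λ h x R hR hsub hΛR y hy => ?_⟩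
  rcases eq_or_ne x y with rfl | hne
  · simp
  set d := dist x y with hd
  have hd0 : 0 < d := dist_pos.2 hne
  have hΛ0 : 0 ≤ Λ := (mul_nonneg h.A_nonneg h.M_nonneg).trans h.AM_le
  have hΛd : Λ * d ≤ 1 := (mul_le_mul_of_nonneg_left (by linarith) hΛ0).trans hΛR
  have hx : closedBall x d ⊆ U \ K := (closedBall_subset_closedBall (by linarith)).trans hsub
  have hy' : closedBall y d ⊆ U \ K :=
    (closedBall_subset_closedBall' (by rw [dist_comm y x]; linarith)).trans hsub
  set q := (2 : ℝ)⁻¹ • (x + y) with hq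
  have hsq : ∀ a, a = x ∨ a = y → ball q (d / 2) ⊆ ball a d := fun a ha => by
    refine ball_subset_ball' ?_
    have : dist q a = d / 2 := by
      rw [hd, dist_eq_norm, dist_eq_norm]
      rcases ha with rfl | rfl
      · rw [hq, show (2 : ℝ)⁻¹ • (a + y) - a = -((2 : ℝ)⁻¹ • (a - y)) by module, norm_neg,
          norm_smul]
        norm_num; ring
      · rw [hq, show (2 : ℝ)⁻¹ • (x + a) - a = (2 : ℝ)⁻¹ • (x - a) by module, norm_smul]
        norm_num; ring
    linarith
  have hmeas : ∀ a, AEMeasurable (fun z => ENNReal.ofReal |u z - u a|)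
      (volume.restrict (ball q (d / 2))) := fun a => by
    refine ((ContinuousOn.aemeasurable (fun z hz => ?_) measurableSet_ball)).ennreal_ofReal
    exact (((h.hasGrad z (hx (ball_subset_closedBall (hsq x (Or.inl rfl) hz)))).continuousAt.sub
      continuousAt_const).abs).continuousWithinAt
  have h1 : ENNReal.ofReal |u x - u y| * volume (ball q (d / 2)) ≤
      ENNReal.ofReal (80 * (d ^ 2 * Real.sqrt d)) + ENNReal.ofReal (80 * (d ^ 2 * Real.sqrt d)) := by
    rw [← setLIntegral_const]
    refine le_trans (lintegral_mono fun z => ?_) ((lintegral_add_left' (hmeas x) _).le.trans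
      (add_le_add ((lintegral_mono_set (hsq x (Or.inl rfl))).trans (ball_osc_le h hd0 hx hΛd))
        ((lintegral_mono_set (hsq y (Or.inr rfl))).trans (ball_osc_le h hd0 hy' hΛd))))
    rw [← ENNReal.ofReal_add (abs_nonneg _) (abs_nonneg _)]
    refine ENNReal.ofReal_le_ofReal ?_
    linarith [abs_sub_le (u x) (u z) (u y), abs_sub_comm (u x) (u z)]
  have hv : volume (ball q (d / 2)) = ENNReal.ofReal (π * (d / 2) ^ 2) := by
    rw [Complex.volume_ball, ← ENNReal.ofReal_pow (by positivity), ← NNReal.coe_real_pi,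
      ← ENNReal.ofReal_coe_nnreal, ← ENNReal.ofReal_mul (by positivity), mul_comm]
  rw [hv, ← ENNReal.ofReal_mul (abs_nonneg _), ← ENNReal.ofReal_add (by positivity) (by positivity),
    ENNReal.ofReal_le_ofReal_iff (by positivity)] at h1
  have hd2 : 0 < d ^ 2 := by positivity
  refine le_of_mul_le_mul_right ?_ hd2
  nlinarith [mul_le_mul_of_nonneg_left Real.two_le_pi (mul_nonneg (abs_nonneg (u x - u y)) hd2.le),
    mul_nonneg (Real.sqrt_nonneg d) hd2.le]

end Vale.Agent.P128.Bridge
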