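import Vale.Agent.P128.Bridge.Decay
import Vale.Agent.P128.Bridge.Holder

/-!
# P128 bridge B1: density bounds

`Vale.Agent.P128.Bridge.upper`, `lower`, `holder` prove `UpperSpec`, `LowerSpec`, `HolderSpec`.
-/
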