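import Vale.Agent.P128.Bridge.Spec

/-!
# P128 bridge B2b: lower semicontinuity of length under uniform concentration

Pure measure theory: an ultrafilter realising the lower limit, limit discs of concentration,
and a Vitali disjoint subfamily.
-/

open MeasureTheory Set Metric Filter
open scoped ENNReal Topology Real RealInnerProductSpace

noncomputable section

namespace Vale.Agent.P128.Bridge

/-- For nested closed discs, distance of centres plus inner radius is at most the outer radius. -/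
private theorem dist_add_le_of_closedBall_subset {z w : ℂ} {ρ t : ℝ} (hρ : 0 ≤ ρ)
    (h : closedBall z ρ ⊆ closedBall w t) : dist z w + ρ ≤ t := by
  obtain ⟨v, hv, hvn⟩ : ∃ v : ℂ, ‖v‖ = 1 ∧ ‖(z - w) + ρ • v‖ = ‖z - w‖ + ρ := by
    by_cases h0 : z - w = 0
    · refine ⟨1, norm_one, ?_⟩
      simp [h0, abs_of_nonneg hρ]
    · refine ⟨(‖z - w‖⁻¹ : ℝ) • (z - w), norm_smul_inv_norm h0, ?_⟩
      rw [smul_smul, (SameRay.sameRay_nonneg_smul_right (z - w) (by positivity)).norm_add,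
        norm_smul, Real.norm_eq_abs, abs_of_nonneg (by positivity), mul_assoc,
        inv_mul_cancel₀ (norm_ne_zero_iff.2 h0), mul_one]
  have hmem : z + ρ • v ∈ closedBall w t := h (by
    simp [mem_closedBall, dist_eq_norm, hv, abs_of_nonneg hρ])
  rw [mem_closedBall, dist_eq_norm, add_sub_right_comm, hvn, ← dist_eq_norm] at hmem
  exact hmem

/-- A good disc: contained in `U` and carrying almost its diameter of length along `ℱ`. -/
private def IsGoodDisc (U : Set ℂ) (Kj : ℕ → Set ℂ) (ℱ : Filter ℕ) (θ : ℝ) (b : ℂ × ℝ) : Prop :=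
  0 < b.2 ∧ closedBall b.1 b.2 ⊆ U ∧
    ∀ᶠ j in ℱ, ENNReal.ofReal (θ * (2 * b.2)) ≤ μH[1] (Kj j ∩ closedBall b.1 b.2)

/-- Total diameter of disjoint good discs. -/
private theorem tsum_goodDisc_le {U : Set ℂ} {Kj : ℕ → Set ℂ} {ℱ : Ultrafilter ℕ} {θ : ℝ}
    {a : ℝ≥0∞} (hθ : 0 < θ) (ha : ∀ᶠ j in (ℱ : Filter ℕ), μH[1] (Kj j ∩ U) ≤ a)
    {u : Set (ℂ × ℝ)} (hu : ∀ b ∈ u, IsGoodDisc U Kj ℱ θ b)
    (hdisj : u.PairwiseDisjoint fun b => closedBall b.1 b.2) :
    ∑' b : u, ENNReal.ofReal (2 * (b : ℂ × ℝ).2) ≤ a / ENNReal.ofReal θ := by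
  rw [ENNReal.tsum_eq_iSup_sum]
  refine iSup_le fun S => ?_
  have hθ0 : ENNReal.ofReal θ ≠ 0 := by simpa using hθ
  rw [ENNReal.le_div_iff_mul_le (Or.inl hθ0) (Or.inl ENNReal.ofReal_ne_top), Finset.sum_mul]
  obtain ⟨j, hj, hja⟩ := (((Finset.eventually_all S).2
    fun (b : u) (_ : b ∈ S) => (hu b b.2).2.2).and ha).exists
  refine le_trans ?_ hja
  calc ∑ b ∈ S, ENNReal.ofReal (2 * (b : ℂ × ℝ).2) * ENNReal.ofReal θ
      ≤ ∑ b ∈ S, (μH[1].restrict (Kj j ∩ U))
          (closedBall (b : ℂ × ℝ).1 (b : ℂ × ℝ).2) := by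
        refine Finset.sum_le_sum fun b hb => ?_
        have hsub : closedBall (b : ℂ × ℝ).1 (b : ℂ × ℝ).2 ⊆ U := (hu b b.2).2.1
        rw [Measure.restrict_apply measurableSet_closedBall, mul_comm,
          ← ENNReal.ofReal_mul hθ.le]
        refine le_trans (hj b hb) (measure_mono ?_)
        exact fun x hx => ⟨hx.2, hx.1, hsub hx.2⟩
    _ = (μH[1].restrict (Kj j ∩ U)) (⋃ b ∈ S, closedBall (b : ℂ × ℝ).1 (b : ℂ × ℝ).2) := by
        refine (measure_biUnion_finset ?_ fun _ _ => measurableSet_closedBall).symm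
        intro b _ b' _ hbb'
        exact hdisj b.2 b'.2 fun h => hbb' (Subtype.ext h)
    _ ≤ (μH[1].restrict (Kj j ∩ U)) univ := measure_mono (subset_univ _)
    _ = μH[1] (Kj j ∩ U) := Measure.restrict_apply_univ _

/-- Limit discs of concentration: arbitrarily small good discs near every point of `K ∩ U`. -/
private theorem exists_goodDisc {U K : Set ℂ} {Kj : ℕ → Set ℂ} {ℱ : Ultrafilter ℕ}
    (hℱ : (ℱ : Filter ℕ) ≤ atTop) (hU : IsOpen U) (hconv : LocConv U Kj K)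
    {ε c : ℝ} (hε : 0 < ε) (hε1 : ε < 1) (hc : 0 < c)
    (hconc : ∀ t : ℝ, 0 < t → ∀ᶠ j in atTop, ∀ x ∈ Kj j, closedBall x t ⊆ U →
      ∃ z ∈ Kj j, ∃ ρ : ℝ, c * t ≤ ρ ∧ closedBall z ρ ⊆ closedBall x t ∧
        ENNReal.ofReal ((1 - ε) * (2 * ρ)) ≤ μH[1] (Kj j ∩ closedBall z ρ))
    {z : ℂ} (hz : z ∈ K ∩ U) {δ : ℝ} (hδ : 0 < δ) :
    ∃ b : ℂ × ℝ, IsGoodDisc U Kj ℱ ((1 - ε) / (1 + ε) ^ 2) b ∧ b.2 ≤ δ ∧
      dist z b.1 ≤ 2 / c * b.2 ∧ dist z b.1 + b.2 ≤ δ := by
  obtain ⟨η, hη, hηU⟩ := nhds_basis_closedBall.mem_iff.1 (hU.mem_nhds hz.2)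
  obtain ⟨t, ht, ht4, ht4U⟩ : ∃ t : ℝ, 0 < t ∧ 6 * t ≤ δ ∧ 6 * t ≤ η :=
    ⟨min δ η / 6, by positivity, by linarith [min_le_left δ η], by linarith [min_le_right δ η]⟩
  have hsub : closedBall z (2 * t) ⊆ U :=
    (closedBall_subset_closedBall (by linarith)).trans hηU
  let Q : ℕ → ℂ × ℝ → Prop := fun j p =>
    p.1 ∈ Kj j ∧ c * t ≤ p.2 ∧ dist p.1 z + p.2 ≤ 2 * t ∧
      ENNReal.ofReal ((1 - ε) * (2 * p.2)) ≤ μH[1] (Kj j ∩ closedBall p.1 p.2)
  have hev : ∀ᶠ j in atTop, ∃ p : ℂ × ℝ, Q j p := by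
    filter_upwards [hconv.2 z hz t ht, hconc t ht] with j hw hj
    obtain ⟨x, hx, hxd⟩ := hw
    have hxz : closedBall x t ⊆ closedBall z (2 * t) :=
      closedBall_subset_closedBall' (by rw [dist_comm] at hxd; linarith)
    obtain ⟨w, hwK, ρ, hρ, hρsub, hρm⟩ := hj x hx (hxz.trans hsub)
    have hρ0 : 0 ≤ ρ := le_trans (by positivity) hρ
    exact ⟨(w, ρ), hwK, hρ, dist_add_le_of_closedBall_subset hρ0 (hρsub.trans hxz), hρm⟩
  choose! p hp using fun j (hj : ∃ p : ℂ × ℝ, Q j p) => hj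
  have hp' : ∀ᶠ j in (ℱ : Filter ℕ), Q j (p j) := (hev.filter_mono hℱ).mono fun j hj => hp j hj
  have hS : IsCompact (closedBall z (2 * t) ×ˢ Icc (c * t) (2 * t)) :=
    (isCompact_closedBall z (2 * t)).prod isCompact_Icc
  have hmem : ∀ᶠ j in (ℱ : Filter ℕ), p j ∈ closedBall z (2 * t) ×ˢ Icc (c * t) (2 * t) := by
    filter_upwards [hp'] with j hj
    obtain ⟨-, h1, h2, -⟩ := hj
    have h3 : 0 ≤ (p j).2 := le_trans (by positivity) h1
    exact ⟨mem_closedBall.2 (by linarith), h1, by linarith [dist_nonneg (x := (p j).1) (y := z)]⟩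
  obtain ⟨⟨z', ρ⟩, hS', hlim⟩ :=
    hS.ultrafilter_le_nhds (ℱ.map p) (le_principal_iff.2 hmem)
  have hlim' : Tendsto p ℱ (𝓝 (z', ρ)) := hlim
  have hρ : c * t ≤ ρ := hS'.2.1
  have hρ2 : ρ ≤ 2 * t := hS'.2.2
  have hρ0 : 0 < ρ := lt_of_lt_of_le (by positivity) hρ
  have hz' : dist z' z ≤ 2 * t := mem_closedBall.1 hS'.1
  have hr : (1 + ε) * ρ ≤ 4 * t := by nlinarith
  refine ⟨(z', (1 + ε) * ρ), ⟨by positivity, ?_, ?_⟩, by linarith, ?_, ?_⟩
  · exact (closedBall_subset_closedBall' (by linarith)).trans hηU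
  · have hclose : ∀ᶠ j in (ℱ : Filter ℕ), dist (p j) (z', ρ) < ε / (1 + ε) * ρ / 2 :=
      Metric.tendsto_nhds.1 hlim' _ (by positivity)
    filter_upwards [hp', hclose] with j hj hd
    obtain ⟨-, -, -, hm⟩ := hj
    rw [Prod.dist_eq, max_lt_iff] at hd
    obtain ⟨hd1, hd2⟩ := hd
    rw [Real.dist_eq, abs_lt] at hd2
    have he : ε / (1 + ε) * ρ = ρ - ρ / (1 + ε) := by field_simp; ring
    have hle : ε / (1 + ε) * ρ ≤ ε * ρ := by
      refine mul_le_mul_of_nonneg_right ?_ hρ0.le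
      exact div_le_self hε.le (by linarith)
    have hlow : ρ / (1 + ε) ≤ (p j).2 := by
      have : 0 ≤ ε / (1 + ε) * ρ := by positivity
      linarith
    have hin : closedBall (p j).1 (p j).2 ⊆ closedBall z' ((1 + ε) * ρ) :=
      closedBall_subset_closedBall' (by nlinarith)
    refine le_trans ?_ (le_trans hm (measure_mono (inter_subset_inter_right _ hin)))
    refine ENNReal.ofReal_le_ofReal ?_
    have h1ε : 0 ≤ 1 - ε := by linarith
    calc (1 - ε) / (1 + ε) ^ 2 * (2 * ((1 + ε) * ρ)) = (1 - ε) * (2 * (ρ / (1 + ε))) := by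
          field_simp
      _ ≤ (1 - ε) * (2 * (p j).2) := by gcongr
  · rw [dist_comm]
    refine hz'.trans ?_
    have h2 : 2 * t ≤ 2 / c * ρ := by
      rw [div_mul_eq_mul_div, le_div_iff₀ hc]; linarith
    refine h2.trans (mul_le_mul_of_nonneg_left ?_ (by positivity))
    nlinarith
  · rw [dist_comm]
    linarith

/-- If good discs cover `K ∩ U` finely, the Vitali argument bounds its length. -/
private theorem length_le_of_fine {U K : Set ℂ} {Kj : ℕ → Set ℂ} {ℱ : Ultrafilter ℕ} {θ M : ℝ}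
    {a : ℝ≥0∞} (hθ : 0 < θ) (hM : 0 ≤ M) (ha : ∀ᶠ j in (ℱ : Filter ℕ), μH[1] (Kj j ∩ U) ≤ a)
    (ha' : a ≠ ⊤)
    (hfine : ∀ z ∈ K ∩ U, ∀ δ : ℝ, 0 < δ → ∃ b : ℂ × ℝ, IsGoodDisc U Kj ℱ θ b ∧ b.2 ≤ δ ∧
      dist z b.1 ≤ M * b.2 ∧ dist z b.1 + b.2 ≤ δ) :
    μH[1] (K ∩ U) ≤ a / ENNReal.ofReal θ := by
  have hstep : ∀ δ : ℝ, 0 < δ → ∃ (ι : Type) (_ : Countable ι) (s : ι → Set ℂ),
      (∀ i, ediam (s i) ≤ ENNReal.ofReal ((2 * M + 4) * 2 * δ)) ∧ K ∩ U ⊆ ⋃ i, s i ∧
      ∑' i, ediam (s i) ^ (1 : ℝ) ≤ a / ENNReal.ofReal θ + ENNReal.ofReal δ := by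
    intro δ hδ
    set N := 2 * M + 4 with hN
    obtain ⟨u, hut, hdisj, hcov⟩ :=
      Vitali.exists_disjoint_subfamily_covering_enlargement
        (fun b : ℂ × ℝ => closedBall b.1 b.2)
        {b : ℂ × ℝ | IsGoodDisc U Kj ℱ θ b ∧ b.2 ≤ δ} (fun b => b.2) 2 one_lt_two
        (fun b hb => hb.1.1.le) δ (fun b hb => hb.2)
        (fun b hb => nonempty_closedBall.2 hb.1.1.le)
    have huc : u.Countable := hdisj.countable_of_nonempty_interior fun b hb =>
      ⟨b.1, ball_subset_interior_closedBall (mem_ball_self (hut hb).1.1)⟩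
    have : Countable u := huc.to_subtype
    have hsum : ∑' b : u, ENNReal.ofReal (2 * (b : ℂ × ℝ).2) ≤ a / ENNReal.ofReal θ :=
      tsum_goodDisc_le hθ ha (fun b hb => (hut hb).1) hdisj
    have hfin : ∑' b : u, ENNReal.ofReal (2 * (b : ℂ × ℝ).2) ≠ ⊤ :=
      ne_top_of_le_ne_top (ENNReal.div_ne_top ha' (by simpa using hθ)) hsum
    have htail := ENNReal.tendsto_tsum_compl_atTop_zero hfin
    have hN0 : (0 : ℝ) < N := by positivity
    obtain ⟨S, hS⟩ := eventually_atTop.1 (htail.eventually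
      (gt_mem_nhds (show (0 : ℝ≥0∞) < ENNReal.ofReal (δ / N) by simpa using div_pos hδ hN0)))
    have hS' := hS S le_rfl
    classical
    refine ⟨u, inferInstance, fun b => if b ∈ S then closedBall (b : ℂ × ℝ).1 (b : ℂ × ℝ).2
      else closedBall (b : ℂ × ℝ).1 (N * (b : ℂ × ℝ).2), ?_, ?_, ?_⟩
    · intro b
      have hb0 : 0 < (b : ℂ × ℝ).2 := (hut b.2).1.1
      have hb1 : (b : ℂ × ℝ).2 ≤ δ := (hut b.2).2
      simp only
      split_ifs
      · refine ediam_le_of_forall_dist_le fun x hx y hy => ?_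
        rw [mem_closedBall] at hx hy
        nlinarith [dist_triangle_right x y (b : ℂ × ℝ).1]
      · refine ediam_le_of_forall_dist_le fun x hx y hy => ?_
        rw [mem_closedBall] at hx hy
        nlinarith [dist_triangle_right x y (b : ℂ × ℝ).1]
    · intro z hz
      by_cases hzS : ∃ b ∈ S, z ∈ closedBall (b : ℂ × ℝ).1 (b : ℂ × ℝ).2
      · obtain ⟨b, hbS, hzb⟩ := hzS
        exact mem_iUnion.2 ⟨b, by rwa [if_pos hbS]⟩
      · push Not at hzS
        have hclosed : IsClosed (⋃ b ∈ S, closedBall (b : ℂ × ℝ).1 (b : ℂ × ℝ).2) :=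
          isClosed_biUnion_finset fun _ _ => isClosed_closedBall
        have hznot : z ∉ ⋃ b ∈ S, closedBall (b : ℂ × ℝ).1 (b : ℂ × ℝ).2 := by
          simpa using hzS
        obtain ⟨e, he, hesub⟩ :=
          nhds_basis_closedBall.mem_iff.1 (hclosed.isOpen_compl.mem_nhds hznot)
        obtain ⟨b₀, hgood, hb₀δ, hb₀d, hb₀e⟩ := hfine z hz (min δ e) (lt_min hδ he)
        obtain ⟨b, hbu, ⟨q, hq1, hq2⟩, hbr⟩ :=
          hcov b₀ ⟨hgood, hb₀δ.trans (min_le_left _ _)⟩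
        have hbS : (⟨b, hbu⟩ : u) ∉ S := by
          intro hbS
          have hqz : q ∈ closedBall z e := by
            rw [mem_closedBall] at hq1 ⊢
            linarith [dist_triangle q b₀.1 z, dist_comm z b₀.1, min_le_right δ e]
          exact hesub hqz (mem_biUnion hbS hq2)
        refine mem_iUnion.2 ⟨⟨b, hbu⟩, ?_⟩
        rw [if_neg hbS, mem_closedBall]
        rw [mem_closedBall] at hq1 hq2
        have hb0 : 0 < b.2 := (hut hbu).1.1
        have h1 : M * b₀.2 ≤ M * (2 * b.2) := mul_le_mul_of_nonneg_left hbr hM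
        have h2 : dist z b.1 ≤ dist z b₀.1 + (dist q b₀.1 + dist q b.1) :=
          (dist_triangle z b₀.1 b.1).trans
            (add_le_add le_rfl (dist_triangle_left b₀.1 b.1 q))
        rw [hN]
        linarith
    · simp only [ENNReal.rpow_one]
      rw [← ENNReal.summable.tsum_add_tsum_compl (s := (S : Set u)) ENNReal.summable]
      refine add_le_add ?_ ?_
      · refine le_trans (le_trans (ENNReal.tsum_le_tsum ?_)
          (ENNReal.tsum_comp_le_tsum_of_injective Subtype.val_injective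
            fun b : u => ENNReal.ofReal (2 * (b : ℂ × ℝ).2))) hsum
        rintro ⟨b, hb⟩
        rw [if_pos (Finset.mem_coe.1 hb)]
        refine ediam_le_of_forall_dist_le fun x hx y hy => ?_
        rw [mem_closedBall] at hx hy
        linarith [dist_triangle_right x y (b : ℂ × ℝ).1]
      · calc ∑' b : ↥((S : Set u)ᶜ), ediam (if (b : u) ∈ S then
              closedBall ((b : u) : ℂ × ℝ).1 ((b : u) : ℂ × ℝ).2
              else closedBall ((b : u) : ℂ × ℝ).1 (N * ((b : u) : ℂ × ℝ).2))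
            ≤ ∑' b : ↥((S : Set u)ᶜ),
                ENNReal.ofReal N * ENNReal.ofReal (2 * ((b : u) : ℂ × ℝ).2) := by
              refine ENNReal.tsum_le_tsum ?_
              rintro ⟨b, hb⟩
              rw [if_neg (fun h => hb (Finset.mem_coe.2 h)), ← ENNReal.ofReal_mul hN0.le]
              refine ediam_le_of_forall_dist_le fun x hx y hy => ?_
              rw [mem_closedBall] at hx hy
              linarith [dist_triangle_right x y (b : ℂ × ℝ).1]
          _ = ENNReal.ofReal N *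
                ∑' b : ↥((S : Set u)ᶜ), ENNReal.ofReal (2 * ((b : u) : ℂ × ℝ).2) :=
              ENNReal.tsum_mul_left
          _ ≤ ENNReal.ofReal N * ENNReal.ofReal (δ / N) := mul_le_mul_right hS'.le _
          _ = ENNReal.ofReal δ := by
              rw [← ENNReal.ofReal_mul hN0.le, mul_div_cancel₀ _ hN0.ne']
  choose ι hι s hdiam hsubs hsum using fun n : ℕ => hstep (1 / ((n : ℝ) + 1)) (by positivity)
  have := hι
  have h0 : Tendsto (fun n : ℕ => 1 / ((n : ℝ) + 1)) atTop (𝓝 0) :=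
    tendsto_one_div_add_atTop_nhds_zero_nat
  have hr : Tendsto (fun n : ℕ => ENNReal.ofReal ((2 * M + 4) * 2 * (1 / ((n : ℝ) + 1)))) atTop
      (𝓝 0) := by
    simpa using ENNReal.tendsto_ofReal (h0.const_mul ((2 * M + 4) * 2))
  refine le_trans (Measure.hausdorffMeasure_le_liminf_tsum 1 _ _ hr s
    (Eventually.of_forall hdiam) (Eventually.of_forall hsubs)) ?_
  have hlim : Tendsto (fun n : ℕ => a / ENNReal.ofReal θ + ENNReal.ofReal (1 / ((n : ℝ) + 1)))
      atTop (𝓝 (a / ENNReal.ofReal θ)) := by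
    simpa using tendsto_const_nhds.add (ENNReal.tendsto_ofReal h0)
  exact (liminf_le_liminf (Eventually.of_forall hsum)).trans_eq hlim.liminf_eq

/-- B2b: lower semicontinuity of length under uniform concentration. -/
theorem lsc : LscSpec := by
  intro U Kj K hU _ hconv hconc
  refine le_of_forall_gt_imp_ge_of_dense fun a ha => ?_
  rcases eq_or_ne a ⊤ with rfl | ha'
  · exact le_top
  have hfreq : ∃ᶠ j in atTop, μH[1] (Kj j ∩ U) < a := frequently_lt_of_liminf_lt (by isBoundedDefault) ha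
  have : (atTop ⊓ 𝓟 {j : ℕ | μH[1] (Kj j ∩ U) < a}).NeBot :=
    frequently_mem_iff_neBot.1 hfreq
  let ℱ : Ultrafilter ℕ := Ultrafilter.of (atTop ⊓ 𝓟 {j : ℕ | μH[1] (Kj j ∩ U) < a})
  have hℱ : (ℱ : Filter ℕ) ≤ atTop := (Ultrafilter.of_le _).trans inf_le_left
  have hℱa : ∀ᶠ j in (ℱ : Filter ℕ), μH[1] (Kj j ∩ U) ≤ a :=
    Filter.Eventually.filter_mono ((Ultrafilter.of_le _).trans inf_le_right)
      (eventually_principal.2 fun j hj => le_of_lt hj)
  have hε : ∀ ε : ℝ, 0 < ε → ε < 1 →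
      μH[1] (K ∩ U) ≤ a / ENNReal.ofReal ((1 - ε) / (1 + ε) ^ 2) := by
    intro ε hε0 hε1
    obtain ⟨c, hc, hct⟩ := hconc ε hε0
    exact length_le_of_fine (M := 2 / c) (div_pos (by linarith) (by positivity)) (by positivity)
      hℱa ha' fun z hz δ hδ => exists_goodDisc hℱ hU hconv hε0 hε1 hc hct hz hδ
  have hlim : Tendsto (fun n : ℕ =>
      a / ENNReal.ofReal ((1 - 1 / ((n : ℝ) + 2)) / (1 + 1 / ((n : ℝ) + 2)) ^ 2))
      atTop (𝓝 (a / 1)) := by
    have h1 : Tendsto (fun n : ℕ => 1 / ((n : ℝ) + 2)) atTop (𝓝 0) :=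
      tendsto_const_nhds.div_atTop (tendsto_atTop_add_const_right _ _ tendsto_natCast_atTop_atTop)
    have h2 : Tendsto (fun n : ℕ => (1 - 1 / ((n : ℝ) + 2)) / (1 + 1 / ((n : ℝ) + 2)) ^ 2)
        atTop (𝓝 1) := by
      simpa [Pi.div_def] using
        ((tendsto_const_nhds (x := (1 : ℝ))).sub h1).div
          (((tendsto_const_nhds (x := (1 : ℝ))).add h1).pow 2) (by norm_num)
    refine ENNReal.Tendsto.const_div ?_ (Or.inl ENNReal.one_ne_top)
    simpa using ENNReal.tendsto_ofReal h2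
  refine (ge_of_tendsto hlim (Eventually.of_forall fun n => ?_)).trans (by simp)
  refine hε _ (by positivity) ?_
  rw [div_lt_one (by positivity)]
  linarith [n.cast_nonneg (α := ℝ)]

end Vale.Agent.P128.Bridge
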