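import Vale.Agent.P128.Bridge.Main
import Vale.Agent.P128.Bridge.Density
import Vale.Agent.P128.Bridge.Conc
import Vale.Agent.P128.Bridge.Compact
import Vale.Agent.P128.Bridge.Lsc

/-!
# P128 bridge: assembly
-/

noncomputable section

namespace Vale.Agent.P128.Bridge

theorem concSpec : ConcSpec := conc upper lower

theorem compactSpec : CompactSpec := compact upper lower holder concSpec lsc

theorem blowUp (hReg : RegSpec) : BlowUpSpec := blowUp_of_pieces hReg compactSpec

end Vale.Agent.P128.Bridge
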