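import Vale.Agent.P128.Bridge.Defs

/-!
# P128 bridge: polar coordinates about an arbitrary centre
-/

open MeasureTheory Set Metric Filter
open scoped ENNReal Topology Real

noncomputable section

namespace Vale.Agent.P128.Bridge

theorem circleMap_eq_add_polarCoord (z : ℂ) (r θ : ℝ) :
    circleMap z r θ = z + Complex.polarCoord.symm (r, θ) := by
  simp [circleMap, Complex.exp_mul_I]

theorem continuous_circleMap_uncurry (z : ℂ) :
    Continuous fun p : ℝ × ℝ => circleMap z p.1 p.2 := by
  unfold circleMap; fun_prop

/-- Polar coordinates about `z`. -/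
theorem lintegral_polar {f : ℂ → ℝ≥0∞} (hf : AEMeasurable f) (z : ℂ) :
    ∫⁻ x, f x = ∫⁻ r in Ioi (0 : ℝ), ENNReal.ofReal r * ∫⁻ θ in Ioo (-π) π, f (circleMap z r θ) := by
  obtain ⟨g, hg, hfg⟩ : ∃ g, Measurable g ∧ f =ᵐ[volume] g :=
    ⟨hf.mk f, hf.measurable_mk, hf.ae_eq_mk⟩
  have key : ∀ g : ℂ → ℝ≥0∞, Measurable g → ∫⁻ x, g x =
      ∫⁻ r in Ioi (0 : ℝ), ∫⁻ θ in Ioo (-π) π, ENNReal.ofReal r * g (circleMap z r θ) := by
    intro g hg
    rw [← lintegral_add_left_eq_self g z, ← Complex.lintegral_comp_polarCoord_symm,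
      polarCoord_target, Measure.volume_eq_prod, setLIntegral_prod]
    · refine lintegral_congr fun r => lintegral_congr fun θ => ?_
      rw [smul_eq_mul, circleMap_eq_add_polarCoord]
    · refine Measurable.aemeasurable ?_
      simp only [smul_eq_mul]
      refine (measurable_fst.ennreal_ofReal).mul ?_
      have h' := hg.comp (continuous_circleMap_uncurry z).measurable
      simp only [Function.comp_def, circleMap_eq_add_polarCoord] at h'
      exact h'
  -- the null set where `f ≠ g` meets almost every circle in a null set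
  obtain ⟨N, hNsub, hN, hN0⟩ := exists_measurable_superset_of_null (ae_iff.1 hfg)
  have h0 : ∀ᵐ r ∂volume.restrict (Ioi (0 : ℝ)),
      ∀ᵐ θ ∂volume.restrict (Ioo (-π) π), circleMap z r θ ∉ N := by
    have h1 := key (N.indicator 1) (measurable_one.indicator hN)
    rw [lintegral_indicator_one hN, hN0, eq_comm, lintegral_eq_zero_iff'] at h1
    · filter_upwards [h1, ae_restrict_mem measurableSet_Ioi] with r hr hr0
      rw [Pi.zero_apply, lintegral_eq_zero_iff'] at hr
      · filter_upwards [hr] with θ hθ
        intro hmem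
        simp [indicator_of_mem hmem, ENNReal.ofReal_eq_zero, not_le.2 (mem_Ioi.1 hr0)] at hθ
      · exact ((measurable_one.indicator hN).comp
          ((continuous_circleMap z r).measurable)).aemeasurable.const_mul _
    · refine Measurable.aemeasurable ?_
      refine Measurable.lintegral_prod_right'
        (f := fun p : ℝ × ℝ => ENNReal.ofReal p.1 * N.indicator 1 (circleMap z p.1 p.2)) ?_
      exact (measurable_fst.ennreal_ofReal).mul ((measurable_one.indicator hN).comp
        (continuous_circleMap_uncurry z).measurable)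
  rw [lintegral_congr_ae hfg, key g hg]
  refine lintegral_congr_ae ?_
  filter_upwards [h0] with r hr
  have hm : Measurable fun θ => g (circleMap z r θ) := hg.comp (continuous_circleMap z r).measurable
  rw [lintegral_const_mul _ hm]
  congr 1
  refine lintegral_congr_ae ?_
  filter_upwards [hr] with θ hθ
  by_contra hne
  exact hθ (hNsub fun h => hne h.symm)

/-- Polar coordinates on a disc. -/
theorem lintegral_ball_polar {f : ℂ → ℝ≥0∞} {z : ℂ} {R : ℝ}
    (hf : AEMeasurable f (volume.restrict (ball z R))) :
    ∫⁻ x in ball z R, f x =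
      ∫⁻ r in Ioo (0 : ℝ) R, ENNReal.ofReal r * ∫⁻ θ in Ioo (-π) π, f (circleMap z r θ) := by
  rw [← lintegral_indicator measurableSet_ball,
    lintegral_polar ((aemeasurable_indicator_iff measurableSet_ball).2 hf) z,
    ← lintegral_indicator measurableSet_Ioo, ← lintegral_indicator measurableSet_Ioi]
  refine lintegral_congr fun r => ?_
  by_cases hr : 0 < r
  · rw [indicator_of_mem (mem_Ioi.2 hr)]
    by_cases hR : r < R
    · rw [indicator_of_mem (show r ∈ Ioo (0 : ℝ) R from ⟨hr, hR⟩)]
      congr 1
      refine lintegral_congr fun θ => indicator_of_mem ?_ _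
      rw [mem_ball, dist_eq_norm, circleMap_sub_center, norm_circleMap_zero, abs_of_pos hr]
      exact hR
    · rw [indicator_of_notMem (fun h : r ∈ Ioo (0 : ℝ) R => hR h.2)]
      refine mul_eq_zero_of_right _ (lintegral_eq_zero_of_ae_eq_zero ?_)
      refine Eventually.of_forall fun θ => indicator_of_notMem ?_ _
      rw [mem_ball, dist_eq_norm, circleMap_sub_center, norm_circleMap_zero, abs_of_pos hr]
      exact hR
  · rw [indicator_of_notMem (fun h : r ∈ Ioi (0 : ℝ) => hr h),
      indicator_of_notMem (fun h : r ∈ Ioo (0 : ℝ) R => hr h.1)]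

end Vale.Agent.P128.Bridge
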