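import Vale.Agent.P128.Bridge.Sobolev
import Vale.Agent.P128.Bridge.Polar
import Vale.Agent.P128.Circle.Wirtinger

/-!
# P128 bridge B1: the flux bound on a free circle

On a circle free of `K` the energy inside is at most half the radius times the circle's energy.
-/

open MeasureTheory Set Metric Filter
open scoped ENNReal NNReal Topology Real RealInnerProductSpace

noncomputable section

namespace Vale.Agent.P128.Bridge

/-- `∫ ‖G‖²` over the circle, in the angle. -/
def circEnergy (G : ℂ → ℂ) (x : ℂ) (s : ℝ) : ℝ := ∫ θ in (-π)..π, ‖G (circleMap x s θ)‖ ^ 2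

/-- The tangential derivative along the circle. -/
def tang (G : ℂ → ℂ) (x : ℂ) (s θ : ℝ) : ℝ :=
  ⟪G (circleMap x s θ), circleMap 0 s θ * Complex.I⟫

/-- The radial derivative along the circle, times the radius. -/
def radl (G : ℂ → ℂ) (x : ℂ) (s θ : ℝ) : ℝ := ⟪G (circleMap x s θ), circleMap 0 s θ⟫

theorem inner_sq_split (w a : ℂ) :
    ⟪w, a⟫ ^ 2 + ⟪w, a * Complex.I⟫ ^ 2 = ‖a‖ ^ 2 * ‖w‖ ^ 2 := by
  simp only [Complex.inner, Complex.sq_norm, Complex.normSq_apply, Complex.mul_re, Complex.mul_im,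
    Complex.conj_re, Complex.conj_im, Complex.I_re, Complex.I_im]
  ring

theorem tang_sq_add (G : ℂ → ℂ) (x : ℂ) (s θ : ℝ) :
    radl G x s θ ^ 2 + tang G x s θ ^ 2 = s ^ 2 * ‖G (circleMap x s θ)‖ ^ 2 := by
  rw [radl, tang, inner_sq_split, norm_circleMap_zero, sq_abs]

section

variable {U K : Set ℂ} {u : ℂ → ℝ} {G : ℂ → ℂ} {A M Λ : ℝ} {x : ℂ} {s : ℝ}

theorem free_mem (hs : 0 ≤ s) (hsub : closedBall x s ⊆ U)
    (hfree : ∀ y ∈ sphere x s, y ∉ K) (θ : ℝ) : circleMap x s θ ∈ U \ K :=
  ⟨hsub (sphere_subset_closedBall (circleMap_mem_sphere x hs θ)),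
    hfree _ (circleMap_mem_sphere x hs θ)⟩

variable (h : IsAlmostMin U K u G A M Λ) (hs : 0 < s) (hsub : closedBall x s ⊆ U)
  (hfree : ∀ y ∈ sphere x s, y ∉ K)
include h hs hsub hfree

theorem continuous_grad_circle : Continuous fun θ => G (circleMap x s θ) :=
  h.contGrad.comp_continuous (continuous_circleMap x s) (free_mem hs.le hsub hfree)

theorem continuous_tang : Continuous (tang G x s) :=
  (continuous_grad_circle h hs hsub hfree).inner
    ((continuous_circleMap 0 s).mul continuous_const)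

theorem continuous_radl : Continuous (radl G x s) :=
  (continuous_grad_circle h hs hsub hfree).inner (continuous_circleMap 0 s)

theorem continuous_trace : Continuous fun θ => u (circleMap x s θ) :=
  (continuousOn_iff_continuous_domRestrict.1 fun y hy =>
    (h.hasGrad y hy).continuousAt.continuousWithinAt).comp
    ((continuous_circleMap x s).subtype_mk (free_mem hs.le hsub hfree))

theorem hasDerivAt_trace (θ : ℝ) :
    HasDerivAt (fun θ => u (circleMap x s θ)) (tang G x s θ) θ :=
  (h.hasGrad _ (free_mem hs.le hsub hfree θ)).comp_hasDerivAt θ (hasDerivAt_circleMap x s θ)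

theorem trace_primitive (a b : ℝ) :
    u (circleMap x s b) = u (circleMap x s a) + ∫ θ in a..b, tang G x s θ := by
  rw [intervalIntegral.integral_eq_sub_of_hasDerivAt
    (fun θ _ => hasDerivAt_trace h hs hsub hfree θ)
    ((continuous_tang h hs hsub hfree).intervalIntegrable a b)]
  ring

/-- Wirtinger on the two half circles through an antipodal pair of equal values. -/
theorem exists_centre : ∃ m : ℝ, (∃ p ∈ U \ K, m = u p) ∧
    ∫ θ in (-π)..π, (u (circleMap x s θ) - m) ^ 2 ≤ ∫ θ in (-π)..π, tang G x s θ ^ 2 := by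
  set v := fun θ => u (circleMap x s θ) with hv
  have hc : Continuous v := continuous_trace h hs hsub hfree
  have hg := continuous_tang h hs hsub hfree
  have hper : Function.Periodic v (2 * π) := fun θ => by
    simp only [hv, periodic_circleMap x s θ]
  have hgper : Function.Periodic (tang G x s) (2 * π) := fun θ => by
    simp only [tang, periodic_circleMap x s θ, periodic_circleMap 0 s θ]
  obtain ⟨a, -, ha⟩ : ∃ a ∈ uIcc (-π) 0, v (a + π) - v a = 0 := by
    have h0 : v (-π + π) - v (-π) = v 0 - v (-π) := by rw [neg_add_cancel]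
    have h1 : v (0 + π) - v 0 = v (-π) - v 0 := by
      rw [zero_add, ← hper (-π)]; ring_nf
    have hmem : (0 : ℝ) ∈ uIcc (v (-π + π) - v (-π)) (v (0 + π) - v 0) := by
      rw [h0, h1]
      rcases le_total (v 0) (v (-π)) with hle | hle
      · exact mem_uIcc.2 (Or.inl ⟨by linarith, by linarith⟩)
      · exact mem_uIcc.2 (Or.inr ⟨by linarith, by linarith⟩)
    exact intermediate_value_uIcc
      ((hc.comp (continuous_add_const π)).sub hc).continuousOn hmem
  refine ⟨v a, ⟨_, free_mem hs.le hsub hfree a, rfl⟩, ?_⟩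
  have hp := Real.pi_pos
  have key : ∀ b : ℝ, v b = v a → v (b + π) = v a →
      ∫ θ in b..(b + π), (v θ - v a) ^ 2 ≤ ∫ θ in b..(b + π), tang G x s θ ^ 2 := by
    intro b hb hb'
    have hw := wirtinger_dirichlet (V := fun θ => v θ - v a) (g := tang G x s)
      (show b < b + π by linarith) (hg.intervalIntegrable _ _) ((hg.pow 2).intervalIntegrable _ _)
      (fun y _ => by
        show v y - v a = v b - v a + _
        simp only [hv]
        rw [trace_primitive h hs hsub hfree b y]; ring)
      (by simp [hb]) (by simp [hb'])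
    rwa [add_sub_cancel_left, div_self hp.ne', one_pow, one_mul] at hw
  have e1 : v (a + π) = v a := by linarith [ha]
  have e2 : v (a + π + π) = v a := by
    rw [show a + π + π = a + 2 * π by ring]; exact hper a
  have hq : Function.Periodic (fun θ => (v θ - v a) ^ 2) (2 * π) := fun θ => by
    simp only [hper θ]
  have hq' : Function.Periodic (fun θ => tang G x s θ ^ 2) (2 * π) := fun θ => by
    simp only [hgper θ]
  have i1 : Continuous fun θ => (v θ - v a) ^ 2 := (hc.sub continuous_const).pow 2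
  have i2 : Continuous fun θ => tang G x s θ ^ 2 := hg.pow 2
  have t1 := hq.intervalIntegral_add_eq a (-π)
  have t2 := hq'.intervalIntegral_add_eq a (-π)
  rw [show -π + 2 * π = π by ring, show a + 2 * π = a + π + π by ring] at t1 t2
  rw [← t1, ← t2,
    ← intervalIntegral.integral_add_adjacent_intervals (i1.intervalIntegrable a (a + π))
      (i1.intervalIntegrable _ _),
    ← intervalIntegral.integral_add_adjacent_intervals (i2.intervalIntegrable a (a + π))
      (i2.intervalIntegrable _ _)]
  exact add_le_add (key a rfl e1) (key (a + π) e1 e2)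

end

variable {U K : Set ℂ} {u : ℂ → ℝ} {G : ℂ → ℂ} {A M Λ : ℝ} {x : ℂ} {s : ℝ}

/-- The profile of the cutoff. -/
def ctProf (s e : ℝ) (r : ℝ) : ℝ := Real.smoothTransition ((s ^ 2 - r ^ 2) / e)

/-- The cutoff of the disc. -/
def disk (x : ℂ) (s e : ℝ) (y : ℂ) : ℝ := Real.smoothTransition ((s ^ 2 - ‖y - x‖ ^ 2) / e)

/-- The weight of the flux. -/
def dweight (s e r : ℝ) : ℝ := deriv Real.smoothTransition ((s ^ 2 - r ^ 2) / e) * (2 / e)

theorem continuous_dweight (s e : ℝ) : Continuous (dweight s e) :=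
  ((Real.smoothTransition.contDiff (n := (⊤ : ℕ∞))).continuous_deriv (by simp)).comp
    ((continuous_const.sub (continuous_pow 2)).div_const e) |>.mul continuous_const

theorem dweight_nonneg {e : ℝ} (he : 0 < e) (s r : ℝ) : 0 ≤ dweight s e r :=
  mul_nonneg Real.smoothTransition.monotone.deriv_nonneg (by positivity)

theorem dweight_eq_zero {e : ℝ} (he : 0 < e) {s r : ℝ} (hr : s ^ 2 < r ^ 2 ∨ r ^ 2 < s ^ 2 - e) :
    dweight s e r = 0 := by
  suffices h0 : deriv Real.smoothTransition ((s ^ 2 - r ^ 2) / e) = 0 by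
    rw [dweight, h0, zero_mul]
  rcases hr with hr | hr
  · have hlt : (s ^ 2 - r ^ 2) / e < 0 := div_neg_of_neg_of_pos (by linarith) he
    rw [(eventuallyEq_of_mem (Iio_mem_nhds hlt) fun t ht =>
      Real.smoothTransition.zero_of_nonpos (le_of_lt ht)).deriv_eq, deriv_const]
  · have hgt : 1 < (s ^ 2 - r ^ 2) / e := by rw [lt_div_iff₀ he]; linarith
    rw [(eventuallyEq_of_mem (Ioi_mem_nhds hgt) fun t ht =>
      Real.smoothTransition.one_of_one_le (le_of_lt ht)).deriv_eq, deriv_const]

theorem integral_dweight {e : ℝ} (he : 0 < e) {s : ℝ} (hes : e ≤ s ^ 2) :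
    ∫ r in (0 : ℝ)..s, dweight s e r * r = 1 := by
  have hd : ∀ r, HasDerivAt (fun r => -ctProf s e r) (dweight s e r * r) r := fun r => by
    have h1 : HasDerivAt (fun r : ℝ => (s ^ 2 - r ^ 2) / e) (-(2 * r) / e) r := by
      have := (((hasDerivAt_pow 2 r).const_sub (s ^ 2)).div_const e)
      simpa using this
    have h2 := (((Real.smoothTransition.contDiff (n := (⊤ : ℕ∞))).differentiable (by simp)
      ((s ^ 2 - r ^ 2) / e)).hasDerivAt.comp r h1).neg
    refine h2.congr_deriv ?_
    rw [dweight]; ring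
  rw [intervalIntegral.integral_eq_sub_of_hasDerivAt (fun r _ => hd r)
    (((continuous_dweight s e).mul continuous_id).intervalIntegrable _ _)]
  simp only [ctProf]
  rw [sub_self, zero_div, Real.smoothTransition.zero, Real.smoothTransition.one_of_one_le
    (by rw [le_div_iff₀ he]; nlinarith)]
  ring

theorem contDiff_disk (x : ℂ) (s e : ℝ) :
    ContDiff ℝ ((⊤ : ℕ∞) : WithTop ℕ∞) (disk x s e) :=
  (Real.smoothTransition.contDiff (n := (⊤ : ℕ∞))).comp
    ((contDiff_const.sub ((contDiff_id.sub contDiff_const).norm_sq ℝ)).div_const e)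

theorem gradOf_disk (x : ℂ) (s e : ℝ) (y : ℂ) :
    gradOf (disk x s e) y = (-dweight s e ‖y - x‖) • (y - x) := by
  refine gradOf_eq_of_hasFDerivAt ?_
  have h1 : HasFDerivAt (fun y : ℂ => (s ^ 2 - ‖y - x‖ ^ 2) / e)
      ((-(2 / e)) • innerSL ℝ (y - x)) y := by
    have h0 := (((hasStrictFDerivAt_norm_sq (y - x)).hasFDerivAt.comp y
      ((hasFDerivAt_id y).sub_const x)).const_sub (s ^ 2)).mul_const e⁻¹
    refine h0.congr_fderiv ?_
    ext w
    simp [Complex.inner]
    ring
  refine (((Real.smoothTransition.contDiff (n := (⊤ : ℕ∞))).differentiable (by simp)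
    _).hasDerivAt.comp_hasFDerivAt y h1).congr_fderiv ?_
  rw [map_smul, dweight, smul_smul]
  congr 1
  ring

/-- The flux weight against a function whose circle integrals are at most `B`. -/
theorem weight_polar (x : ℂ) {ρ₀ s e B : ℝ} (hρ₀ : 0 < ρ₀) (hρ : ρ₀ ≤ s) (he : 0 < e)
    (hes : e ≤ s ^ 2 - ρ₀ ^ 2) {f : ℂ → ℝ}
    (hf : ContinuousOn f {y | ρ₀ ≤ ‖y - x‖ ∧ ‖y - x‖ ≤ s}) (hf0 : ∀ y, 0 ≤ f y)
    (hB : ∀ ρ ∈ Icc ρ₀ s, dweight s e ρ ≠ 0 → ∫ θ in (-π)..π, f (circleMap x ρ θ) ≤ B)
    (hB0 : 0 ≤ B) :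
    ∫⁻ y, ENNReal.ofReal (dweight s e ‖y - x‖ * f y) ≤ ENNReal.ofReal B := by
  have hs : 0 < s := hρ₀.trans_le hρ
  set Ann : Set ℂ := {y | ρ₀ ≤ ‖y - x‖ ∧ ‖y - x‖ ≤ s} with hAnn
  have hAm : MeasurableSet Ann :=
    ((isClosed_le continuous_const ((continuous_id.sub continuous_const).norm)).inter
      (isClosed_le ((continuous_id.sub continuous_const).norm) continuous_const)).measurableSet
  have hzero : ∀ ρ : ℝ, 0 ≤ ρ → ρ ∉ Icc ρ₀ s → dweight s e ρ = 0 := by
    intro ρ hρ0 hni
    refine dweight_eq_zero he ?_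
    by_cases hlt : s < ρ
    · exact Or.inl (pow_lt_pow_left₀ hlt hs.le two_ne_zero)
    · refine Or.inr ?_
      have hlt' : ρ < ρ₀ := not_le.1 fun h1 => hni ⟨h1, not_lt.1 hlt⟩
      have := pow_lt_pow_left₀ hlt' hρ0 two_ne_zero
      linarith
  set F : ℂ → ℝ≥0∞ := Ann.indicator fun y => ENNReal.ofReal (dweight s e ‖y - x‖ * f y) with hF
  have hFeq : ∀ y, ENNReal.ofReal (dweight s e ‖y - x‖ * f y) = F y := fun y => by
    by_cases hy : y ∈ Ann
    · rw [hF, indicator_of_mem hy]
    · rw [hF, indicator_of_notMem hy, hzero _ (norm_nonneg _) hy, zero_mul, ENNReal.ofReal_zero]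
  have hFm : AEMeasurable F := by
    refine (aemeasurable_indicator_iff hAm).2 ?_
    exact ((((continuous_dweight s e).comp (continuous_id.sub continuous_const).norm).continuousOn.mul
      hf).aemeasurable hAm).ennreal_ofReal
  rw [lintegral_congr hFeq, lintegral_polar hFm x]
  calc ∫⁻ ρ in Ioi (0 : ℝ), ENNReal.ofReal ρ * ∫⁻ θ in Ioo (-π) π, F (circleMap x ρ θ)
      ≤ ∫⁻ ρ in Ioi (0 : ℝ), (Ioc (0 : ℝ) s).indicator
          (fun ρ => ENNReal.ofReal (dweight s e ρ * ρ * B)) ρ := by
        refine lintegral_mono_ae ?_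
        filter_upwards [ae_restrict_mem measurableSet_Ioi] with ρ hρ'
        have hρ0 : 0 < ρ := hρ'
        have hnorm : ∀ θ, ‖circleMap x ρ θ - x‖ = ρ := fun θ => by
          rw [circleMap_sub_center, norm_circleMap_zero, abs_of_pos hρ0]
        by_cases hin : dweight s e ρ = 0
        · have hz : ∀ θ, F (circleMap x ρ θ) = 0 := fun θ => by
            rw [← hFeq, hnorm, hin, zero_mul, ENNReal.ofReal_zero]
          simp [hz]
        have hI : ρ ∈ Icc ρ₀ s := not_not.1 fun hni => hin (hzero ρ hρ0.le hni)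
        rw [indicator_of_mem (show ρ ∈ Ioc (0 : ℝ) s from ⟨hρ0, hI.2⟩)]
        have hc : Continuous fun θ => f (circleMap x ρ θ) :=
          hf.comp_continuous (continuous_circleMap x ρ) fun θ => by
            show ρ₀ ≤ _ ∧ _ ≤ s
            rw [hnorm]; exact hI
        have hint : ∫⁻ θ in Ioo (-π) π, F (circleMap x ρ θ) =
            ENNReal.ofReal (dweight s e ρ * ∫ θ in (-π)..π, f (circleMap x ρ θ)) := by
          simp only [← hFeq, hnorm]
          rw [← intervalIntegral.integral_const_mul,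
            intervalIntegral.integral_of_le (by linarith [Real.pi_pos]),
            integral_Ioc_eq_integral_Ioo, ofReal_integral_eq_lintegral_ofReal]
          · exact ((continuous_const.mul hc).integrableOn_Icc).mono_set Ioo_subset_Icc_self
          · exact Eventually.of_forall fun θ => mul_nonneg (dweight_nonneg he _ _) (hf0 _)
        rw [hint, ← ENNReal.ofReal_mul hρ0.le]
        refine ENNReal.ofReal_le_ofReal ?_
        have := mul_le_mul_of_nonneg_left (hB ρ hI hin)
          (mul_nonneg hρ0.le (dweight_nonneg he s ρ))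
        linarith
    _ = ∫⁻ ρ in Ioc (0 : ℝ) s, ENNReal.ofReal (dweight s e ρ * ρ * B) := by
        rw [setLIntegral_indicator measurableSet_Ioc, inter_eq_left.2 fun t ht => ht.1]
    _ = ENNReal.ofReal B := by
        rw [← ofReal_integral_eq_lintegral_ofReal, ← intervalIntegral.integral_of_le hs.le,
          intervalIntegral.integral_mul_const, integral_dweight he (by nlinarith), one_mul]
        · exact ((((continuous_dweight s e).mul continuous_id).mul
            continuous_const).integrableOn_Icc).mono_set Ioc_subset_Icc_self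
        · filter_upwards [ae_restrict_mem measurableSet_Ioc] with ρ hρ1
          exact mul_nonneg (mul_nonneg (dweight_nonneg he _ _) hρ1.1.le) hB0

variable (h : IsAlmostMin U K u G A M Λ) (hs : 0 < s) (hsub : closedBall x s ⊆ U)
include h hs hsub

/-- The equation tested by `χ (u - m)`, `χ` the cutoff of the disc. -/
theorem test_bound {e ρ₀ m : ℝ} (hρ₀s : ρ₀ ≤ s) (he : 0 < e)
    (hes : e ≤ s ^ 2 - ρ₀ ^ 2) (hann : ∀ y, ρ₀ ≤ ‖y - x‖ → ‖y - x‖ ≤ s → y ∈ U \ K)
    {p : ℂ} (hp : p ∈ U \ K) (hm : m = u p) {B : ℝ} (hB0 : 0 ≤ B)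
    (hB : ∫⁻ y, ENNReal.ofReal (dweight s e ‖y - x‖ * (|u y - m| * |⟪G y, y - x⟫|)) ≤
      ENNReal.ofReal B) :
    ∫⁻ y in ball x ρ₀ \ K, ‖G y‖ₑ ^ 2 ≤ ENNReal.ofReal (B + π * Λ * s ^ 2) := by
  classical
  have hUK := h.isOpen_compl
  have hu_cont : ContinuousOn u (U \ K) := fun y hy =>
    (h.hasGrad y hy).continuousAt.continuousWithinAt
  set χ := disk x s e with hχdef
  have hχ := contDiff_disk x s e
  set φ : ℂ → ℝ := (U \ K).indicator fun y => χ y * (u y - m) with hφdef
  set Gφ : ℂ → ℂ := (U \ K).indicator fun y => χ y • G y + (u y - m) • gradOf χ y with hGφdef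
  have hsob : IsSobolevOn (U \ K) φ Gφ := by
    have h1 := IsSobolevOn.smooth_mul hUK hχ (h.isSobolevOn.sub (isSobolevOn_const hUK m))
    simp only [sub_zero] at h1
    refine h1.congr hUK.measurableSet ?_ ?_ <;>
      filter_upwards [ae_restrict_mem hUK.measurableSet] with y hy
    · simp only [hφdef, indicator_of_mem hy]; rfl
    · simp only [hGφdef, indicator_of_mem hy]; rfl
  have hχ01 : ∀ y, 0 ≤ χ y ∧ χ y ≤ 1 := fun y =>
    ⟨Real.smoothTransition.nonneg _, Real.smoothTransition.le_one _⟩
  have hout : ∀ y, s < ‖y - x‖ → χ y = 0 ∧ dweight s e ‖y - x‖ = 0 := fun y hy => by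
    have h1 : s ^ 2 < ‖y - x‖ ^ 2 := pow_lt_pow_left₀ hy hs.le two_ne_zero
    exact ⟨Real.smoothTransition.zero_of_nonpos
      (div_nonpos_of_nonpos_of_nonneg (by linarith) he.le), dweight_eq_zero he (Or.inl h1)⟩
  have hC : ∀ y ∉ closedBall x s, φ y = 0 ∧ Gφ y = 0 := fun y hy => by
    rw [mem_closedBall, dist_eq_norm, not_le] at hy
    obtain ⟨h1, h2⟩ := hout y hy
    constructor
    · rw [hφdef, indicator_apply, h1]; simp
    · rw [hGφdef, indicator_apply, gradOf_disk, h1, h2]; simp
  have hb : ∀ y, |φ y| ≤ M := fun y => by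
    rw [hφdef, indicator_apply]
    split_ifs with hy
    · rw [abs_mul, abs_of_nonneg (hχ01 y).1, hm]
      exact (mul_le_of_le_one_left (abs_nonneg _) (hχ01 y).2).trans (h.osc y hy p hp)
    · simpa using h.M_nonneg
  have hfinC : ∫⁻ y in closedBall x s \ K, ‖G y‖ₑ ^ 2 < ⊤ :=
    lt_of_le_of_lt le_self_add (h.finite _ (isCompact_closedBall x s) hsub)
  have hCm : MeasurableSet (closedBall x s ∩ (U \ K)) :=
    measurableSet_closedBall.inter hUK.measurableSet
  have hsets : closedBall x s ∩ (U \ K) = closedBall x s \ K := ext fun y =>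
    ⟨fun hy => ⟨hy.1, hy.2.2⟩, fun hy => ⟨hy.1, hsub hy.1, hy.2⟩⟩
  have hGm : AEStronglyMeasurable G (volume.restrict (U \ K)) :=
    h.contGrad.aestronglyMeasurable hUK.measurableSet
  have hG2 : IntegrableOn (fun y => ‖G y‖ ^ 2) (closedBall x s ∩ (U \ K)) := by
    refine ⟨(hGm.mono_set inter_subset_right).norm.pow 2, ?_⟩
    rw [hasFiniteIntegral_iff_enorm]
    simp only [enorm_pow, enorm_norm]
    rw [hsets]
    exact hfinC
  set P1 := fun y => χ y * ‖G y‖ ^ 2 with hP1
  set P2 := fun y => (u y - m) * (-dweight s e ‖y - x‖) * ⟪G y, y - x⟫ with hP2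
  have hP1i : IntegrableOn P1 (U \ K) := by
    refine (Integrable.mono' (g := fun y => (closedBall x s).indicator (fun y => ‖G y‖ ^ 2) y)
      ?_ (hχ.continuous.aestronglyMeasurable.mul (hGm.norm.pow 2))
      (Eventually.of_forall fun y => ?_))
    · rw [integrable_indicator_iff measurableSet_closedBall, IntegrableOn,
        Measure.restrict_restrict measurableSet_closedBall]
      exact hG2
    · rw [Real.norm_eq_abs, abs_of_nonneg (mul_nonneg (hχ01 y).1 (sq_nonneg _)), indicator_apply]
      split_ifs with hy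
      · exact mul_le_of_le_one_left (sq_nonneg _) (hχ01 y).2
      · rw [mem_closedBall, dist_eq_norm, not_le] at hy
        simp [(hout y hy).1]
  set Ann : Set ℂ := {y | ρ₀ ≤ ‖y - x‖ ∧ ‖y - x‖ ≤ s} with hAnn
  have hAnnC : IsCompact Ann := by
    refine (isCompact_closedBall x s).of_isClosed_subset ?_ fun y hy => by
      rw [mem_closedBall, dist_eq_norm]; exact hy.2
    exact (isClosed_le continuous_const ((continuous_id.sub continuous_const).norm)).inter
      (isClosed_le ((continuous_id.sub continuous_const).norm) continuous_const)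
  have hP2c : ContinuousOn P2 (U \ K) :=
    ((hu_cont.sub continuousOn_const).mul (((continuous_dweight s e).comp
      (continuous_id.sub continuous_const).norm).neg.continuousOn)).mul
      (h.contGrad.inner (continuous_id.sub continuous_const).continuousOn)
  have hP2sub : ∀ y, y ∉ Ann → P2 y = 0 := fun y hy => by
    suffices h0 : dweight s e ‖y - x‖ = 0 by simp [hP2, h0]
    by_cases hlt : s < ‖y - x‖
    · exact (hout y hlt).2
    · refine dweight_eq_zero he (Or.inr ?_)
      have hlt' : ‖y - x‖ < ρ₀ := not_le.1 fun h1 => hy ⟨h1, not_lt.1 hlt⟩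
      have := pow_lt_pow_left₀ hlt' (norm_nonneg _) two_ne_zero
      linarith
  have hP2i : IntegrableOn P2 (U \ K) :=
    (((hP2c.mono fun y hy => hann y hy.1 hy.2).integrableOn_compact
      hAnnC).integrable_of_forall_notMem_eq_zero hP2sub).integrableOn
  have hGφeq : ∀ y ∈ U \ K, ⟪G y, Gφ y⟫ = P1 y + P2 y := fun y hy => by
    rw [hGφdef, indicator_of_mem hy, inner_add_right, real_inner_smul_right, real_inner_smul_right,
      real_inner_self_eq_norm_sq, gradOf_disk, real_inner_smul_right]
    simp only [hP1, hP2]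
    ring
  have hgfin : ∫⁻ y in closedBall x s \ K, ‖Gφ y‖ₑ ^ 2 < ⊤ := by
    obtain ⟨Kc, hKc⟩ := (isCompact_closedBall x s).exists_bound_of_continuousOn
      ((continuousOn_gradOf isOpen_univ (hχ.of_le (by simp)).contDiffOn).mono (subset_univ _))
    have hb2 : IntegrableOn (fun y => ‖Gφ y‖ ^ 2) (closedBall x s ∩ (U \ K)) := by
      refine Integrable.mono' (g := fun y => 2 * ‖G y‖ ^ 2 + 2 * (M * |Kc|) ^ 2)
        ((hG2.const_mul 2).add (integrableOn_const
          ((measure_mono inter_subset_left).trans_lt measure_closedBall_lt_top).ne)) ?_ ?_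
      · exact ((hsob.2.1.aestronglyMeasurable).mono_set inter_subset_right).norm.pow 2
      · rw [ae_restrict_iff' hCm]
        refine Eventually.of_forall fun y hy => ?_
        rw [Real.norm_eq_abs, abs_of_nonneg (sq_nonneg _), hGφdef, indicator_of_mem hy.2]
        have h1 : ‖χ y • G y + (u y - m) • gradOf χ y‖ ≤ ‖G y‖ + M * |Kc| := by
          refine (norm_add_le _ _).trans (add_le_add ?_ ?_)
          · rw [norm_smul, Real.norm_of_nonneg (hχ01 y).1]
            exact mul_le_of_le_one_left (norm_nonneg _) (hχ01 y).2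
          · rw [norm_smul, Real.norm_eq_abs, hm]
            exact mul_le_mul (h.osc y hy.2 p hp) ((hKc y hy.1).trans (le_abs_self _))
              (norm_nonneg _) h.M_nonneg
        nlinarith [pow_le_pow_left₀ (norm_nonneg _) h1 2, sq_nonneg (‖G y‖ - M * |Kc|)]
    rw [← hsets]
    refine lt_of_le_of_lt (le_of_eq (lintegral_congr fun y => ?_)) hb2.2
    simp [enorm_pow]
  have heqn := h.weakEq φ Gφ _ (isCompact_closedBall x s) hsub hsob ⟨M, hb⟩ hC hgfin
  rw [setIntegral_congr_fun hUK.measurableSet hGφeq, integral_add hP1i hP2i] at heqn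
  have hvol : (volume (closedBall x s)).toReal = π * s ^ 2 := by
    rw [Complex.volume_closedBall, ENNReal.toReal_mul, ENNReal.toReal_pow,
      ENNReal.toReal_ofReal hs.le, ENNReal.coe_toReal, NNReal.coe_real_pi]
    ring
  have hrhs : A * ∫ y in U \ K, |φ y| ≤ π * Λ * s ^ 2 := by
    have h1 : ∫ y in U \ K, |φ y| ≤ M * (π * s ^ 2) := by
      rw [← hvol, ← setIntegral_eq_integral_of_forall_compl_eq_zero (s := closedBall x s)
        (μ := volume.restrict (U \ K)) (f := fun y => |φ y|) fun y hy => by simp [(hC y hy).1]]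
      have hfin : (volume.restrict (U \ K)) (closedBall x s) < ⊤ :=
        (Measure.restrict_apply_le _ _).trans_lt measure_closedBall_lt_top
      have h2 := norm_setIntegral_le_of_norm_le_const (f := fun y => |φ y|) hfin (C := M)
        fun y _ => by rw [Real.norm_eq_abs, abs_abs]; exact hb y
      rw [Real.norm_eq_abs] at h2
      exact ((le_abs_self _).trans h2).trans (mul_le_mul_of_nonneg_left (ENNReal.toReal_mono
        measure_closedBall_lt_top.ne (Measure.restrict_apply_le _ _)) h.M_nonneg)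
    calc A * ∫ y in U \ K, |φ y| ≤ A * (M * (π * s ^ 2)) :=
          mul_le_mul_of_nonneg_left h1 h.A_nonneg
      _ = A * M * (π * s ^ 2) := by ring
      _ ≤ Λ * (π * s ^ 2) := mul_le_mul_of_nonneg_right h.AM_le (by positivity)
      _ = _ := by ring
  have hflux : ∫ y in U \ K, |P2 y| ≤ B := by
    rw [← ENNReal.ofReal_le_ofReal_iff hB0, ofReal_integral_eq_lintegral_ofReal hP2i.abs
      (Eventually.of_forall fun y => abs_nonneg _)]
    refine le_trans ((setLIntegral_le_lintegral _ _).trans (le_of_eq (lintegral_congr fun y => ?_))) hB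
    congr 1
    rw [hP2, abs_mul, abs_mul, abs_neg, abs_of_nonneg (dweight_nonneg he _ _)]
    ring
  have hmain : ∫ y in U \ K, P1 y ≤ B + π * Λ * s ^ 2 := by
    have h2 : |∫ y in U \ K, P2 y| ≤ ∫ y in U \ K, |P2 y| := abs_integral_le_integral_abs
    have h3 := heqn.trans hrhs
    rw [abs_le] at h2 h3
    linarith
  have hsub' : ball x ρ₀ \ K ⊆ U \ K := fun y hy =>
    ⟨hsub (ball_subset_closedBall (ball_subset_ball hρ₀s hy.1)), hy.2⟩
  calc ∫⁻ y in ball x ρ₀ \ K, ‖G y‖ₑ ^ 2 ≤ ∫⁻ y in ball x ρ₀ \ K, ENNReal.ofReal (P1 y) := by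
        refine setLIntegral_mono_ae ?_ (Eventually.of_forall fun y hy => ?_)
        · exact (hP1i.1.mono_set hsub').aemeasurable.ennreal_ofReal
        · have hy' : ‖y - x‖ ≤ ρ₀ := by rw [← dist_eq_norm]; exact (mem_ball.1 hy.1).le
          have h1 : χ y = 1 := Real.smoothTransition.one_of_one_le (by
            rw [le_div_iff₀ he, one_mul]
            linarith [pow_le_pow_left₀ (norm_nonneg _) hy' 2])
          simp only [hP1]
          rw [h1, one_mul, ← ofReal_norm, ENNReal.ofReal_pow (norm_nonneg _)]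
    _ ≤ ∫⁻ y in U \ K, ENNReal.ofReal (P1 y) := lintegral_mono_set hsub'
    _ = ENNReal.ofReal (∫ y in U \ K, P1 y) :=
        (ofReal_integral_eq_lintegral_ofReal hP1i (Eventually.of_forall fun y =>
          mul_nonneg (hχ01 y).1 (sq_nonneg _))).symm
    _ ≤ _ := ENNReal.ofReal_le_ofReal hmain

variable (hfree : ∀ y ∈ sphere x s, y ∉ K)
include hfree

/-- **The flux bound**: on a free circle the energy inside is at most half the radius times the
energy of the circle, up to `Λ s²`. -/
theorem flux {r : ℝ} (hrs : r < s) :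
    ∫⁻ y in ball x r \ K, ‖G y‖ₑ ^ 2 ≤
      ENNReal.ofReal (s ^ 2 * circEnergy G x s / 2 + π * Λ * s ^ 2) := by
  obtain ⟨m, ⟨p, hp, hm⟩, hW⟩ := exists_centre h hs hsub hfree
  have hΛ : 0 ≤ Λ := (mul_nonneg h.A_nonneg h.M_nonneg).trans h.AM_le
  obtain ⟨η, hη, hηU⟩ := (isCompact_sphere x s).exists_cthickening_subset_open h.isOpen_compl
    fun y hy => ⟨hsub (sphere_subset_closedBall hy), hfree y hy⟩
  set rin := max (max r (s - η)) (s / 2) with hrin
  have hrin_lt : rin < s := max_lt (max_lt hrs (by linarith)) (by linarith)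
  have hrin0 : 0 < rin := lt_of_lt_of_le (half_pos hs) (le_max_right _ _)
  have hann : ∀ y, rin ≤ ‖y - x‖ → ‖y - x‖ ≤ s → y ∈ U \ K := fun y h1 h2 => by
    have hy0 : 0 < ‖y - x‖ := hrin0.trans_le h1
    refine hηU (mem_cthickening_of_dist_le y (x + (s / ‖y - x‖) • (y - x)) η _ ?_ ?_)
    · rw [mem_sphere, dist_eq_norm, add_sub_cancel_left, norm_smul,
        Real.norm_of_nonneg (by positivity), div_mul_cancel₀ _ hy0.ne']
    · rw [dist_eq_norm, show y - (x + (s / ‖y - x‖) • (y - x)) = (1 - s / ‖y - x‖) • (y - x) by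
        rw [sub_smul, one_smul]; abel, norm_smul, Real.norm_eq_abs, ← abs_of_pos hy0,
        ← abs_mul, abs_of_pos hy0, sub_mul, one_mul, div_mul_cancel₀ _ hy0.ne']
      rw [abs_le]
      constructor <;> linarith [le_max_left r (s - η), le_max_right r (s - η),
        le_max_left (max r (s - η)) (s / 2)]
  set f : ℂ → ℝ := fun y => |u y - m| * |⟪G y, y - x⟫| with hf
  have hu_cont : ContinuousOn u (U \ K) := fun y hy =>
    (h.hasGrad y hy).continuousAt.continuousWithinAt
  have hfc : ContinuousOn f (U \ K) := (hu_cont.sub continuousOn_const).abs.mul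
    (h.contGrad.inner (continuous_id.sub continuous_const).continuousOn).abs
  have hmaps : ∀ ρ ∈ Icc rin s, ∀ θ : ℝ, circleMap x ρ θ ∈ U \ K := fun ρ hρ θ => by
    refine hann _ ?_ ?_ <;>
      rw [circleMap_sub_center, norm_circleMap_zero, abs_of_pos (hrin0.trans_le hρ.1)]
    exacts [hρ.1, hρ.2]
  set F : Icc rin s → ℝ := fun ρ => ∫ θ in (-π)..π, f (circleMap x ρ θ) with hF
  have hFc : Continuous F := by
    refine intervalIntegral.continuous_parametric_intervalIntegral_of_continuous' ?_ _ _
    exact hfc.comp_continuous ((continuous_circleMap_uncurry x).comp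
      ((continuous_subtype_val.comp continuous_fst).prodMk continuous_snd)) fun q =>
        hmaps _ q.1.2 q.2
  have hFs : F ⟨s, right_mem_Icc.2 hrin_lt.le⟩ ≤ s ^ 2 * circEnergy G x s / 2 := by
    have hc1 := continuous_trace h hs hsub hfree
    have ht := continuous_tang h hs hsub hfree
    have hr := continuous_radl h hs hsub hfree
    have hv2 : Continuous fun θ => (u (circleMap x s θ) - m) ^ 2 :=
      (hc1.sub continuous_const).pow 2
    have hr2 : Continuous fun θ => radl G x s θ ^ 2 := hr.pow 2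
    have ht2 : Continuous fun θ => tang G x s θ ^ 2 := ht.pow 2
    calc F ⟨s, right_mem_Icc.2 hrin_lt.le⟩
        ≤ ∫ θ in (-π)..π, ((u (circleMap x s θ) - m) ^ 2 + radl G x s θ ^ 2) / 2 := by
          refine intervalIntegral.integral_mono_on (by linarith [Real.pi_pos]) ?_
            (((hv2.add (hr.pow 2)).div_const 2).intervalIntegrable _ _) fun θ _ => ?_
          · exact (hfc.comp_continuous (continuous_circleMap x s)
              (free_mem hs.le hsub hfree)).intervalIntegrable _ _
          · simp only [hf, circleMap_sub_center]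
            rw [← radl]
            nlinarith [sq_nonneg (|u (circleMap x s θ) - m| - |radl G x s θ|),
              sq_abs (u (circleMap x s θ) - m), sq_abs (radl G x s θ)]
      _ ≤ ((∫ θ in (-π)..π, tang G x s θ ^ 2) + ∫ θ in (-π)..π, radl G x s θ ^ 2) / 2 := by
          rw [intervalIntegral.integral_div,
            intervalIntegral.integral_add (hv2.intervalIntegrable _ _)
              (hr2.intervalIntegrable _ _)]
          linarith
      _ = _ := by
          rw [← intervalIntegral.integral_add (f := fun θ => tang G x s θ ^ 2)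
            (ht2.intervalIntegrable _ _) (hr2.intervalIntegrable _ _),
            circEnergy, ← intervalIntegral.integral_const_mul]
          congr 1
          exact intervalIntegral.integral_congr fun θ _ => by rw [← tang_sq_add]; ring
  refine ENNReal.le_of_forall_pos_le_add fun δ hδ _ => ?_
  have hδ' : (0 : ℝ) < δ := by exact_mod_cast hδ
  obtain ⟨ω, hω, hωF⟩ := Metric.eventually_nhds_iff.1
    ((hFc.tendsto ⟨s, right_mem_Icc.2 hrin_lt.le⟩).eventually_lt_const
      (show F ⟨s, right_mem_Icc.2 hrin_lt.le⟩ < s ^ 2 * circEnergy G x s / 2 + δ by linarith))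
  set ρ₀ := max rin (s - ω / 2) with hρ₀
  have hρ₀0 : 0 < ρ₀ := hrin0.trans_le (le_max_left _ _)
  have hρ₀s : ρ₀ < s := max_lt hrin_lt (by linarith)
  set e := s ^ 2 - ρ₀ ^ 2 with he
  have he0 : 0 < e := by nlinarith
  have hann' : ∀ y, ρ₀ ≤ ‖y - x‖ → ‖y - x‖ ≤ s → y ∈ U \ K := fun y h1 h2 =>
    hann y ((le_max_left _ _).trans h1) h2
  have hB0 : 0 ≤ s ^ 2 * circEnergy G x s / 2 + δ := by
    have : 0 ≤ circEnergy G x s :=
      intervalIntegral.integral_nonneg (by linarith [Real.pi_pos]) fun θ _ => sq_nonneg _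
    positivity
  have hpolar := weight_polar x hρ₀0 hρ₀s.le he0 le_rfl (f := f)
    (hfc.mono fun y hy => hann' y hy.1 hy.2) (fun y => mul_nonneg (abs_nonneg _) (abs_nonneg _))
    (B := s ^ 2 * circEnergy G x s / 2 + δ) (fun ρ hρ _ => by
      have hmem : ρ ∈ Icc rin s := ⟨(le_max_left _ _).trans hρ.1, hρ.2⟩
      refine (hωF (y := ⟨ρ, hmem⟩) ?_).le
      rw [Subtype.dist_eq, Real.dist_eq, abs_lt]
      constructor <;> linarith [le_max_right rin (s - ω / 2), hρ.1, hρ.2])
    hB0
  have hsub' : ball x r \ K ⊆ ball x ρ₀ \ K := Set.sdiff_subset_sdiff_left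
    (ball_subset_ball (((le_max_left r (s - η)).trans (le_max_left _ _)).trans (le_max_left _ _)))
  refine (lintegral_mono_set hsub').trans
    ((test_bound h hs hsub hρ₀s.le he0 le_rfl hann' hp hm hB0 hpolar).trans (le_of_eq ?_))
  have hcirc : 0 ≤ circEnergy G x s :=
    intervalIntegral.integral_nonneg (by linarith [Real.pi_pos]) fun θ _ => sq_nonneg _
  rw [show s ^ 2 * circEnergy G x s / 2 + δ + π * Λ * s ^ 2 =
      (s ^ 2 * circEnergy G x s / 2 + π * Λ * s ^ 2) + δ by ring,
    ENNReal.ofReal_add (by positivity) (NNReal.coe_nonneg δ), ENNReal.ofReal_coe_nnreal]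

end Vale.Agent.P128.Bridge
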