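import Vale.Agent.P128.Bridge.Defs

/-!
# P128 bridge: elementary calculus of weak gradients
-/

open MeasureTheory Set Metric Filter
open scoped ENNReal NNReal Topology Real RealInnerProductSpace

noncomputable section

namespace Vale.Agent.P128.Bridge

theorem exists_cutoff {C U : Set ℂ} (hC : IsCompact C) (hU : IsOpen U) (hCU : C ⊆ U) :
    ∃ χ : ℂ → ℝ, ContDiff ℝ ((⊤ : ℕ∞) : WithTop ℕ∞) χ ∧ HasCompactSupport χ ∧ tsupport χ ⊆ U ∧
      (∀ z, 0 ≤ χ z ∧ χ z ≤ 1) ∧ ∀ z ∈ C, χ z = 1 := by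
  obtain ⟨V, hV, hCV, hVU, hVc⟩ := exists_open_between_and_isCompact_closure hC hU hCU
  obtain ⟨f, hfs, hf, hf01⟩ := hV.exists_contDiff_support_eq (n := (⊤ : ℕ∞))
  obtain ⟨g, hgs, hg, hg01⟩ := hC.isClosed.isOpen_compl.exists_contDiff_support_eq (n := (⊤ : ℕ∞))
  have f0 : ∀ z, 0 ≤ f z := fun z => (hf01 (mem_range_self z)).1
  have g0 : ∀ z, 0 ≤ g z := fun z => (hg01 (mem_range_self z)).1
  have hpos : ∀ z, 0 < f z + g z := fun z => by
    by_cases hz : z ∈ C
    · have : f z ≠ 0 := by rw [← Function.mem_support, hfs]; exact hCV hz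
      linarith [g0 z, lt_of_le_of_ne (f0 z) (Ne.symm this)]
    · have : g z ≠ 0 := by rw [← Function.mem_support, hgs]; exact hz
      linarith [f0 z, lt_of_le_of_ne (g0 z) (Ne.symm this)]
  have hsupp : Function.support (fun z => f z / (f z + g z)) = V := by
    rw [← hfs]; ext z; simp [(hpos z).ne']
  refine ⟨fun z => f z / (f z + g z), hf.div (hf.add hg) (fun z => (hpos z).ne'), ?_, ?_, ?_, ?_⟩
  · rw [HasCompactSupport, tsupport, hsupp]; exact hVc
  · rw [tsupport, hsupp]; exact hVU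
  · intro z
    exact ⟨div_nonneg (f0 z) (hpos z).le, (div_le_one (hpos z)).2 (by linarith [g0 z])⟩
  · intro z hz
    have : g z = 0 := by rw [← Function.notMem_support, hgs]; exact fun h => h hz
    show f z / (f z + g z) = 1
    rw [this, add_zero, div_self]
    have := hpos z; linarith

/-- A locally integrable function times a continuous function with compact support inside. -/
theorem integrable_mul_of_tsupport {U : Set ℂ} {w φ : ℂ → ℝ} (hw : LocallyIntegrableOn w U)
    (hφ : Continuous φ) (hc : HasCompactSupport φ) (hs : tsupport φ ⊆ U) :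
    Integrable fun x => w x * φ x :=
  ((hw.integrableOn_compact_subset hs hc).mul_continuousOn hφ.continuousOn
    hc).integrable_of_forall_notMem_eq_zero fun x hx => by
      rw [image_eq_zero_of_notMem_tsupport hx, mul_zero]

theorem locallyIntegrableOn_inner_right {U : Set ℂ} {G : ℂ → ℂ} (hG : LocallyIntegrableOn G U)
    (e : ℂ) : LocallyIntegrableOn (fun x => ⟪G x, e⟫) U := by
  intro x hx
  obtain ⟨t, ht, hi⟩ := hG x hx
  exact ⟨t, ht, hi.inner_const e⟩

theorem integrable_inner_mul_of_tsupport {U : Set ℂ} {G : ℂ → ℂ} {φ : ℂ → ℝ}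
    (hG : LocallyIntegrableOn G U) (hφ : Continuous φ) (hc : HasCompactSupport φ)
    (hs : tsupport φ ⊆ U) (e : ℂ) : Integrable fun x => ⟪G x, e⟫ * φ x :=
  integrable_mul_of_tsupport (locallyIntegrableOn_inner_right hG e) hφ hc hs

theorem continuous_fderiv_apply_const {φ : ℂ → ℝ} (hφ : ContDiff ℝ ((⊤ : ℕ∞) : WithTop ℕ∞) φ)
    (e : ℂ) : Continuous fun x => fderiv ℝ φ x e :=
  (hφ.continuous_fderiv (by simp)).clm_apply continuous_const

theorem tsupport_fderiv_apply_const_subset (φ : ℂ → ℝ) (e : ℂ) :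
    tsupport (fun x => fderiv ℝ φ x e) ⊆ tsupport φ := tsupport_fderiv_apply_subset ℝ e

theorem integrable_mul_fderiv {U : Set ℂ} {w φ : ℂ → ℝ} (hw : LocallyIntegrableOn w U)
    (hφ : ContDiff ℝ ((⊤ : ℕ∞) : WithTop ℕ∞) φ) (hc : HasCompactSupport φ) (hs : tsupport φ ⊆ U)
    (e : ℂ) : Integrable fun x => w x * fderiv ℝ φ x e :=
  integrable_mul_of_tsupport hw (continuous_fderiv_apply_const hφ e) (hc.fderiv_apply ℝ e)
    ((tsupport_fderiv_apply_const_subset φ e).trans hs)

/-! ### Algebra -/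

theorem IsSobolevOn.mono {U V : Set ℂ} {w : ℂ → ℝ} {G : ℂ → ℂ} (h : IsSobolevOn U w G)
    (hVU : V ⊆ U) : IsSobolevOn V w G :=
  ⟨h.1.mono_set hVU, h.2.1.mono_set hVU, fun φ hφ hc hs => h.2.2 φ hφ hc (hs.trans hVU)⟩

theorem IsSobolevOn.congr {U : Set ℂ} {w w' : ℂ → ℝ} {G G' : ℂ → ℂ} (hU : MeasurableSet U)
    (h : IsSobolevOn U w G) (hw : w =ᵐ[volume.restrict U] w')
    (hG : G =ᵐ[volume.restrict U] G') : IsSobolevOn U w' G' := by
  refine ⟨?_, ?_, fun φ hφ hc hs e => ?_⟩
  · intro x hx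
    obtain ⟨t, ht, hi⟩ := h.1 x hx
    refine ⟨t ∩ U, inter_mem ht self_mem_nhdsWithin, ?_⟩
    exact (hi.mono_set inter_subset_left).congr
      (ae_restrict_of_ae_restrict_of_subset inter_subset_right hw)
  · intro x hx
    obtain ⟨t, ht, hi⟩ := h.2.1 x hx
    refine ⟨t ∩ U, inter_mem ht self_mem_nhdsWithin, ?_⟩
    exact (hi.mono_set inter_subset_left).congr
      (ae_restrict_of_ae_restrict_of_subset inter_subset_right hG)
  · have key : ∀ {f f' : ℂ → ℝ} {ψ : ℂ → ℝ}, f =ᵐ[volume.restrict U] f' → tsupport ψ ⊆ U →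
        ∫ x, f x * ψ x = ∫ x, f' x * ψ x := by
      intro f f' ψ hf hψ
      refine integral_congr_ae ?_
      rw [EventuallyEq, ae_restrict_iff' hU] at hf
      filter_upwards [hf] with x hx
      by_cases hxU : x ∈ U
      · rw [hx hxU]
      · rw [image_eq_zero_of_notMem_tsupport fun h' => hxU (hψ h'), mul_zero, mul_zero]
    rw [← key hw ((tsupport_fderiv_apply_const_subset φ e).trans hs), h.2.2 φ hφ hc hs e,
      key (f' := fun x => ⟪G' x, e⟫) (hG.mono fun x hx => by simp only [hx]) hs]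

theorem IsSobolevOn.add {U : Set ℂ} {v w : ℂ → ℝ} {F G : ℂ → ℂ} (hv : IsSobolevOn U v F)
    (hw : IsSobolevOn U w G) : IsSobolevOn U (fun x => v x + w x) (fun x => F x + G x) := by
  refine ⟨hv.1.add hw.1, hv.2.1.add hw.2.1, fun φ hφ hc hs e => ?_⟩
  simp only [add_mul, inner_add_left]
  rw [integral_add (integrable_mul_fderiv hv.1 hφ hc hs e) (integrable_mul_fderiv hw.1 hφ hc hs e),
    integral_add (integrable_inner_mul_of_tsupport hv.2.1 hφ.continuous hc hs e)
      (integrable_inner_mul_of_tsupport hw.2.1 hφ.continuous hc hs e),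
    hv.2.2 φ hφ hc hs e, hw.2.2 φ hφ hc hs e, neg_add]

theorem IsSobolevOn.const_mul {U : Set ℂ} {w : ℂ → ℝ} {G : ℂ → ℂ} (a : ℝ)
    (hw : IsSobolevOn U w G) : IsSobolevOn U (fun x => a * w x) (fun x => a • G x) := by
  refine ⟨hw.1.smul a, hw.2.1.smul a, fun φ hφ hc hs e => ?_⟩
  simp only [real_inner_smul_left, mul_assoc, integral_const_mul, hw.2.2 φ hφ hc hs e, mul_neg]

theorem IsSobolevOn.sub {U : Set ℂ} {v w : ℂ → ℝ} {F G : ℂ → ℂ} (hv : IsSobolevOn U v F)
    (hw : IsSobolevOn U w G) : IsSobolevOn U (fun x => v x - w x) (fun x => F x - G x) := by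
  simpa [sub_eq_add_neg] using hv.add (hw.const_mul (-1))

/-- The gradient of a differentiable function, as a complex number. -/
def gradOf (f : ℂ → ℝ) (x : ℂ) : ℂ := ⟨fderiv ℝ f x 1, fderiv ℝ f x Complex.I⟩

theorem inner_gradOf (f : ℂ → ℝ) (x e : ℂ) : ⟪gradOf f x, e⟫ = fderiv ℝ f x e := by
  have he : e = e.re • (1 : ℂ) + e.im • Complex.I := by apply Complex.ext <;> simp
  conv_rhs => rw [he]
  rw [map_add, map_smul, map_smul]
  simp [gradOf, Complex.inner]

theorem innerSL_gradOf (f : ℂ → ℝ) (x : ℂ) : innerSL ℝ (gradOf f x) = fderiv ℝ f x := by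
  ext e; rw [innerSL_apply_apply, inner_gradOf]

theorem gradOf_eq_of_hasFDerivAt {f : ℂ → ℝ} {x G : ℂ} (h : HasFDerivAt f (innerSL ℝ G) x) :
    gradOf f x = G := by
  refine ext_inner_right ℝ fun e => ?_
  rw [inner_gradOf, h.fderiv]; simp

theorem continuousOn_gradOf {U : Set ℂ} {f : ℂ → ℝ} (hU : IsOpen U) (h : ContDiffOn ℝ 1 f U) :
    ContinuousOn (gradOf f) U := by
  have h' := h.continuousOn_fderiv_of_isOpen hU le_rfl
  have h1 : ContinuousOn (fun x => fderiv ℝ f x 1) U := h'.clm_apply continuousOn_const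
  have h2 : ContinuousOn (fun x => fderiv ℝ f x Complex.I) U := h'.clm_apply continuousOn_const
  exact (Complex.equivRealProdCLM.symm.continuous.comp_continuousOn (h1.prodMk h2)).congr
    fun x _ => by simp [gradOf, Complex.ext_iff, Complex.equivRealProdCLM_symm_apply]

/-- A locally Lipschitz function has its a.e. gradient as weak gradient. -/
theorem isSobolevOn_of_locallyLipschitzOn {U : Set ℂ} {f : ℂ → ℝ} (hU : IsOpen U)
    (hf : LocallyLipschitzOn U f) : IsSobolevOn U f (gradOf f) := by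
  refine ⟨hf.continuousOn.locallyIntegrableOn hU.measurableSet, ?_, fun φ hφ hc hs e => ?_⟩
  · intro x hx
    obtain ⟨K, t, ht, hK⟩ := hf hx
    rw [hU.nhdsWithin_eq hx] at ht
    obtain ⟨ε, hε, hball⟩ := Metric.mem_nhds_iff.1 ht
    refine ⟨ball x ε, mem_nhdsWithin_of_mem_nhds (ball_mem_nhds x hε), ?_⟩
    refine IntegrableOn.of_bound measure_ball_lt_top ?_ (2 * (K : ℝ)) ?_
    · have hm : ∀ e : ℂ, Measurable fun y => fderiv ℝ f y e := fun e =>
        measurable_fderiv_apply_const ℝ f e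
      exact (Complex.equivRealProdCLM.symm.continuous.measurable.comp
        ((hm 1).prodMk (hm Complex.I))).aestronglyMeasurable.congr
          (Eventually.of_forall fun y => by
            simp [gradOf, Complex.ext_iff, Complex.equivRealProdCLM_symm_apply])
    · filter_upwards [ae_restrict_mem measurableSet_ball] with y hy
      have hn : ‖fderiv ℝ f y‖ ≤ K :=
        norm_fderiv_le_of_lipschitzOn ℝ
          (mem_of_superset (isOpen_ball.mem_nhds hy) hball) hK
      calc ‖gradOf f y‖ ≤ |fderiv ℝ f y 1| + |fderiv ℝ f y Complex.I| :=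
            Complex.norm_le_abs_re_add_abs_im _
        _ ≤ (K : ℝ) + K := by
            refine add_le_add ?_ ?_
            · simpa using (fderiv ℝ f y).le_of_opNorm_le hn 1
            · simpa using (fderiv ℝ f y).le_of_opNorm_le hn Complex.I
        _ = 2 * (K : ℝ) := by ring
  obtain ⟨V, hV, hsV, hVU, hVc⟩ := exists_open_between_and_isCompact_closure hc hU hs
  obtain ⟨K, hK⟩ := LocallyLipschitzOn.exists_lipschitzOnWith_of_compact hVc (hf.mono hVU)
  obtain ⟨F, hF, hFeq⟩ := hK.extend_real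
  obtain ⟨D, hD⟩ := (hφ.of_le (by simp : (1 : WithTop ℕ∞) ≤ _)).lipschitzWith_of_hasCompactSupport
    hc one_ne_zero
  have hev : ∀ x ∈ tsupport φ, f =ᶠ[𝓝 x] F := fun x hx =>
    mem_of_superset (hV.mem_nhds (hsV hx)) fun y hy => hFeq (subset_closure hy)
  have hφd : ∀ x, lineDeriv ℝ φ x (-e) = -fderiv ℝ φ x e := fun x => by
    rw [((hφ.differentiable (by simp)) x).lineDeriv_eq_fderiv, map_neg]
  have h1 : ∫ x, lineDeriv ℝ F x e * φ x = ∫ x, lineDeriv ℝ φ x (-e) * F x :=
    hF.integral_lineDeriv_mul_eq hD hc e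
  have h2 : (fun x => ⟪gradOf f x, e⟫ * φ x) =ᵐ[volume] fun x => lineDeriv ℝ F x e * φ x := by
    filter_upwards [hF.ae_differentiableAt] with x hx
    by_cases hxs : x ∈ tsupport φ
    · rw [inner_gradOf, (hev x hxs).fderiv_eq, hx.lineDeriv_eq_fderiv]
    · simp [image_eq_zero_of_notMem_tsupport hxs]
  rw [integral_congr_ae h2, h1, ← integral_neg]
  refine integral_congr_ae (Eventually.of_forall fun x => ?_)
  simp only [hφd]
  by_cases hxs : x ∈ tsupport φ
  · rw [(hev x hxs).self_of_nhds]; ring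
  · have : fderiv ℝ φ x e = 0 := image_eq_zero_of_notMem_tsupport (f := fun x => fderiv ℝ φ x e)
      fun h => hxs (tsupport_fderiv_apply_const_subset φ e h)
    simp [this]

theorem isSobolevOn_of_contDiffOn {U : Set ℂ} {f : ℂ → ℝ} (hU : IsOpen U)
    (hf : ContDiffOn ℝ 1 f U) : IsSobolevOn U f (gradOf f) := by
  refine isSobolevOn_of_locallyLipschitzOn hU fun x hx => ?_
  obtain ⟨K, t, ht, hK⟩ := (hf.contDiffAt (hU.mem_nhds hx)).exists_lipschitzOnWith
  exact ⟨K, t, mem_nhdsWithin_of_mem_nhds ht, hK⟩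

theorem isSobolevOn_of_hasFDerivAt {U : Set ℂ} {f : ℂ → ℝ} {G : ℂ → ℂ} (hU : IsOpen U)
    (hG : ContinuousOn G U) (hd : ∀ x ∈ U, HasFDerivAt f (innerSL ℝ (G x)) x) :
    IsSobolevOn U f G := by
  have hcd : ContDiffOn ℝ 1 f U := by
    refine (contDiffOn_succ_iff_fderiv_of_isOpen (n := 0) hU).2
      ⟨fun x hx => (hd x hx).differentiableAt.differentiableWithinAt,
        fun h => absurd h (by simp), ?_⟩
    rw [contDiffOn_zero]
    exact ((innerSL ℝ).continuous.comp_continuousOn hG).congr fun x hx => (hd x hx).fderiv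
  refine (isSobolevOn_of_contDiffOn hU hcd).congr hU.measurableSet EventuallyEq.rfl ?_
  filter_upwards [ae_restrict_mem hU.measurableSet] with x hx
  exact gradOf_eq_of_hasFDerivAt (hd x hx)

theorem isSobolevOn_const {U : Set ℂ} (hU : IsOpen U) (a : ℝ) :
    IsSobolevOn U (fun _ => a) (fun _ => 0) :=
  isSobolevOn_of_hasFDerivAt hU continuousOn_const fun x _ => by
    simpa using hasFDerivAt_const a x

/-! ### Localisation -/

theorem IsSobolevOn.union {U V : Set ℂ} {w : ℂ → ℝ} {G : ℂ → ℂ} (hU : IsOpen U) (hV : IsOpen V)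
    (hu : IsSobolevOn U w G) (hv : IsSobolevOn V w G) : IsSobolevOn (U ∪ V) w G := by
  refine ⟨?_, ?_, fun φ hφ hc hs e => ?_⟩
  · intro x hx
    rcases hx with hx | hx
    · obtain ⟨t, ht, hi⟩ := hu.1 x hx
      rw [hU.nhdsWithin_eq hx] at ht
      exact ⟨t, mem_nhdsWithin_of_mem_nhds ht, hi⟩
    · obtain ⟨t, ht, hi⟩ := hv.1 x hx
      rw [hV.nhdsWithin_eq hx] at ht
      exact ⟨t, mem_nhdsWithin_of_mem_nhds ht, hi⟩
  · intro x hx
    rcases hx with hx | hx
    · obtain ⟨t, ht, hi⟩ := hu.2.1 x hx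
      rw [hU.nhdsWithin_eq hx] at ht
      exact ⟨t, mem_nhdsWithin_of_mem_nhds ht, hi⟩
    · obtain ⟨t, ht, hi⟩ := hv.2.1 x hx
      rw [hV.nhdsWithin_eq hx] at ht
      exact ⟨t, mem_nhdsWithin_of_mem_nhds ht, hi⟩
  have hC : IsCompact (tsupport φ \ V) := hc.diff hV
  have hCU : tsupport φ \ V ⊆ U := fun x hx => (hs hx.1).resolve_right hx.2
  obtain ⟨W, hW, hCW, hWU, hWc⟩ := exists_open_between_and_isCompact_closure hC hU hCU
  obtain ⟨χ, hχ, hχc, hχU, -, hχ1⟩ := exists_cutoff hWc hU hWU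
  have hφ1 : ContDiff ℝ ((⊤ : ℕ∞) : WithTop ℕ∞) fun x => χ x * φ x := hχ.mul hφ
  have hc1 : HasCompactSupport fun x => χ x * φ x := hc.mul_left
  have hs1 : tsupport (fun x => χ x * φ x) ⊆ U := tsupport_mul_subset_left.trans hχU
  have hφ2 : ContDiff ℝ ((⊤ : ℕ∞) : WithTop ℕ∞) fun x => (1 - χ x) * φ x :=
    (contDiff_const.sub hχ).mul hφ
  have hc2 : HasCompactSupport fun x => (1 - χ x) * φ x := hc.mul_left
  have hs2 : tsupport (fun x => (1 - χ x) * φ x) ⊆ V := by
    intro x hx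
    by_contra hxV
    have hxs : x ∈ tsupport φ := tsupport_mul_subset_right hx
    have : x ∉ tsupport fun x => (1 - χ x) * φ x := by
      rw [notMem_tsupport_iff_eventuallyEq]
      filter_upwards [hW.mem_nhds (hCW ⟨hxs, hxV⟩)] with y hy
      simp [hχ1 y (subset_closure hy)]
    exact this hx
  have hsum : ∀ x, fderiv ℝ φ x e = fderiv ℝ (fun x => χ x * φ x) x e +
      fderiv ℝ (fun x => (1 - χ x) * φ x) x e := by
    intro x
    rw [← add_apply, ← fderiv_fun_add ((hφ1.differentiable (by simp)) x)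
      ((hφ2.differentiable (by simp)) x)]
    congr 1
    exact congrArg (fun f => fderiv ℝ f x) (funext fun y => by ring)
  have hsum' : (fun x => ⟪G x, e⟫ * φ x) =
      fun x => ⟪G x, e⟫ * (χ x * φ x) + ⟪G x, e⟫ * ((1 - χ x) * φ x) := by funext x; ring
  simp only [hsum, mul_add]
  rw [integral_add (integrable_mul_fderiv hu.1 hφ1 hc1 hs1 e)
      (integrable_mul_fderiv hv.1 hφ2 hc2 hs2 e),
    hu.2.2 _ hφ1 hc1 hs1 e, hv.2.2 _ hφ2 hc2 hs2 e, hsum',
    integral_add (integrable_inner_mul_of_tsupport hu.2.1 hφ1.continuous hc1 hs1 e)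
      (integrable_inner_mul_of_tsupport hv.2.1 hφ2.continuous hc2 hs2 e), neg_add]

theorem IsSobolevOn.of_local {U : Set ℂ} {w : ℂ → ℝ} {G : ℂ → ℂ}
    (h : ∀ x ∈ U, ∃ V, IsOpen V ∧ x ∈ V ∧ IsSobolevOn V w G) : IsSobolevOn U w G := by
  refine ⟨?_, ?_, fun φ hφ hc hs e => ?_⟩
  · intro x hx
    obtain ⟨V, hV, hxV, hVs⟩ := h x hx
    obtain ⟨t, ht, hi⟩ := hVs.1 x hxV
    rw [hV.nhdsWithin_eq hxV] at ht
    exact ⟨t, mem_nhdsWithin_of_mem_nhds ht, hi⟩
  · intro x hx
    obtain ⟨V, hV, hxV, hVs⟩ := h x hx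
    obtain ⟨t, ht, hi⟩ := hVs.2.1 x hxV
    rw [hV.nhdsWithin_eq hxV] at ht
    exact ⟨t, mem_nhdsWithin_of_mem_nhds ht, hi⟩
  choose! V hVo hxV hVs using h
  obtain ⟨t, htC, htf, htcov⟩ := hc.elim_finite_subcover_image (b := tsupport φ) (c := V)
    (fun x hx => hVo x (hs hx)) (fun x hx => mem_biUnion hx (hxV x (hs hx)))
  have hfin : IsSobolevOn (⋃ x ∈ t, V x) w G := by
    clear htcov
    induction t, htf using Set.Finite.induction_on with
    | empty =>
      refine ⟨by simp [LocallyIntegrableOn], by simp [LocallyIntegrableOn], fun ψ _ _ hψ e => ?_⟩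
      have h0 : ψ = 0 := by
        rw [← tsupport_eq_empty_iff]
        simpa using hψ
      simp [h0]
    | @insert a s _ hsf ih =>
      rw [biUnion_insert]
      exact (hVs a (hs (htC (mem_insert a s)))).union (hVo a (hs (htC (mem_insert a s))))
        (isOpen_biUnion fun x hx => hVo x (hs (htC (mem_insert_of_mem a hx))))
        (ih ((subset_insert a s).trans htC))
  exact hfin.2.2 φ hφ hc htcov e

/-- Product with a `C^∞` function. -/
theorem IsSobolevOn.smooth_mul {U : Set ℂ} {w χ : ℂ → ℝ} {G : ℂ → ℂ} (hU : IsOpen U)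
    (hχ : ContDiff ℝ ((⊤ : ℕ∞) : WithTop ℕ∞) χ) (h : IsSobolevOn U w G) :
    IsSobolevOn U (fun x => χ x * w x) (fun x => χ x • G x + w x • gradOf χ x) := by
  have hχc : ContinuousOn χ U := hχ.continuous.continuousOn
  have hg : ContinuousOn (gradOf χ) U := continuousOn_gradOf hU (hχ.of_le (by simp)).contDiffOn
  refine ⟨h.1.continuousOn_mul hχc hU.isLocallyClosed,
    (h.2.1.continuousOn_smul hU.isLocallyClosed hχc).add
      (h.1.smul_continuousOn hU.isLocallyClosed hg), fun φ hφ hc hs e => ?_⟩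
  have hφ1 : ContDiff ℝ ((⊤ : ℕ∞) : WithTop ℕ∞) fun x => χ x * φ x := hχ.mul hφ
  have hc1 : HasCompactSupport fun x => χ x * φ x := hc.mul_left
  have hs1 : tsupport (fun x => χ x * φ x) ⊆ U := tsupport_mul_subset_right.trans hs
  have hd : ∀ x, χ x * fderiv ℝ φ x e =
      fderiv ℝ (fun x => χ x * φ x) x e - φ x * fderiv ℝ χ x e := by
    intro x
    rw [fderiv_fun_mul ((hχ.differentiable (by simp)) x) ((hφ.differentiable (by simp)) x)]
    simp
  have hi : Integrable fun x => w x * (φ x * fderiv ℝ χ x e) :=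
    integrable_mul_of_tsupport h.1 (hφ.continuous.mul (continuous_fderiv_apply_const hχ e))
      hc.mul_right (tsupport_mul_subset_left.trans hs)
  calc ∫ x, χ x * w x * fderiv ℝ φ x e
      = ∫ x, (w x * fderiv ℝ (fun x => χ x * φ x) x e - w x * (φ x * fderiv ℝ χ x e)) := by
        congr 1; funext x; rw [← mul_sub, ← hd]; ring
    _ = -∫ x, ⟪χ x • G x + w x • gradOf χ x, e⟫ * φ x := by
        rw [integral_sub (integrable_mul_fderiv h.1 hφ1 hc1 hs1 e) hi, h.2.2 _ hφ1 hc1 hs1 e,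
          ← neg_add',
          ← integral_add (integrable_inner_mul_of_tsupport h.2.1 hφ1.continuous hc1 hs1 e) hi]
        congr 2; funext x
        simp only [inner_add_left, real_inner_smul_left, inner_gradOf]; ring

/-! ### Uniqueness -/

theorem IsSobolevOn.grad_unique {U : Set ℂ} {w : ℂ → ℝ} {F G : ℂ → ℂ} (hU : IsOpen U)
    (hF : IsSobolevOn U w F) (hG : IsSobolevOn U w G) : F =ᵐ[volume.restrict U] G := by
  have key : ∀ e : ℂ, ∀ᵐ x, x ∈ U → ⟪F x - G x, e⟫ = 0 := fun e => by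
    refine hU.ae_eq_zero_of_integral_contDiff_smul_eq_zero
      (locallyIntegrableOn_inner_right (hF.2.1.sub hG.2.1) e) fun φ hφ hc hs => ?_
    simp only [smul_eq_mul, inner_sub_left, mul_sub]
    have a := integrable_inner_mul_of_tsupport hF.2.1 hφ.continuous hc hs e
    have b := integrable_inner_mul_of_tsupport hG.2.1 hφ.continuous hc hs e
    have h1 := hF.2.2 φ hφ hc hs e
    rw [hG.2.2 φ hφ hc hs e, neg_inj] at h1
    rw [integral_sub (a.congr (Eventually.of_forall fun x => mul_comm _ _))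
      (b.congr (Eventually.of_forall fun x => mul_comm _ _))]
    simp only [mul_comm (φ _), h1, sub_self]
  rw [EventuallyEq, ae_restrict_iff' hU.measurableSet]
  filter_upwards [key 1, key Complex.I] with x h1 h2 hx
  have a := h1 hx
  have b := h2 hx
  simp [Complex.inner, sub_eq_zero] at a b
  exact Complex.ext (by linarith) (by linarith)

/-- Two functions equal a.e. on an open set have the same gradient there. -/
theorem IsSobolevOn.grad_congr {U : Set ℂ} {v w : ℂ → ℝ} {F G : ℂ → ℂ} (hU : IsOpen U)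
    (hF : IsSobolevOn U v F) (hG : IsSobolevOn U w G) (h : v =ᵐ[volume.restrict U] w) :
    F =ᵐ[volume.restrict U] G :=
  IsSobolevOn.grad_unique hU (hF.congr hU.measurableSet h EventuallyEq.rfl) hG

/-- An almost-minimiser is Sobolev off its set. -/
theorem IsAlmostMin.isSobolevOn {U K : Set ℂ} {u : ℂ → ℝ} {G : ℂ → ℂ} {A M Λ : ℝ}
    (h : IsAlmostMin U K u G A M Λ) : IsSobolevOn (U \ K) u G :=
  isSobolevOn_of_hasFDerivAt h.isOpen_compl h.contGrad h.hasGrad

end Vale.Agent.P128.Bridge
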