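import Vale.Agent.P128.Bridge.CircleTest

/-!
# P128 bridge B1: the competitor of a free circle

Inside a free circle replace `u` by a radial extension of its trace: the energy and the length
inside are bounded by the energy of the circle.
-/

open MeasureTheory Set Metric Filter
open scoped ENNReal NNReal Topology Real RealInnerProductSpace

noncomputable section

namespace Vale.Agent.P128.Bridge

/-- Projection onto the circle from inside, the identity outside. -/
def push (x : ℂ) (s : ℝ) (y : ℂ) : ℂ := x + max 1 (s / ‖y - x‖) • (y - x)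

/-- Radial cutoff: zero up to `s/2`, one from `s` on. -/
def ramp (s r : ℝ) : ℝ := max 0 (min 1 (2 * r / s - 1))

theorem abs_ramp_sub_le {s : ℝ} (hs : 0 < s) (a b : ℝ) :
    |ramp s a - ramp s b| ≤ 2 / s * |a - b| := by
  refine (abs_max_sub_max_le_max _ _ _ _).trans (max_le (by simp; positivity) ?_)
  refine (abs_min_sub_min_le_max _ _ _ _).trans (max_le (by simp; positivity) ?_)
  rw [show 2 * a / s - 1 - (2 * b / s - 1) = 2 / s * (a - b) by ring, abs_mul,
    abs_of_pos (show (0 : ℝ) < 2 / s by positivity)]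

theorem ramp_mem (s r : ℝ) : 0 ≤ ramp s r ∧ ramp s r ≤ 1 :=
  ⟨le_max_left _ _, max_le zero_le_one (min_le_left _ _)⟩

theorem ramp_zero {s r : ℝ} (hs : 0 < s) (hr : r ≤ s / 2) : ramp s r = 0 :=
  max_eq_left ((min_le_right _ _).trans (by rw [sub_nonpos, div_le_one hs]; linarith))

theorem ramp_one {s r : ℝ} (hs : 0 < s) (hr : s ≤ r) : ramp s r = 1 := by
  rw [ramp, min_eq_left (by rw [le_sub_iff_add_le, le_div_iff₀ hs]; linarith),
    max_eq_right zero_le_one]

theorem norm_unit_sub_le {a b : ℂ} (ha : a ≠ 0) (hb : b ≠ 0) :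
    ‖‖a‖⁻¹ • a - ‖b‖⁻¹ • b‖ ≤ 2 * ‖a - b‖ / ‖a‖ := by
  have ha' : 0 < ‖a‖ := norm_pos_iff.2 ha
  have hb' : 0 < ‖b‖ := norm_pos_iff.2 hb
  rw [show ‖a‖⁻¹ • a - ‖b‖⁻¹ • b = ‖a‖⁻¹ • (a - b) + (‖a‖⁻¹ - ‖b‖⁻¹) • b by
    rw [smul_sub, sub_smul]; abel]
  refine (norm_add_le _ _).trans ?_
  rw [norm_smul, norm_smul, Real.norm_eq_abs, Real.norm_eq_abs, abs_of_pos (inv_pos.2 ha'),
    inv_sub_inv ha'.ne' hb'.ne', abs_div, abs_of_pos (mul_pos ha' hb')]
  have h1 : |‖b‖ - ‖a‖| / (‖a‖ * ‖b‖) * ‖b‖ = |‖b‖ - ‖a‖| / ‖a‖ := by field_simp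
  rw [h1, inv_mul_eq_div, ← add_div]
  gcongr
  linarith [abs_norm_sub_norm_le b a, norm_sub_rev a b]

theorem push_eq {x y : ℂ} (hy : y ≠ x) (s : ℝ) :
    push x s y - x = max ‖y - x‖ s • (‖y - x‖⁻¹ • (y - x)) := by
  have h0 : 0 < ‖y - x‖ := norm_pos_iff.2 (sub_ne_zero.2 hy)
  rw [push, add_sub_cancel_left, smul_smul]
  congr 1
  rw [max_mul_of_nonneg _ _ (inv_nonneg.2 h0.le), mul_inv_cancel₀ h0.ne', div_eq_mul_inv]

theorem push_sub_le {x a b : ℂ} (ha : a ≠ x) (hb : b ≠ x) (s : ℝ) :
    ‖push x s a - push x s b‖ ≤ (1 + 2 * max ‖b - x‖ s / ‖a - x‖) * ‖a - b‖ := by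
  have ha' : 0 < ‖a - x‖ := norm_pos_iff.2 (sub_ne_zero.2 ha)
  have hm : 0 ≤ max ‖b - x‖ s := le_max_of_le_left (norm_nonneg _)
  rw [show push x s a - push x s b = (push x s a - x) - (push x s b - x) by abel, push_eq ha,
    push_eq hb,
    show max ‖a - x‖ s • (‖a - x‖⁻¹ • (a - x)) - max ‖b - x‖ s • (‖b - x‖⁻¹ • (b - x)) =
      (max ‖a - x‖ s - max ‖b - x‖ s) • (‖a - x‖⁻¹ • (a - x)) +
        max ‖b - x‖ s • (‖a - x‖⁻¹ • (a - x) - ‖b - x‖⁻¹ • (b - x)) by
      rw [sub_smul, smul_sub (max ‖b - x‖ s)]; abel]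
  refine (norm_add_le _ _).trans ?_
  rw [norm_smul (max ‖a - x‖ s - max ‖b - x‖ s), norm_smul (max ‖b - x‖ s),
    Real.norm_eq_abs (max ‖a - x‖ s - max ‖b - x‖ s), Real.norm_of_nonneg hm, norm_smul, norm_inv,
    norm_norm, inv_mul_cancel₀ ha'.ne', mul_one, add_mul, one_mul]
  refine add_le_add ?_ ?_
  · refine (abs_max_sub_max_le_max _ _ _ _).trans (max_le ?_ (by simp))
    simpa using abs_norm_sub_norm_le (a - x) (b - x)
  · refine (mul_le_mul_of_nonneg_left
      (norm_unit_sub_le (sub_ne_zero.2 ha) (sub_ne_zero.2 hb)) hm).trans_eq ?_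
    rw [show a - x - (b - x) = a - b by abel]
    ring

theorem push_circleMap {x : ℂ} {s r : ℝ} (hr : 0 < r) (hrs : r ≤ s) (θ : ℝ) :
    push x s (circleMap x r θ) = circleMap x s θ := by
  rw [push, circleMap_sub_center, norm_circleMap_zero, abs_of_pos hr,
    max_eq_right ((one_le_div hr).2 hrs)]
  simp only [circleMap, zero_add, Complex.real_smul]
  push_cast
  field_simp [Complex.ofReal_ne_zero.2 hr.ne']

variable {U K : Set ℂ} {u : ℂ → ℝ} {G : ℂ → ℂ} {A M Λ : ℝ} {x : ℂ} {s : ℝ}

/-- The competitor. -/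
def cone (u : ℂ → ℝ) (x : ℂ) (s m : ℝ) (y : ℂ) : ℝ :=
  m + ramp s ‖y - x‖ * (u (push x s y) - m)

theorem cone_outside {y : ℂ} (hs : 0 < s) (m : ℝ) (hy : s ≤ ‖y - x‖) : cone u x s m y = u y := by
  have h0 : 0 < ‖y - x‖ := hs.trans_le hy
  rw [cone, ramp_one hs hy, one_mul, push, max_eq_left ((div_le_one h0).2 hy), one_smul,
    add_sub_cancel]
  ring

variable (h : IsAlmostMin U K u G A M Λ) (hs : 0 < s) (hsub : closedBall x s ⊆ U)
  (hfree : ∀ y ∈ sphere x s, y ∉ K)
include h hs hsub hfree

theorem push_mem {y : ℂ} (hyx : y ≠ x) (hy : y ∈ U \ (K \ closedBall x s)) :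
    push x s y ∈ U \ K := by
  rcases le_or_gt ‖y - x‖ s with hle | hlt
  · have hmem : push x s y ∈ sphere x s := by
      rw [mem_sphere, dist_eq_norm, push_eq hyx, norm_smul, norm_smul, norm_inv, norm_norm,
        inv_mul_cancel₀ (norm_ne_zero_iff.2 (sub_ne_zero.2 hyx)), mul_one, max_eq_right hle,
        Real.norm_of_nonneg hs.le]
    exact ⟨hsub (sphere_subset_closedBall hmem), hfree _ hmem⟩
  · rw [push, max_eq_left ((div_le_one (hs.trans hlt)).2 hlt.le), one_smul, add_sub_cancel]
    exact ⟨hy.1, fun hK => hy.2 ⟨hK, by rw [mem_closedBall, dist_eq_norm]; exact not_le.2 hlt⟩⟩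

theorem locallyLipschitzOn_cone (m : ℝ) :
    LocallyLipschitzOn (U \ (K \ closedBall x s)) (cone u x s m) := by
  intro y₀ hy₀
  rcases lt_or_ge ‖y₀ - x‖ (s / 2) with hlt | hge
  · refine ⟨0, {y | ‖y - x‖ < s / 2}, mem_nhdsWithin_of_mem_nhds
      ((isOpen_lt (show Continuous fun a : ℂ => ‖a - x‖ by fun_prop) continuous_const).mem_nhds hlt), ?_⟩
    refine LipschitzOnWith.of_dist_le_mul fun a (ha : ‖a - x‖ < s / 2) b (hb : ‖b - x‖ < s / 2) => ?_
    simp [cone, ramp_zero hs ha.le, ramp_zero hs hb.le]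
  have hy₀x : y₀ ≠ x := by
    rintro rfl
    simp at hge
    linarith
  have hq := push_mem h hs hsub hfree hy₀x hy₀
  have hcd : ContDiffAt ℝ 1 u (push x s y₀) := by
    refine ContDiffOn.contDiffAt ?_ (h.isOpen_compl.mem_nhds hq)
    refine (contDiffOn_succ_iff_fderiv_of_isOpen (n := 0) h.isOpen_compl).2
      ⟨fun y hy => (h.hasGrad y hy).differentiableAt.differentiableWithinAt,
        fun hn => absurd hn (by simp), ?_⟩
    rw [contDiffOn_zero]
    exact ((innerSL ℝ).continuous.comp_continuousOn h.contGrad).congr fun y hy =>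
      (h.hasGrad y hy).fderiv
  obtain ⟨L, T, hT, hL⟩ := hcd.exists_lipschitzOnWith
  obtain ⟨ε, hε, hεT⟩ := Metric.mem_nhds_iff.1 hT
  set C := 1 + 2 * (‖y₀ - x‖ + 2 * s) / (s / 4) with hC
  have hC1 : 1 ≤ C := le_add_of_nonneg_right (by positivity)
  have hC0 : 0 < C := lt_of_lt_of_le one_pos hC1
  set V : Set ℂ := ball y₀ (min (s / 4) (ε / C)) with hV
  have hVpos : 0 < min (s / 4) (ε / C) := lt_min (by linarith) (div_pos hε hC0)
  have hlow : ∀ a ∈ V, s / 4 ≤ ‖a - x‖ ∧ max ‖a - x‖ s ≤ ‖y₀ - x‖ + 2 * s ∧ a ≠ x := by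
    intro a ha
    rw [hV, mem_ball, dist_eq_norm] at ha
    have ha' := ha.trans_le (min_le_left _ _)
    have h1 : ‖y₀ - x‖ ≤ ‖a - x‖ + ‖a - y₀‖ := by
      have := norm_sub_le (a - x) (a - y₀)
      rwa [show a - x - (a - y₀) = y₀ - x by abel] at this
    have h2 : ‖a - x‖ ≤ ‖a - y₀‖ + ‖y₀ - x‖ := by
      have := norm_add_le (a - y₀) (y₀ - x)
      rwa [show a - y₀ + (y₀ - x) = a - x by abel] at this
    refine ⟨by linarith, max_le (by linarith) (by linarith [norm_nonneg (y₀ - x)]), ?_⟩
    rintro rfl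
    simp at h1
    linarith
  have hpush : ∀ a ∈ V, ∀ b ∈ V, ‖push x s a - push x s b‖ ≤ C * ‖a - b‖ := fun a ha b hb => by
    obtain ⟨a1, -, a3⟩ := hlow a ha
    obtain ⟨-, b2, b3⟩ := hlow b hb
    refine (push_sub_le a3 b3 s).trans (mul_le_mul_of_nonneg_right ?_ (norm_nonneg _))
    rw [hC]
    gcongr
  have hin : ∀ a ∈ V, push x s a ∈ T := fun a ha => hεT <| by
    rw [mem_ball, dist_eq_norm]
    refine (hpush a ha y₀ (mem_ball_self hVpos)).trans_lt ?_
    rw [hV, mem_ball, dist_eq_norm] at ha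
    calc C * ‖a - y₀‖ < C * (ε / C) :=
          mul_lt_mul_of_pos_left (ha.trans_le (min_le_right _ _)) hC0
      _ = ε := by field_simp
  obtain ⟨B, hB⟩ : ∃ B, ∀ a ∈ V, |u (push x s a) - m| ≤ B := by
    refine ⟨|u (push x s y₀) - m| + L * (C * min (s / 4) (ε / C)), fun a ha => ?_⟩
    have h1 := hL.norm_sub_le (hin a ha) (hin y₀ (mem_ball_self hVpos))
    rw [Real.norm_eq_abs] at h1
    have h2 : |u (push x s a) - u (push x s y₀)| ≤ L * (C * min (s / 4) (ε / C)) := by
      refine h1.trans (mul_le_mul_of_nonneg_left ((hpush a ha y₀ (mem_ball_self hVpos)).trans ?_)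
        L.2)
      rw [hV, mem_ball, dist_eq_norm] at ha
      exact mul_le_mul_of_nonneg_left ha.le hC0.le
    linarith [abs_sub_le (u (push x s a)) (u (push x s y₀)) m]
  refine ⟨Real.toNNReal (2 / s * |B| + L * C), V, mem_nhdsWithin_of_mem_nhds (ball_mem_nhds _ hVpos),
    LipschitzOnWith.of_dist_le' fun a ha b hb => ?_⟩
  rw [Real.dist_eq, dist_eq_norm]
  have h1 := hL.norm_sub_le (hin a ha) (hin b hb)
  rw [Real.norm_eq_abs] at h1
  have h2 := hpush a ha b hb
  have h3 := abs_ramp_sub_le hs ‖a - x‖ ‖b - x‖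
  have h4 : |‖a - x‖ - ‖b - x‖| ≤ ‖a - b‖ := by simpa using abs_norm_sub_norm_le (a - x) (b - x)
  calc |cone u x s m a - cone u x s m b|
      = |(ramp s ‖a - x‖ - ramp s ‖b - x‖) * (u (push x s a) - m) +
          ramp s ‖b - x‖ * (u (push x s a) - u (push x s b))| := by
        rw [cone, cone]; ring_nf
    _ ≤ 2 / s * ‖a - b‖ * |B| + 1 * (L * (C * ‖a - b‖)) := by
        refine (abs_add_le _ _).trans (add_le_add ?_ ?_)
        · rw [abs_mul]
          exact mul_le_mul (h3.trans (mul_le_mul_of_nonneg_left h4 (by positivity)))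
            ((hB a ha).trans (le_abs_self B)) (abs_nonneg _) (by positivity)
        · rw [abs_mul, abs_of_nonneg (ramp_mem _ _).1]
          exact mul_le_mul (ramp_mem _ _).2 (h1.trans (mul_le_mul_of_nonneg_left h2 L.2))
            (abs_nonneg _) zero_le_one
    _ = _ := by ring

theorem norm_gradOf_cone_le (m : ℝ) {y : ℂ} (hyx : y ≠ x) (hy : ‖y - x‖ ≤ s) :
    ‖gradOf (cone u x s m) y‖ ≤ 2 / s * |u (push x s y) - m| + 7 * ‖G (push x s y)‖ := by
  rw [← innerSL_apply_norm (𝕜 := ℝ) (gradOf (cone u x s m) y), innerSL_gradOf]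
  rcases lt_or_ge ‖y - x‖ (s / 2) with hlt | hge
  · have he : cone u x s m =ᶠ[𝓝 y] fun _ => m :=
      mem_of_superset ((isOpen_lt (show Continuous fun a : ℂ => ‖a - x‖ by fun_prop) continuous_const).mem_nhds hlt)
        fun a (ha : ‖a - x‖ < s / 2) => by simp [cone, ramp_zero hs ha.le]
    rw [he.fderiv_eq, fderiv_fun_const]
    simp only [Pi.zero_apply, norm_zero]
    positivity
  have hq := push_mem h hs hsub hfree hyx ⟨hsub (by rw [mem_closedBall, dist_eq_norm]; exact hy),
    fun hy' => hy'.2 (by rw [mem_closedBall, dist_eq_norm]; exact hy)⟩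
  refine le_of_forall_pos_le_add fun ε hε => ?_
  set ε' := ε / (2 / s + 8) with hε'
  have hε'0 : 0 < ε' := by positivity
  have hbig : ∀ᶠ a in 𝓝 y, 3 * s / 8 < ‖a - x‖ :=
    (isOpen_lt continuous_const (show Continuous fun a : ℂ => ‖a - x‖ by fun_prop)).mem_nhds (show 3 * s / 8 < ‖y - x‖ by linarith)
  have hpush : ∀ᶠ a in 𝓝 y, ‖push x s a - push x s y‖ ≤ 7 * ‖a - y‖ := by
    filter_upwards [hbig] with a ha
    have hax : a ≠ x := by rintro rfl; simp at ha; linarith
    refine (push_sub_le hax hyx s).trans (mul_le_mul_of_nonneg_right ?_ (norm_nonneg _))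
    rw [max_eq_right hy, ← le_sub_iff_add_le', div_le_iff₀ (by linarith)]
    linarith
  have htend : Tendsto (push x s) (𝓝 y) (𝓝 (push x s y)) := by
    refine tendsto_iff_norm_sub_tendsto_zero.2 (squeeze_zero' (Eventually.of_forall fun a =>
      norm_nonneg _) hpush ?_)
    have := ((show Continuous fun a : ℂ => ‖a - y‖ by fun_prop).tendsto y).const_mul (7 : ℝ)
    simpa using this
  have hlin : ∀ᶠ a in 𝓝 y,
      |u (push x s a) - u (push x s y)| ≤ (‖G (push x s y)‖ + ε') * ‖push x s a - push x s y‖ := by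
    filter_upwards [htend.eventually (((h.hasGrad _ hq).isLittleO).def hε'0)] with a ha
    rw [Real.norm_eq_abs, innerSL_apply_apply] at ha
    have h1 := abs_real_inner_le_norm (G (push x s y)) (push x s a - push x s y)
    rw [abs_le] at ha h1 ⊢
    constructor <;> linarith
  have hval : ∀ᶠ a in 𝓝 y, |u (push x s a) - m| ≤ |u (push x s y) - m| + ε' := by
    have hc : Tendsto (fun a => |u (push x s a) - m|) (𝓝 y) (𝓝 |u (push x s y) - m|) :=
      ((((h.hasGrad _ hq).continuousAt.tendsto).comp htend).sub_const m).abs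
    exact hc.eventually (eventually_le_nhds (by linarith))
  refine norm_fderiv_le_of_lip' ℝ (by positivity) ?_
  filter_upwards [hpush, hlin, hval] with a a2 a3 a4
  rw [Real.norm_eq_abs]
  have h3 := abs_ramp_sub_le hs ‖a - x‖ ‖y - x‖
  have h4 : |‖a - x‖ - ‖y - x‖| ≤ ‖a - y‖ := by simpa using abs_norm_sub_norm_le (a - x) (y - x)
  calc |cone u x s m a - cone u x s m y|
      = |(ramp s ‖a - x‖ - ramp s ‖y - x‖) * (u (push x s a) - m) +
          ramp s ‖y - x‖ * (u (push x s a) - u (push x s y))| := by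
        rw [cone, cone]; ring_nf
    _ ≤ 2 / s * ‖a - y‖ * (|u (push x s y) - m| + ε') +
          1 * ((‖G (push x s y)‖ + ε') * (7 * ‖a - y‖)) := by
        refine (abs_add_le _ _).trans (add_le_add ?_ ?_)
        · rw [abs_mul]
          exact mul_le_mul (h3.trans (mul_le_mul_of_nonneg_left h4 (by positivity))) a4
            (abs_nonneg _) (by positivity)
        · rw [abs_mul, abs_of_nonneg (ramp_mem _ _).1]
          exact mul_le_mul (ramp_mem _ _).2
            (a3.trans (mul_le_mul_of_nonneg_left a2 (by positivity))) (abs_nonneg _) zero_le_one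
    _ = (2 / s * |u (push x s y) - m| + 7 * ‖G (push x s y)‖ + (2 / s + 7) * ε') * ‖a - y‖ := by
        ring
    _ ≤ _ := by
        refine mul_le_mul_of_nonneg_right (add_le_add le_rfl ?_) (norm_nonneg _)
        rw [hε', mul_div_assoc', div_le_iff₀ (by positivity)]
        nlinarith [show (0:ℝ) < 2 / s by positivity]

/-- The trace is within the angular variation of any of its values. -/
theorem trace_osc {θ : ℝ} (hθ : θ ∈ Icc (-π) π) :
    (u (circleMap x s θ) - u (circleMap x s (-π))) ^ 2 ≤ 2 * π * s ^ 2 * circEnergy G x s := by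
  have hp := Real.pi_pos
  have hg := continuous_tang h hs hsub hfree
  set I := ∫ t in (-π)..π, |tang G x s t| with hI
  have h1 : |u (circleMap x s θ) - u (circleMap x s (-π))| ≤ I := by
    rw [trace_primitive h hs hsub hfree (-π) θ, add_sub_cancel_left]
    exact (intervalIntegral.abs_integral_le_integral_abs hθ.1).trans
      (intervalIntegral.integral_mono_interval le_rfl hθ.1 hθ.2
        (Eventually.of_forall fun t => abs_nonneg _) (hg.abs.intervalIntegrable _ _))
  have h2 : I ^ 2 ≤ 2 * π * ∫ t in (-π)..π, tang G x s t ^ 2 := by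
    set c := I / (2 * π) with hc
    have h0 : 0 ≤ ∫ t in (-π)..π, (tang G x s t ^ 2 - 2 * c * |tang G x s t| + c ^ 2) :=
      intervalIntegral.integral_nonneg (by linarith) fun t _ => by
        nlinarith [sq_nonneg (|tang G x s t| - c), sq_abs (tang G x s t)]
    have i1 : Continuous fun t => tang G x s t ^ 2 := hg.pow 2
    have i2 : Continuous fun t => 2 * c * |tang G x s t| := continuous_const.mul hg.abs
    have i12 : Continuous fun t => tang G x s t ^ 2 - 2 * c * |tang G x s t| := i1.sub i2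
    rw [intervalIntegral.integral_add (i12.intervalIntegrable _ _)
        (intervalIntegrable_const),
      intervalIntegral.integral_sub (i1.intervalIntegrable _ _) (i2.intervalIntegrable _ _),
      intervalIntegral.integral_const_mul, intervalIntegral.integral_const, smul_eq_mul, ← hI] at h0
    have hc' : I = c * (2 * π) := by rw [hc]; field_simp
    rw [hc'] at h0 ⊢
    nlinarith
  have h3 : ∫ t in (-π)..π, tang G x s t ^ 2 ≤ s ^ 2 * circEnergy G x s := by
    rw [circEnergy, ← intervalIntegral.integral_const_mul]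
    refine intervalIntegral.integral_mono_on (by linarith) ((hg.pow 2).intervalIntegrable _ _)
      (((continuous_grad_circle h hs hsub hfree).norm.pow 2).intervalIntegrable _ _ |>.const_mul _)
      fun t _ => ?_
    rw [← tang_sq_add]
    exact le_add_of_nonneg_left (sq_nonneg _)
  rw [← sq_abs]
  refine (pow_le_pow_left₀ (abs_nonneg _) h1 2).trans (h2.trans ?_)
  rw [mul_assoc (2 * π)]
  exact mul_le_mul_of_nonneg_left h3 (by positivity)

/-- **The cone competitor.** -/
theorem cone_bound :
    weakEnergy K G (closedBall x s) ≤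
      ENNReal.ofReal (420 * (s ^ 2 * circEnergy G x s) + Λ * s ^ 2) := by
  have hp := Real.pi_pos
  have hΓ : 0 ≤ circEnergy G x s :=
    intervalIntegral.integral_nonneg (by linarith) fun θ _ => sq_nonneg _
  set m := u (circleMap x s (-π)) with hm
  set L := K \ closedBall x s with hL
  set w := cone u x s m with hw
  have hLU : L ⊆ U := sdiff_subset.trans h.subset
  have heq : U \ L = (U \ K) ∪ ball x s := by
    ext y
    constructor
    · rintro ⟨hyU, hyL⟩
      by_cases hyK : y ∈ K
      · have hc : y ∈ closedBall x s := not_not.1 fun hc => hyL ⟨hyK, hc⟩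
        exact Or.inr (lt_of_le_of_ne hc fun he => hfree y he hyK)
      · exact Or.inl ⟨hyU, hyK⟩
    · rintro (hy | hy)
      · exact ⟨hy.1, fun hL' => hy.2 hL'.1⟩
      · exact ⟨hsub (ball_subset_closedBall hy), fun hL' => hL'.2 (ball_subset_closedBall hy)⟩
  have hLopen : IsOpen (U \ L) := heq ▸ h.isOpen_compl.union isOpen_ball
  have hLK : L \ closedBall x s = K \ closedBall x s := by rw [hL, Set.sdiff_sdiff, union_self]
  have hsob : IsSobolevOn (U \ L) w (gradOf w) :=
    isSobolevOn_of_locallyLipschitzOn hLopen (locallyLipschitzOn_cone h hs hsub hfree m)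
  have hout : ∀ᵐ y ∂volume.restrict (U \ closedBall x s), w y = u y := by
    filter_upwards [ae_restrict_mem (h.isOpen.measurableSet.diff measurableSet_closedBall)] with y hy
    refine cone_outside hs m ?_
    have := hy.2
    rw [mem_closedBall, dist_eq_norm, not_le] at this
    exact this.le
  have hcomp := h.almostMin x s hs hsub L w (gradOf w) hLU hLopen hLK hsob hout
  have hmeas : Measurable fun y => ‖gradOf w y‖ₑ ^ 2 := by
    have hm' : ∀ e : ℂ, Measurable fun y => fderiv ℝ w y e := fun e =>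
      measurable_fderiv_apply_const ℝ w e
    have : Measurable (gradOf w) := by
      have e : gradOf w = fun y => Complex.equivRealProdCLM.symm
          (fderiv ℝ w y 1, fderiv ℝ w y Complex.I) := funext fun y => by
        simp [gradOf, Complex.ext_iff, Complex.equivRealProdCLM_symm_apply]
      rw [e]
      exact Complex.equivRealProdCLM.symm.continuous.measurable.comp
        ((hm' 1).prodMk (hm' Complex.I))
    exact this.enorm.pow_const 2
  have hen : weakEnergy L (gradOf w) (closedBall x s) ≤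
      ENNReal.ofReal (420 * (s ^ 2 * circEnergy G x s)) := by
    have h1 : closedBall x s \ L = closedBall x s :=
      sdiff_eq_left.2 (disjoint_left.2 fun y hy hyL => hyL.2 hy)
    have h2 : L ∩ closedBall x s = ∅ := sdiff_inter_self
    unfold weakEnergy
    rw [h1, h2, measure_empty, add_zero]
    have h3 : (closedBall x s : Set ℂ) =ᵐ[volume] ball x s := by
      rw [← ball_union_sphere]
      exact union_ae_eq_left_of_ae_eq_empty (ae_eq_empty.2 (Measure.addHaar_sphere volume x s))
    rw [setLIntegral_congr h3, lintegral_ball_polar hmeas.aemeasurable.restrict]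
    set Γ := circEnergy G x s
    calc ∫⁻ r in Ioo (0 : ℝ) s, ENNReal.ofReal r *
          ∫⁻ θ in Ioo (-π) π, ‖gradOf w (circleMap x r θ)‖ₑ ^ 2
        ≤ ∫⁻ _ in Ioo (0 : ℝ) s, ENNReal.ofReal (420 * (s * Γ)) := by
          refine setLIntegral_mono' measurableSet_Ioo fun r hr => ?_
          have hpt : ∀ θ ∈ Ioo (-π) π, ‖gradOf w (circleMap x r θ)‖ₑ ^ 2 ≤
              ENNReal.ofReal (16 * π * Γ + 98 * ‖G (circleMap x s θ)‖ ^ 2) := fun θ hθ => by
            have hne : circleMap x r θ ≠ x := by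
              rw [Ne, circleMap_eq_center_iff]; exact hr.1.ne'
            have hb := norm_gradOf_cone_le h hs hsub hfree m hne (by
              rw [circleMap_sub_center, norm_circleMap_zero, abs_of_pos hr.1]; exact hr.2.le)
            rw [push_circleMap hr.1 hr.2.le] at hb
            rw [← ofReal_norm, ← ENNReal.ofReal_pow (norm_nonneg _)]
            refine ENNReal.ofReal_le_ofReal ((pow_le_pow_left₀ (norm_nonneg _) hb 2).trans ?_)
            have ho := trace_osc h hs hsub hfree (Ioo_subset_Icc_self hθ)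
            have e1 : (2 / s * |u (circleMap x s θ) - m|) ^ 2 ≤ 8 * π * Γ := by
              rw [mul_pow, sq_abs, div_pow]
              refine (mul_le_mul_of_nonneg_left ho (by positivity)).trans_eq ?_
              field_simp
              ring
            nlinarith [sq_nonneg (2 / s * |u (circleMap x s θ) - m| - 7 * ‖G (circleMap x s θ)‖)]
          refine (mul_le_mul_right (setLIntegral_mono' measurableSet_Ioo hpt) _).trans ?_
          have hc : Continuous fun θ => 16 * π * Γ + 98 * ‖G (circleMap x s θ)‖ ^ 2 :=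
            continuous_const.add (continuous_const.mul
              ((continuous_grad_circle h hs hsub hfree).norm.pow 2))
          have hc2 : Continuous fun θ => ‖G (circleMap x s θ)‖ ^ 2 :=
            (continuous_grad_circle h hs hsub hfree).norm.pow 2
          rw [← ofReal_integral_eq_lintegral_ofReal (hc.integrableOn_Icc.mono_set Ioo_subset_Icc_self)
              (Eventually.of_forall fun θ => by positivity),
            ← integral_Ioc_eq_integral_Ioo, ← intervalIntegral.integral_of_le (by linarith),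
            intervalIntegral.integral_add intervalIntegrable_const
              ((hc2.intervalIntegrable _ _).const_mul 98),
            intervalIntegral.integral_const, intervalIntegral.integral_const_mul, smul_eq_mul,
            ← ENNReal.ofReal_mul hr.1.le]
          refine ENNReal.ofReal_le_ofReal ?_
          show r * ((π - -π) * (16 * π * Γ) + 98 * Γ) ≤ 420 * (s * Γ)
          have hπ : π * π ≤ 10 := by nlinarith [Real.pi_lt_d2]
          nlinarith [mul_le_mul_of_nonneg_right hr.2.le
            (show 0 ≤ (π - -π) * (16 * π * Γ) + 98 * Γ from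
              add_nonneg (mul_nonneg (by linarith) (by positivity)) (by positivity)), mul_nonneg hs.le hΓ,
            mul_le_mul_of_nonneg_right hπ (mul_nonneg hs.le hΓ)]
      _ = ENNReal.ofReal (420 * (s ^ 2 * Γ)) := by
          rw [setLIntegral_const, Real.volume_Ioo, sub_zero, ← ENNReal.ofReal_mul (by positivity)]
          congr 1; ring
  refine hcomp.trans ?_
  rw [ENNReal.ofReal_add (by positivity)
    (mul_nonneg ((mul_nonneg h.A_nonneg h.M_nonneg).trans h.AM_le) (sq_nonneg s))]
  exact add_le_add hen le_rfl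

end Vale.Agent.P128.Bridge
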