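import Vale.Agent.P128.Bridge.Cone
import Vale.Agent.P128.Bridge.Covering
import Vale.Agent.P128.Bridge.Upper

/-!
# P128 bridge B1b: energy decay at small length and the lower density bound
-/

open MeasureTheory Set Metric Filter
open scoped ENNReal NNReal Topology Real

noncomputable section

namespace Vale.Agent.P128.Bridge

variable {U K : Set ℂ} {u : ℂ → ℝ} {G : ℂ → ℂ} {A M Λ : ℝ} {x : ℂ} {T : ℝ}

/-- Dirichlet energy in a disc. -/
def dirEn (K : Set ℂ) (G : ℂ → ℂ) (x : ℂ) (r : ℝ) : ℝ :=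
  (∫⁻ y in ball x r \ K, ‖G y‖ₑ ^ 2).toReal

/-- Length in a closed disc. -/
def lenIn (K : Set ℂ) (x : ℂ) (r : ℝ) : ℝ := (μH[1] (K ∩ closedBall x r)).toReal

theorem IsAlmostMin.measurableSet (h : IsAlmostMin U K u G A M Λ) : MeasurableSet K := by
  have : K = U \ (U \ K) := (sdiff_sdiff_cancel_left h.subset).symm
  rw [this]
  exact h.isOpen.measurableSet.diff h.isOpen_compl.measurableSet

theorem IsAlmostMin.Lambda_nonneg (h : IsAlmostMin U K u G A M Λ) : 0 ≤ Λ :=
  (mul_nonneg h.A_nonneg h.M_nonneg).trans h.AM_le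

theorem IsAlmostMin.isCompact_inter (h : IsAlmostMin U K u G A M Λ) (hsub : closedBall x T ⊆ U) :
    IsCompact (K ∩ closedBall x T) := by
  have : K ∩ closedBall x T = closedBall x T \ (U \ K) := ext fun y =>
    ⟨fun hy => ⟨hy.2, fun h' => h'.2 hy.1⟩,
      fun hy => ⟨not_not.1 fun hK => hy.2 ⟨hsub hy.1, hK⟩, hy.1⟩⟩
  rw [this]
  exact (isCompact_closedBall x T).diff h.isOpen_compl

theorem weak_lt_top (h : IsAlmostMin U K u G A M Λ) (hsub : closedBall x T ⊆ U) :
    ∫⁻ y in ball x T \ K, ‖G y‖ₑ ^ 2 < ⊤ ∧ μH[1] (K ∩ closedBall x T) < ⊤ := by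
  have h1 := h.finite _ (isCompact_closedBall x T) hsub
  refine ⟨lt_of_le_of_lt ?_ h1, lt_of_le_of_lt le_add_self h1⟩
  exact (lintegral_mono_set (sdiff_subset_sdiff_left ball_subset_closedBall)).trans le_self_add

variable (h : IsAlmostMin U K u G A M Λ) (hT : 0 < T) (hsub : closedBall x T ⊆ U)
include h hT hsub

/-- Free radii carry the energy of the annulus. -/
theorem free_radii (hlen : lenIn K x T ≤ T / 100) :
    ∃ F : Set ℝ, MeasurableSet F ∧ F ⊆ Ioo (3 * T / 4) T ∧ ENNReal.ofReal (6 * T / 25) ≤ volume F ∧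
      (∀ s ∈ F, ∀ y ∈ sphere x s, y ∉ K) ∧
      ∫⁻ s in F, ENNReal.ofReal (s * circEnergy G x s) ≤
        ENNReal.ofReal (dirEn K G x T - dirEn K G x (3 * T / 4)) := by
  classical
  set I : Set ℝ := (fun y => dist y x) '' (K ∩ closedBall x T) with hI
  have hIc : IsCompact I := (h.isCompact_inter hsub).image (continuous_id.dist continuous_const)
  have hIv : volume I ≤ ENNReal.ofReal (T / 100) := by
    rw [← hausdorffMeasure_real]
    refine ((LipschitzWith.dist_left x).hausdorffMeasure_image_le zero_le_one _).trans ?_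
    rw [ENNReal.rpow_one, ENNReal.coe_one, one_mul,
      ← ENNReal.ofReal_toReal (weak_lt_top h hsub).2.ne]
    exact ENNReal.ofReal_le_ofReal hlen
  set F := Ioo (3 * T / 4) T \ I with hF
  have hFm : MeasurableSet F := measurableSet_Ioo.diff hIc.measurableSet
  have hfree : ∀ s ∈ F, ∀ y ∈ sphere x s, y ∉ K := fun s hs y hy hK =>
    hs.2 ⟨y, ⟨hK, mem_closedBall.2 ((mem_sphere.1 hy).le.trans hs.1.2.le)⟩, mem_sphere.1 hy⟩
  refine ⟨F, hFm, sdiff_subset, ?_, hfree, ?_⟩
  · have h1 := le_measure_sdiff (μ := volume) (s₁ := Ioo (3 * T / 4) T) (s₂ := I)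
    rw [Real.volume_Ioo] at h1
    refine le_trans ?_ h1
    refine le_trans ?_ (tsub_le_tsub_left hIv _)
    rw [← ENNReal.ofReal_sub _ (by positivity)]
    exact ENNReal.ofReal_le_ofReal (by linarith)
  set S := (ball x T ∩ (U \ K)) \ closedBall x (3 * T / 4) with hS
  have hSo : IsOpen S := (isOpen_ball.inter h.isOpen_compl).sdiff isClosed_closedBall
  set f : ℂ → ℝ≥0∞ := S.indicator fun y => ‖G y‖ₑ ^ 2 with hf
  have hfm : AEMeasurable f := (aemeasurable_indicator_iff hSo.measurableSet).2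
    (((h.contGrad.mono (sdiff_subset.trans inter_subset_right)).aemeasurable
      hSo.measurableSet).enorm.pow_const (2 : ℕ))
  have hfin := (weak_lt_top h hsub).1
  have hle : ∫⁻ y, f y ≤ ENNReal.ofReal (dirEn K G x T - dirEn K G x (3 * T / 4)) := by
    rw [hf, lintegral_indicator hSo.measurableSet, dirEn, dirEn]
    have hsub' : (ball x (3 * T / 4) \ K) ∪ S ⊆ ball x T \ K := union_subset
      (sdiff_subset_sdiff_left (ball_subset_ball (by linarith))) fun y hy => ⟨hy.1.1, hy.1.2.2⟩
    have hd : Disjoint (ball x (3 * T / 4) \ K) S := disjoint_left.2 fun y hy hy' =>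
      hy'.2 (ball_subset_closedBall hy.1)
    have h1 : ∫⁻ y in ball x (3 * T / 4) \ K, ‖G y‖ₑ ^ 2 < ⊤ :=
      (lintegral_mono_set (subset_union_left.trans hsub')).trans_lt hfin
    rw [ENNReal.ofReal_sub _ ENNReal.toReal_nonneg, ENNReal.ofReal_toReal h1.ne,
      ENNReal.ofReal_toReal hfin.ne]
    refine ENNReal.le_sub_of_add_le_left h1.ne ?_
    rw [← lintegral_union hSo.measurableSet hd]
    exact lintegral_mono_set hsub'
  refine le_trans ?_ hle
  rw [lintegral_polar hfm x]
  refine le_trans ?_ (lintegral_mono_set (show F ⊆ Ioi 0 from fun s hs =>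
    lt_trans (by positivity) hs.1.1))
  refine le_of_eq (setLIntegral_congr_fun hFm fun s hs => ?_)
  have hs0 : 0 < s := lt_trans (by positivity) hs.1.1
  have hs' : closedBall x s ⊆ U := (closedBall_subset_closedBall hs.1.2.le).trans hsub
  have hmem : ∀ θ, circleMap x s θ ∈ S := fun θ => by
    refine ⟨⟨?_, free_mem hs0.le hs' (hfree s hs) θ⟩, ?_⟩ <;>
      simp only [mem_ball, mem_closedBall, mem_sphere.1 (circleMap_mem_sphere x hs0.le θ)]
    exacts [hs.1.2, not_le.2 hs.1.1]
  have hc : Continuous fun θ => ‖G (circleMap x s θ)‖ ^ 2 :=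
    (continuous_grad_circle h hs0 hs' (hfree s hs)).norm.pow 2
  have hπ : -π ≤ π := by linarith [Real.pi_pos]
  rw [ENNReal.ofReal_mul hs0.le, circEnergy, intervalIntegral.integral_of_le hπ,
    integral_Ioc_eq_integral_Ioo,
    ofReal_integral_eq_lintegral_ofReal (hc.integrableOn_Icc.mono_set Ioo_subset_Icc_self)
      (Eventually.of_forall fun θ => sq_nonneg _)]
  congr 1
  refine lintegral_congr fun θ => ?_
  rw [hf, indicator_of_mem (hmem θ), ← ofReal_norm, ENNReal.ofReal_pow (norm_nonneg _)]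

/-- One step of the decay. -/
theorem step (hlen : lenIn K x T ≤ T / 100) :
    dirEn K G x (3 * T / 4) / (3 * T / 4) ≤ 19 / 20 * (dirEn K G x T / T) + 3000 * (Λ * T) ∧
      lenIn K x (3 * T / 4) / (3 * T / 4) ≤ 3000 * (dirEn K G x T / T) + 3000 * (Λ * T) := by
  obtain ⟨F, hFm, hFsub, hFv, hfree, hFint⟩ := free_radii h hT hsub hlen
  have hΛ := h.Lambda_nonneg
  have hπ := Real.pi_le_four
  set D := dirEn K G x T with hD
  set D' := dirEn K G x (3 * T / 4) with hD'
  have hD0 : 0 ≤ D := ENNReal.toReal_nonneg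
  have hD'0 : 0 ≤ D' := ENNReal.toReal_nonneg
  have hDD : D' ≤ D := ENNReal.toReal_mono (weak_lt_top h hsub).1.ne
    (lintegral_mono_set (sdiff_subset_sdiff_left (ball_subset_ball (by linarith))))
  have hbd : ∀ c : ℝ, 0 ≤ c → (∀ s ∈ F, c ≤ s * circEnergy G x s) → c * (6 * T / 25) ≤ D - D' := by
    intro c hc hcF
    rw [← ENNReal.ofReal_le_ofReal_iff (by linarith), ENNReal.ofReal_mul hc]
    refine (mul_le_mul_right hFv _).trans (le_trans ?_ hFint)
    rw [← setLIntegral_const]
    exact setLIntegral_mono' hFm fun s hs => ENNReal.ofReal_le_ofReal (hcF s hs)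
  constructor
  · have key : 37 / 25 * D' ≤ D + 2 * (Λ * T ^ 2) := by
      rcases le_or_gt D' (π * Λ * T ^ 2) with hle | hlt
      · nlinarith [mul_le_mul_of_nonneg_right hπ (mul_nonneg hΛ (sq_nonneg T))]
      have h1 := hbd (2 * (D' - π * Λ * T ^ 2) / T) (div_nonneg (by linarith) hT.le) fun s hs => by
        obtain ⟨hs1, hs2⟩ := hFsub hs
        have hs0 : 0 < s := lt_trans (by positivity) hs1
        have hs' : closedBall x s ⊆ U := (closedBall_subset_closedBall hs2.le).trans hsub
        have hΓ : 0 ≤ circEnergy G x s :=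
          intervalIntegral.integral_nonneg (by linarith [Real.pi_pos]) fun θ _ => sq_nonneg _
        have hfl := ENNReal.toReal_le_of_le_ofReal (by positivity)
          (flux h hs0 hs' (hfree s hs) (r := 3 * T / 4) hs1)
        rw [show (∫⁻ y in ball x (3 * T / 4) \ K, ‖G y‖ₑ ^ 2).toReal = D' from rfl] at hfl
        rw [div_le_iff₀ hT]
        nlinarith [mul_le_mul_of_nonneg_left hs2.le (mul_nonneg hs0.le hΓ),
          mul_le_mul_of_nonneg_left (mul_le_mul hs2.le hs2.le hs0.le hT.le)
            (mul_nonneg Real.pi_nonneg hΛ)]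
      rw [show 2 * (D' - π * Λ * T ^ 2) / T * (6 * T / 25) = 12 / 25 * (D' - π * Λ * T ^ 2) by
        field_simp; ring] at h1
      nlinarith [mul_le_mul_of_nonneg_right hπ (mul_nonneg hΛ (sq_nonneg T))]
    rw [div_le_iff₀ (by positivity),
      show (19 / 20 * (D / T) + 3000 * (Λ * T)) * (3 * T / 4) =
        57 / 80 * D + 2250 * (Λ * T ^ 2) by field_simp; ring]
    nlinarith [mul_nonneg hΛ (sq_nonneg T)]
  · have key : lenIn K x (3 * T / 4) ≤ 2100 * D + Λ * T ^ 2 := by
      refine le_of_forall_pos_le_add fun ε hε => ?_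
      obtain ⟨s, hs, hsle⟩ : ∃ s ∈ F, s * circEnergy G x s ≤ 5 * D / T + ε / (420 * T) := by
        by_contra hc
        push Not at hc
        have h1 := hbd _ (by positivity) fun s hs => (hc s hs).le
        rw [show (5 * D / T + ε / (420 * T)) * (6 * T / 25) = 6 / 5 * D + ε / 1750 by
          field_simp; ring] at h1
        linarith
      obtain ⟨hs1, hs2⟩ := hFsub hs
      have hs0 : 0 < s := lt_trans (by positivity) hs1
      have hΓ : 0 ≤ circEnergy G x s :=
        intervalIntegral.integral_nonneg (by linarith [Real.pi_pos]) fun θ _ => sq_nonneg _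
      have hc := (le_add_self.trans (cone_bound h hs0
        ((closedBall_subset_closedBall hs2.le).trans hsub) (hfree s hs)) :
        μH[1] (K ∩ closedBall x s) ≤ _)
      have hle := ENNReal.toReal_le_of_le_ofReal (by positivity)
        ((measure_mono (inter_subset_inter_right K (closedBall_subset_closedBall hs1.le))).trans hc)
      refine hle.trans ?_
      have h2 : s * (s * circEnergy G x s) ≤ T * (5 * D / T + ε / (420 * T)) :=
        mul_le_mul hs2.le hsle (mul_nonneg hs0.le hΓ) hT.le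
      rw [show T * (5 * D / T + ε / (420 * T)) = 5 * D + ε / 420 by field_simp] at h2
      nlinarith [mul_le_mul hs2.le hs2.le hs0.le hT.le]
    rw [div_le_iff₀ (by positivity),
      show (3000 * (D / T) + 3000 * (Λ * T)) * (3 * T / 4) =
        2250 * D + 2250 * (Λ * T ^ 2) by field_simp; ring]
    nlinarith [mul_nonneg hΛ (sq_nonneg T)]

omit h hT hsub in
/-- Small length propagates to all smaller scales. -/
theorem exists_decay :
    ∃ η δ : ℝ, 0 < η ∧ 0 < δ ∧ ∀ (U K : Set ℂ) (u : ℂ → ℝ) (G : ℂ → ℂ) (A M Λ : ℝ),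
      IsAlmostMin U K u G A M Λ → ∀ (x : ℂ) (T : ℝ), 0 < T → closedBall x T ⊆ U → Λ * T ≤ δ →
        lenIn K x T ≤ η * T → ∀ r : ℝ, 0 < r → r ≤ T →
          μH[1] (K ∩ ball x r) ≤ ENNReal.ofReal (r / 2) := by
  obtain ⟨η, δ, hη, hδ, hit⟩ := iteration (2 * π + 1) 3000 (by positivity) (by norm_num)
  refine ⟨η, min δ 1, hη, lt_min hδ one_pos,
    fun U K u G A M Λ h x T hT hsub hΛT hlen r hr hrT => ?_⟩
  have hΛ := h.Lambda_nonneg
  set R : ℕ → ℝ := fun k => (3 / 4) ^ k * T with hR
  have hR0 : ∀ k, 0 < R k := fun k => by positivity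
  have hRT : ∀ k, R k ≤ T := fun k =>
    mul_le_of_le_one_left hT.le (pow_le_one₀ (by norm_num) (by norm_num))
  have hRsub : ∀ k, closedBall x (R k) ⊆ U := fun k =>
    (closedBall_subset_closedBall (hRT k)).trans hsub
  have hy0 : dirEn K G x (R 0) / R 0 ≤ 2 * π + 1 := by
    simp only [hR, pow_zero, one_mul]
    rw [div_le_iff₀ hT]
    have h1 : ∫⁻ y in ball x T \ K, ‖G y‖ₑ ^ 2 ≤ ENNReal.ofReal (2 * π * T + Λ * T ^ 2) :=
      ((lintegral_mono_set (sdiff_subset_sdiff_left ball_subset_closedBall)).trans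
        le_self_add).trans (upper U K u G A M Λ h x T hT hsub)
    refine (ENNReal.toReal_le_of_le_ofReal (by positivity) h1).trans ?_
    nlinarith [hΛT.trans (min_le_right _ _)]
  have hh := hit (fun k => dirEn K G x (R k) / R k) (fun k => lenIn K x (R k) / R k) (Λ * T)
    (mul_nonneg hΛ hT.le) (hΛT.trans (min_le_left _ _)) hy0
    (by simp only [hR, pow_zero, one_mul]; rwa [div_le_iff₀ hT]) (fun k => ?_) (fun k hk => ?_)
  · obtain ⟨k, hk1, hk2⟩ := exists_nat_pow_near_of_lt_one (div_pos hr hT) ((div_le_one hT).2 hrT)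
      (show (0 : ℝ) < 3 / 4 by norm_num) (by norm_num)
    rw [lt_div_iff₀ hT] at hk1
    rw [div_le_iff₀ hT] at hk2
    have h1 := hh k
    rw [div_le_iff₀ (hR0 k)] at h1
    refine (measure_mono (inter_subset_inter_right K
      (ball_subset_closedBall.trans (closedBall_subset_closedBall hk2)))).trans ?_
    rw [← ENNReal.ofReal_toReal (weak_lt_top h (hRsub k)).2.ne]
    refine ENNReal.ofReal_le_ofReal (h1.trans ?_)
    simp only [hR]
    rw [pow_succ] at hk1
    nlinarith
  · simp only [hR, pow_zero, one_mul]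
    rw [div_div, mul_comm T]
    exact div_le_div_of_nonneg_right (ENNReal.toReal_mono (weak_lt_top h hsub).2.ne
      (measure_mono (inter_subset_inter_right K (closedBall_subset_closedBall (hRT k))))) (hR0 k).le
  · have hs := step h (hR0 k) (hRsub k) (by rwa [div_le_iff₀ (hR0 k), one_div_mul_eq_div] at hk)
    have hle : Λ * R k ≤ Λ * T := mul_le_mul_of_nonneg_left (hRT k) hΛ
    have e : R (k + 1) = 3 * R k / 4 := by simp only [hR]; ring
    simp only [e]
    constructor <;> linarith [hs.1, hs.2]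

end Vale.Agent.P128.Bridge

namespace Vale.Agent.P128.Bridge

theorem lower : LowerSpec := by
  obtain ⟨η, δ, hη, hδ, hdec⟩ := exists_decay
  refine ⟨η / 2, δ, half_pos hη, hδ, fun U K u G A M Λ h hred z hz t ht hsub hΛt => ?_⟩
  by_contra hlt
  rw [not_le] at hlt
  have hsub2 : closedBall z (t / 2) ⊆ U :=
    (closedBall_subset_closedBall (half_le_self ht.le)).trans hsub
  refine (hred z hz (t / 2) (half_pos ht) hsub2).ne' ?_
  refine hausdorff_null_of_density (h.measurableSet.inter measurableSet_ball) inter_subset_left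
    (((measure_mono (inter_subset_inter_right K ball_subset_closedBall)).trans_lt
      (weak_lt_top h hsub2).2)) fun x hx => ⟨t / 2, half_pos ht, ?_⟩
  have hxsub : closedBall x (t / 2) ⊆ closedBall z t := closedBall_subset_closedBall' (by
    linarith [mem_ball.1 hx.2])
  refine hdec U K u G A M Λ h x (t / 2) (half_pos ht) (hxsub.trans hsub) ?_ ?_
  · nlinarith [h.Lambda_nonneg]
  · refine ENNReal.toReal_le_of_le_ofReal (by positivity) ?_
    refine (measure_mono (inter_subset_inter_right K hxsub)).trans (hlt.le.trans (le_of_eq ?_))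
    congr 1
    ring

end Vale.Agent.P128.Bridge
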