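import Vale.Agent.P128.Defs

/-!
# P128 bridge: minimisers of the Mumford-Shah functional, almost-minimisers, blow-ups

`Admissible`, `IsMinimizer`, `IsReducedIn` transcribe problem.md. `IsAlmostMin` is the internal,
scale-covariant notion used to pass to blow-up limits.
-/

open MeasureTheory Set Metric Filter
open scoped ENNReal Topology Real RealInnerProductSpace

noncomputable section

namespace Vale.Agent.P128.Bridge

/-- An admissible pair on `Ω`: `K` relatively closed in the open set `Ω` with finite length,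
`u ∈ L²(Ω)`, `u ∈ W^{1,2}(Ω \ K)` with weak gradient `G`. -/
structure Admissible (Ω : Set ℂ) where
  K : Set ℂ
  u : ℂ → ℝ
  G : ℂ → ℂ
  subset : K ⊆ Ω
  isOpen_compl : IsOpen (Ω \ K)
  finite : μH[1] K < ⊤
  memL2 : MemLp u 2 (volume.restrict Ω)
  gradL2 : MemLp G 2 (volume.restrict (Ω \ K))
  weakGrad : HasWeakGradOn (Ω \ K) u G

/-- The functional `F_g(u,K;V)`. -/
def msEnergy {Ω : Set ℂ} (g : ℂ → ℝ) (P : Admissible Ω) (V : Set ℂ) : ℝ≥0∞ :=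
  weakEnergy P.K P.G V + ∫⁻ x in V, ‖P.u x - g x‖ₑ ^ 2

/-- Minimiser of the Mumford-Shah functional with datum `g`. -/
def IsMinimizer (Ω : Set ℂ) (g : ℂ → ℝ) (P : Admissible Ω) : Prop :=
  ∀ V : Set ℂ, IsOpen V → IsCompact (closure V) → closure V ⊆ Ω → ∀ Q : Admissible Ω,
    (∃ C : Set ℂ, IsCompact C ∧ C ⊆ V ∧ symmDiff Q.K P.K ⊆ C ∧
      ∀ᵐ x ∂volume.restrict (Ω \ C), Q.u x = P.u x) →
    msEnergy g P V ≤ msEnergy g Q V

/-- Every disc centred on `K` and compactly contained in `U` meets `K` in positive length. -/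
def IsReducedIn (U K : Set ℂ) : Prop :=
  ∀ x ∈ K, ∀ r : ℝ, 0 < r → closedBall x r ⊆ U → 0 < μH[1] (K ∩ ball x r)

/-- Locally integrable function with locally integrable weak gradient. -/
def IsSobolevOn (U : Set ℂ) (w : ℂ → ℝ) (Gw : ℂ → ℂ) : Prop :=
  LocallyIntegrableOn w U ∧ LocallyIntegrableOn Gw U ∧ HasWeakGradOn U w Gw

/-- Almost-minimiser in `U`: `u` is `C¹` off `K` with gradient `G` and oscillation at most `M`,
weak equation up to `A`, minimal up to `Λ t²` in every closed disc of radius `t` inside `U`. -/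
structure IsAlmostMin (U K : Set ℂ) (u : ℂ → ℝ) (G : ℂ → ℂ) (A M Λ : ℝ) : Prop where
  isOpen : IsOpen U
  subset : K ⊆ U
  isOpen_compl : IsOpen (U \ K)
  finite : ∀ C : Set ℂ, IsCompact C → C ⊆ U → weakEnergy K G C < ⊤
  contGrad : ContinuousOn G (U \ K)
  hasGrad : ∀ x ∈ U \ K, HasFDerivAt u (innerSL ℝ (G x)) x
  A_nonneg : 0 ≤ A
  M_nonneg : 0 ≤ M
  AM_le : A * M ≤ Λ
  osc : ∀ x ∈ U \ K, ∀ y ∈ U \ K, |u x - u y| ≤ M
  weakEq : ∀ (φ : ℂ → ℝ) (Gφ : ℂ → ℂ) (C : Set ℂ), IsCompact C → C ⊆ U →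
    IsSobolevOn (U \ K) φ Gφ → (∃ b : ℝ, ∀ x, |φ x| ≤ b) →
    (∀ x ∉ C, φ x = 0 ∧ Gφ x = 0) → (∫⁻ x in C \ K, ‖Gφ x‖ₑ ^ 2) < ⊤ →
    |∫ x in U \ K, ⟪G x, Gφ x⟫| ≤ A * ∫ x in U \ K, |φ x|
  almostMin : ∀ (z : ℂ) (t : ℝ), 0 < t → closedBall z t ⊆ U →
    ∀ (L : Set ℂ) (w : ℂ → ℝ) (Gw : ℂ → ℂ), L ⊆ U → IsOpen (U \ L) →
      L \ closedBall z t = K \ closedBall z t → IsSobolevOn (U \ L) w Gw →
      (∀ᵐ x ∂volume.restrict (U \ closedBall z t), w x = u x) →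
      weakEnergy K G (closedBall z t) ≤ weakEnergy L Gw (closedBall z t) + ENNReal.ofReal (Λ * t ^ 2)

/-- Blow-up of a set at `x` with scale `r`. -/
def blowSet (x : ℂ) (r : ℝ) (K : Set ℂ) : Set ℂ := (fun z => x + r • z) ⁻¹' K

/-- Blow-up of a function. -/
def blowFun (x : ℂ) (r : ℝ) (u : ℂ → ℝ) (z : ℂ) : ℝ := (Real.sqrt r)⁻¹ * u (x + r • z)

/-- Blow-up of a gradient. -/
def blowGrad (x : ℂ) (r : ℝ) (G : ℂ → ℂ) (z : ℂ) : ℂ := Real.sqrt r • G (x + r • z)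

/-- Local Hausdorff convergence in `U`. -/
def LocConv (U : Set ℂ) (Kj : ℕ → Set ℂ) (K : Set ℂ) : Prop :=
  (∀ C : Set ℂ, IsCompact C → C ⊆ U → ∀ ε : ℝ, 0 < ε →
      ∀ᶠ j in atTop, ∀ z ∈ Kj j ∩ C, ∃ w ∈ K, dist z w < ε) ∧
    ∀ z ∈ K ∩ U, ∀ ε : ℝ, 0 < ε → ∀ᶠ j in atTop, ∃ w ∈ Kj j, dist z w < ε

/-- What the compactness step delivers to the minimality of the limit. -/
structure Converges (Kj : ℕ → Set ℂ) (uj : ℕ → ℂ → ℝ) (Gj : ℕ → ℂ → ℂ) (P : Pair) : Prop where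
  sets : LocConv univ Kj P.K
  cont : ContinuousOn P.u P.Kᶜ
  unif : ∀ p ∉ P.K, ∀ C : Set ℂ, IsCompact C → C ⊆ connectedComponentIn P.Kᶜ p →
    TendstoUniformlyOn (fun j z => uj j z - uj j p) (fun z => P.u z - P.u p) atTop C
  grad : ∀ C : Set ℂ, IsCompact C → C ⊆ P.Kᶜ →
    Tendsto (fun j => ∫⁻ z in C, ‖Gj j z - P.G z‖ₑ ^ 2) atTop (𝓝 0)
  length : ∀ (c : ℂ) (r : ℝ),
    μH[1] (P.K ∩ ball c r) ≤ liminf (fun j => μH[1] (Kj j ∩ ball c r)) atTop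

end Vale.Agent.P128.Bridge
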