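import Vale.Agent.P128.Basic
import Vale.Agent.P128.Bridge.Sobolev
import Vale.Agent.P128.Circle.Eilenberg

/-!
# P128 bridge: auxiliary facts for the minimality of limits
-/

open MeasureTheory Set Metric Filter
open scoped ENNReal NNReal Topology Real RealInnerProductSpace

noncomputable section

namespace Vale.Agent.P128.Bridge

theorem hausdorff_circle_le (p : ℂ) {η : ℝ} (hη : 0 ≤ η) :
    μH[1] (sphere p η) ≤ ENNReal.ofReal (2 * π * η) := by
  have h := (lipschitzWith_circleMap p η).hausdorffMeasure_image_le zero_le_one (Ioc 0 (2 * π))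
  rw [image_circleMap_Ioc, abs_of_nonneg hη, hausdorffMeasure_real, Real.volume_Ioc, sub_zero,
    ENNReal.rpow_one] at h
  refine h.trans_eq ?_
  rw [mul_comm (2 * π) η, ENNReal.ofReal_mul hη]
  congr 1
  exact ENNReal.coe_inj.2 (NNReal.eq (by simp [abs_of_nonneg hη, Real.coe_toNNReal _ hη]))

theorem enorm_add_sq_le {E : Type*} [NormedAddCommGroup E] (a b : E) {ε : ℝ} (hε : 0 < ε) :
    ‖a + b‖ₑ ^ 2 ≤
      ENNReal.ofReal (1 + ε) * ‖a‖ₑ ^ 2 + ENNReal.ofReal (1 + ε⁻¹) * ‖b‖ₑ ^ 2 := by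
  rw [← ofReal_norm, ← ofReal_norm, ← ofReal_norm,
    ← ENNReal.ofReal_pow (norm_nonneg _), ← ENNReal.ofReal_pow (norm_nonneg _),
    ← ENNReal.ofReal_pow (norm_nonneg _), ← ENNReal.ofReal_mul (by positivity),
    ← ENNReal.ofReal_mul (by positivity), ← ENNReal.ofReal_add (by positivity) (by positivity)]
  refine ENNReal.ofReal_le_ofReal ?_
  have h := norm_add_le a b
  have h2 : ‖a + b‖ ^ 2 ≤ (‖a‖ + ‖b‖) ^ 2 := pow_le_pow_left₀ (norm_nonneg _) h 2
  have h3 : 2 * ‖a‖ * ‖b‖ ≤ ε * ‖a‖ ^ 2 + ε⁻¹ * ‖b‖ ^ 2 := by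
    have e : ε * ‖a‖ ^ 2 + ε⁻¹ * ‖b‖ ^ 2 - 2 * ‖a‖ * ‖b‖ = ε⁻¹ * (ε * ‖a‖ - ‖b‖) ^ 2 := by
      field_simp; ring
    nlinarith [mul_nonneg (inv_nonneg.2 hε.le) (sq_nonneg (ε * ‖a‖ - ‖b‖))]
  nlinarith

theorem eventually_disjoint_of_locConv {Kj : ℕ → Set ℂ} {K C : Set ℂ} (hK : IsClosed K)
    (h : LocConv univ Kj K) (hC : IsCompact C) (hCK : C ⊆ Kᶜ) :
    ∀ᶠ j in atTop, C ∩ Kj j = ∅ := by
  obtain ⟨δ, hδ, hsub⟩ := hC.exists_cthickening_subset_open hK.isOpen_compl hCK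
  filter_upwards [h.1 C hC (subset_univ _) δ hδ] with j hj
  refine eq_empty_of_forall_notMem fun z hz => ?_
  obtain ⟨w, hw, hzw⟩ := hj z ⟨hz.2, hz.1⟩
  exact hsub (mem_cthickening_of_dist_le w z δ C hz.1 (by rw [dist_comm]; exact hzw.le)) hw

/-! ### Pairs -/

theorem _root_.Vale.Agent.P128.Pair.length_lt_top (P : Pair) {S : Set ℂ} (hS : Bornology.IsBounded S) :
    μH[1] (P.K ∩ S) < ⊤ := by
  obtain ⟨R, hR⟩ := hS.subset_ball 0
  exact lt_of_le_of_lt ((measure_mono (inter_subset_inter_right _ hR)).trans le_add_self)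
    (P.finite 0 R)

theorem _root_.Vale.Agent.P128.Pair.volume_eq_zero (P : Pair) : volume P.K = 0 := by
  have : P.K = ⋃ n : ℕ, P.K ∩ ball (0 : ℂ) n := by rw [← inter_iUnion, iUnion_ball_nat, inter_univ]
  rw [this]
  exact measure_iUnion_null fun n =>
    volume_eq_zero_of_hausdorff_one_lt_top (P.length_lt_top isBounded_ball)

theorem _root_.Vale.Agent.P128.Pair.isSobolevOn (P : Pair) : IsSobolevOn P.Kᶜ P.u P.G := by
  refine ⟨?_, ?_, P.weakGrad⟩
  · rw [locallyIntegrableOn_iff P.isClosed.isOpen_compl.isLocallyClosed]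
    intro C hC hCc
    have : IsFiniteMeasure (volume.restrict C) :=
      isFiniteMeasure_restrict.2 hCc.measure_lt_top.ne
    exact (P.memL2 C hCc hC).integrable one_le_two
  · rw [locallyIntegrableOn_iff P.isClosed.isOpen_compl.isLocallyClosed]
    intro C hC hCc
    obtain ⟨R, hR⟩ := hCc.isBounded.subset_ball 0
    have : IsFiniteMeasure (volume.restrict C) :=
      isFiniteMeasure_restrict.2 hCc.measure_lt_top.ne
    refine MemLp.integrable (q := (2 : ℝ≥0∞)) one_le_two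
      (?_ : MemLp P.G 2 (volume.restrict C))
    rw [MemLp]
    refine ⟨P.grad_meas.mono_measure (Measure.restrict_mono hC le_rfl), ?_⟩
    rw [eLpNorm_lt_top_iff_lintegral_rpow_enorm_lt_top (by norm_num) (by norm_num)]
    have hfin : ∫⁻ x in ball (0 : ℂ) R \ P.K, ‖P.G x‖ₑ ^ 2 < ⊤ :=
      lt_of_le_of_lt le_self_add (P.finite 0 R)
    have hsub : C ⊆ ball (0 : ℂ) R \ P.K := fun x hx => ⟨hR hx, hC hx⟩
    refine lt_of_le_of_lt (le_trans (le_of_eq ?_) (lintegral_mono_set hsub)) hfin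
    simp

theorem _root_.Vale.Agent.P128.Pair.exists_finite_sphere (P : Pair) (c : ℂ) {a b : ℝ} (hab : a < b) :
    ∃ s ∈ Ioo a b, (P.K ∩ sphere c s).Finite := by
  set S := P.K ∩ ball c (|a| + |b| + 1)
  have h : ∫⁻ r, ((S ∩ {z | dist z c = r}).encard : ℝ≥0∞) ≠ ⊤ :=
    (lt_of_le_of_lt (eilenberg_dist c S) (P.length_lt_top isBounded_ball)).ne
  by_contra hcon
  push Not at hcon
  have htop : ∀ r ∈ Ioo a b, ((S ∩ {z | dist z c = r}).encard : ℝ≥0∞) = ⊤ := by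
    intro r hr
    have he : S ∩ {z | dist z c = r} = P.K ∩ sphere c r := by
      ext z
      simp only [S, mem_inter_iff, mem_ball, mem_sphere, mem_ofPred_eq]
      refine ⟨fun hz => ⟨hz.1.1, hz.2⟩, fun hz => ⟨⟨hz.1, ?_⟩, hz.2⟩⟩
      rw [hz.2]
      cases abs_cases a <;> cases abs_cases b <;> linarith [hr.1, hr.2]
    rw [he, (Set.not_finite.1 (hcon r hr)).encard_eq, ENat.toENNReal_top]
  refine h (top_le_iff.1 ?_)
  calc (⊤ : ℝ≥0∞) = ∫⁻ _ in Ioo a b, ⊤ := by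
        rw [setLIntegral_const, Real.volume_Ioo, ENNReal.top_mul (by simp [hab])]
    _ = ∫⁻ r in Ioo a b, ((S ∩ {z | dist z c = r}).encard : ℝ≥0∞) :=
        setLIntegral_congr_fun measurableSet_Ioo fun r hr => (htop r hr).symm
    _ ≤ _ := setLIntegral_le_lintegral _ _

/-- Lower semicontinuity of the Dirichlet energy on an open disc. -/
theorem dirichlet_le_liminf {Kj : ℕ → Set ℂ} {uj : ℕ → ℂ → ℝ} {Gj : ℕ → ℂ → ℂ} {P : Pair}
    (h : Converges Kj uj Gj P)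
    (hcont : ∀ C, IsCompact C → C ⊆ P.Kᶜ → ∀ᶠ j in atTop, ContinuousOn (Gj j) C)
    (c : ℂ) (s : ℝ) :
    ∫⁻ z in ball c s \ P.K, ‖P.G z‖ₑ ^ 2 ≤
      liminf (fun j => ∫⁻ z in ball c s \ Kj j, ‖Gj j z‖ₑ ^ 2) atTop := by
  have hV : IsOpen (ball c s \ P.K) := isOpen_ball.sdiff P.isClosed
  obtain ⟨F, hFc, hFm, hFu⟩ :
      ∃ F : ℕ → Set ℂ, (∀ n, IsCompact (F n)) ∧ Monotone F ∧ ⋃ n, F n = ball c s \ P.K := by
    obtain ⟨F, hFcl, hFsub, hFu, hFmono⟩ := hV.exists_iUnion_isClosed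
    refine ⟨fun n => F n ∩ closedBall c s, fun n => (isCompact_closedBall c s).inter_left (hFcl n),
      fun m n hmn => inter_subset_inter_left _ (hFmono hmn), ?_⟩
    rw [← iUnion_inter, hFu, inter_eq_left]
    exact sdiff_subset.trans ball_subset_closedBall
  rw [← hFu, setLIntegral_iUnion_of_directed _ hFm.directed_le]
  refine iSup_le fun n => ?_
  have hFn : F n ⊆ ball c s \ P.K := hFu ▸ subset_iUnion F n
  have hFK : F n ⊆ P.Kᶜ := fun z hz => (hFn hz).2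
  set L := liminf (fun j => ∫⁻ z in ball c s \ Kj j, ‖Gj j z‖ₑ ^ 2) atTop with hL
  have key : ∀ ε : ℝ, 0 < ε → ∫⁻ z in F n, ‖P.G z‖ₑ ^ 2 ≤ ENNReal.ofReal (1 + ε) * L := by
    intro ε hε
    have h0 : Tendsto (fun j => ENNReal.ofReal (1 + ε⁻¹) * ∫⁻ z in F n, ‖Gj j z - P.G z‖ₑ ^ 2)
        atTop (𝓝 0) := by
      simpa using ENNReal.Tendsto.const_mul (h.grad (F n) (hFc n) hFK) (Or.inr ENNReal.ofReal_ne_top)
    rw [hL, ← ENNReal.liminf_const_mul_of_ne_top ENNReal.ofReal_ne_top,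
      ← ENNReal.liminf_add_of_right_tendsto_zero h0]
    refine le_liminf_of_le (by isBoundedDefault) ?_
    filter_upwards [eventually_disjoint_of_locConv P.isClosed h.sets (hFc n) hFK,
      hcont (F n) (hFc n) hFK] with j hj hjc
    have hsub : F n ⊆ ball c s \ Kj j := fun z hz =>
      ⟨(hFn hz).1, fun hzK => Set.eq_empty_iff_forall_notMem.1 hj z ⟨hz, hzK⟩⟩
    have hm : AEMeasurable (fun z => ‖Gj j z‖ₑ ^ 2) (volume.restrict (F n)) :=
      (hjc.aestronglyMeasurable (hFc n).measurableSet).enorm.pow_const 2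
    calc ∫⁻ z in F n, ‖P.G z‖ₑ ^ 2
        ≤ ∫⁻ z in F n, (ENNReal.ofReal (1 + ε) * ‖Gj j z‖ₑ ^ 2 +
            ENNReal.ofReal (1 + ε⁻¹) * ‖Gj j z - P.G z‖ₑ ^ 2) := by
          refine lintegral_mono fun z => ?_
          have e : ‖P.G z‖ₑ = ‖Gj j z + (P.G z - Gj j z)‖ₑ := by rw [add_sub_cancel]
          have e' : ‖Gj j z - P.G z‖ₑ = ‖P.G z - Gj j z‖ₑ := by rw [← enorm_neg, neg_sub]
          rw [e, e']
          exact enorm_add_sq_le _ _ hε
      _ = ENNReal.ofReal (1 + ε) * (∫⁻ z in F n, ‖Gj j z‖ₑ ^ 2) +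
            ENNReal.ofReal (1 + ε⁻¹) * ∫⁻ z in F n, ‖Gj j z - P.G z‖ₑ ^ 2 := by
          rw [lintegral_add_left' (hm.const_mul _), lintegral_const_mul' _ _ ENNReal.ofReal_ne_top,
            lintegral_const_mul' _ _ ENNReal.ofReal_ne_top]
      _ ≤ _ := add_le_add (mul_le_mul_right (lintegral_mono_set hsub) _) le_rfl
  rcases eq_or_ne L ⊤ with htop | htop
  · rw [htop]; exact le_top
  refine ENNReal.le_of_forall_pos_le_add fun δ hδ _ => ?_
  refine (key ((δ : ℝ) / (L.toReal + 1)) (by positivity)).trans ?_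
  rw [ENNReal.ofReal_add zero_le_one (by positivity), ENNReal.ofReal_one, add_mul, one_mul]
  gcongr
  rw [← ENNReal.ofReal_toReal htop, ← ENNReal.ofReal_mul (by positivity),
    ENNReal.ofReal_toReal htop, ENNReal.ofReal, ENNReal.coe_le_coe,
    ← NNReal.coe_le_coe, Real.coe_toNNReal _ (by positivity)]
  rw [div_mul_eq_mul_div, div_le_iff₀ (by positivity)]
  nlinarith [ENNReal.toReal_nonneg (a := L), δ.coe_nonneg]

end Vale.Agent.P128.Bridge
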