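import Vale.Agent.P128.Bridge.Spec
import Vale.Agent.P128.Bridge.LimitTools

/-!
# P128 bridge: limits of almost-minimisers are global minimisers
-/

open MeasureTheory Set Metric Filter
open scoped ENNReal NNReal Topology Real RealInnerProductSpace

noncomputable section

namespace Vale.Agent.P128.Bridge

theorem liminf_add_liminf_le (f g : ℕ → ℝ≥0∞) :
    liminf f atTop + liminf g atTop ≤ liminf (fun n => f n + g n) atTop := by
  simp only [liminf_eq_iSup_iInf_of_nat]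
  have hm : ∀ h : ℕ → ℝ≥0∞, Monotone fun a => ⨅ i, ⨅ (_ : i ≥ a), h i :=
    fun h a b hab => le_iInf₂ fun i hi => iInf₂_le i (le_trans hab hi)
  refine (ENNReal.iSup_add_iSup_of_monotone (hm f) (hm g)).trans_le ?_
  exact iSup_mono fun n => le_iInf₂ fun i hi => add_le_add (iInf₂_le i hi) (iInf₂_le i hi)

/-- Pairs that differ only inside `ball c r` have the same gradient outside the changed set. -/
theorem grad_eq_of_competes {P Q : Pair} {C : Set ℂ} (hC : IsCompact C) (hQK : Q.K \ C = P.K \ C)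
    (hae : ∀ᵐ z ∂volume.restrict (C ∪ P.K)ᶜ, Q.u z = P.u z) :
    Q.G =ᵐ[volume.restrict (C ∪ P.K)ᶜ] P.G := by
  have hV : IsOpen (C ∪ P.K)ᶜ := (hC.isClosed.union P.isClosed).isOpen_compl
  refine IsSobolevOn.grad_congr hV (Q.isSobolevOn.mono ?_) (P.isSobolevOn.mono ?_) hae
  · intro z hz hzQ
    have : z ∈ P.K \ C := hQK ▸ ⟨hzQ, fun h => hz (Or.inl h)⟩
    exact hz (Or.inr this.1)
  · exact fun z hz hzK => hz (Or.inr hzK)

/-- The constant of a component `S` of `Lᶜ`. -/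
def kappa (L K : Set ℂ) (c : ℂ) (r : ℝ) (v u : ℂ → ℝ) (S : Set ℂ) : ℝ := by
  classical
  exact if h : ∃ q, (q ∉ ball c r ∪ K) ∧ connectedComponentIn Lᶜ q = S then
    v h.choose - u h.choose else 0

/-- The locally constant correction on `Lᶜ`. -/
def shift (L K : Set ℂ) (c : ℂ) (r : ℝ) (v u : ℂ → ℝ) (z : ℂ) : ℝ :=
  kappa L K c r v u (connectedComponentIn Lᶜ z)

theorem shift_eq_of_ball {L K : Set ℂ} {c : ℂ} {r : ℝ} {v u : ℂ → ℝ} {z y : ℂ} {S : Set ℂ}
    (hS : IsPreconnected S) (hSL : S ⊆ Lᶜ) (hz : z ∈ S) (hy : y ∈ S) :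
    shift L K c r v u y = shift L K c r v u z := by
  unfold shift
  rw [connectedComponentIn_eq (hS.subset_connectedComponentIn hz hSL hy)]

theorem isSobolevOn_shift {P Q : Pair} {c : ℂ} {r : ℝ} {v : ℂ → ℝ} :
    IsSobolevOn Q.Kᶜ (fun z => Q.u z + shift Q.K P.K c r v P.u z) Q.G := by
  refine IsSobolevOn.of_local fun x hx => ?_
  obtain ⟨δ, hδ, hball⟩ := Metric.isOpen_iff.1 Q.isClosed.isOpen_compl x hx
  refine ⟨ball x δ, isOpen_ball, mem_ball_self hδ, ?_⟩
  refine ((Q.isSobolevOn.mono hball).add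
    (isSobolevOn_const isOpen_ball (shift Q.K P.K c r v P.u x))).congr measurableSet_ball ?_ ?_
  · filter_upwards [ae_restrict_mem measurableSet_ball] with y hy
    rw [shift_eq_of_ball (convex_ball x δ).isPreconnected hball (mem_ball_self hδ) hy]
  · exact Eventually.of_forall fun y => add_zero _

/-- Uniform convergence, up to the constants, on compact sets outside the changed disc. -/
theorem eventually_shift_close {Kj : ℕ → Set ℂ} {uj : ℕ → ℂ → ℝ} {Gj : ℕ → ℂ → ℂ} {P Q : Pair}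
    {c : ℂ} {r : ℝ} (hconv : Converges Kj uj Gj P) (hsep : KeepsSeparation P.K Q.K c r)
    {A : Set ℂ} (hA : IsCompact A) (hAQ : A ⊆ Q.Kᶜ) (hAP : A ⊆ P.Kᶜ)
    (hAr : ∀ z ∈ A, z ∉ ball c r) {δ : ℝ} (hδ : 0 < δ) :
    ∀ᶠ j in atTop, ∀ z ∈ A, |uj j z - P.u z - shift Q.K P.K c r (uj j) P.u z| ≤ δ := by
  have hloc : ∀ z₀ ∈ A, ∃ ρ > 0, ∀ᶠ j in atTop, ∀ z ∈ closedBall z₀ ρ,
      |uj j z - P.u z - shift Q.K P.K c r (uj j) P.u z| ≤ δ := by
    intro z₀ hz₀
    have hO : IsOpen (P.Kᶜ ∩ Q.Kᶜ) := P.isClosed.isOpen_compl.inter Q.isClosed.isOpen_compl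
    obtain ⟨ρ, hρ, hball⟩ := nhds_basis_closedBall.mem_iff.1 (hO.mem_nhds ⟨hAP hz₀, hAQ hz₀⟩)
    refine ⟨ρ, hρ, ?_⟩
    have hex : ∃ q, (q ∉ ball c r ∪ P.K) ∧
        connectedComponentIn Q.Kᶜ q = connectedComponentIn Q.Kᶜ z₀ :=
      ⟨z₀, fun h => h.elim (hAr z₀ hz₀) (hAP hz₀), rfl⟩
    obtain ⟨hq, hqS⟩ := hex.choose_spec
    set q := hex.choose with hqdef
    have hsame : connectedComponentIn P.Kᶜ q = connectedComponentIn P.Kᶜ z₀ := by
      by_contra hne
      exact hsep q z₀ hq (fun h => h.elim (hAr z₀ hz₀) (hAP hz₀)) hne hqS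
    have hqK : q ∉ P.K := fun h => hq (Or.inr h)
    have hsub : closedBall z₀ ρ ⊆ connectedComponentIn P.Kᶜ q := by
      rw [hsame]
      exact (convex_closedBall z₀ ρ).isPreconnected.subset_connectedComponentIn
        (mem_closedBall_self hρ.le) fun y hy => (hball hy).1
    filter_upwards [(Metric.tendstoUniformlyOn_iff.1
      (hconv.unif q hqK _ (isCompact_closedBall z₀ ρ) hsub)) δ hδ] with j hj z hz
    have hk : shift Q.K P.K c r (uj j) P.u z = uj j q - P.u q := by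
      rw [shift_eq_of_ball (convex_closedBall z₀ ρ).isPreconnected (fun y hy => (hball hy).2)
        (mem_closedBall_self hρ.le) hz]
      unfold shift kappa
      rw [dif_pos hex]
    rw [hk]
    have := (hj z hz).le
    rw [Real.dist_eq] at this
    calc |uj j z - P.u z - (uj j q - P.u q)| = |P.u z - P.u q - (uj j z - uj j q)| := by
          rw [← abs_neg]; congr 1; ring
      _ ≤ δ := this
  choose! ρ hρ hev using hloc
  obtain ⟨t, htA, htf, hcov⟩ := hA.elim_finite_subcover_image (b := A)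
    (c := fun z => ball z (ρ z)) (fun z _ => isOpen_ball)
    (fun z hz => mem_biUnion hz (mem_ball_self (hρ z hz)))
  have := (htf.eventually_all (l := atTop)).2 fun z₀ hz₀ => hev z₀ (htA hz₀)
  filter_upwards [this] with j hj z hz
  obtain ⟨z₀, hz₀, hzb⟩ := mem_iUnion₂.1 (hcov hz)
  exact hj z₀ hz₀ z (ball_subset_closedBall hzb)

/-- Open discs around finitely many points. -/
def discs (F : Finset ℂ) (η : ℝ) : Set ℂ := ⋃ p ∈ F, ball p η

/-- The closed discs. -/
def cdiscs (F : Finset ℂ) (η : ℝ) : Set ℂ := ⋃ p ∈ F, closedBall p η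

/-- Their circles. -/
def circles (F : Finset ℂ) (η : ℝ) : Set ℂ := ⋃ p ∈ F, sphere p η

/-- The crack of the competitor. -/
def compK (L Kn : Set ℂ) (c : ℂ) (s : ℝ) (F : Finset ℂ) (η : ℝ) : Set ℂ :=
  ((L ∩ closedBall c s ∪ Kn \ ball c s) \ discs F η) ∪ circles F η

/-- The competitor. -/
def compU (χ f v : ℂ → ℝ) (c : ℂ) (s : ℝ) (F : Finset ℂ) (η : ℝ) (z : ℂ) : ℝ := by
  classical
  exact if z ∈ discs F η then 0 else if dist z c < s then f z + χ z * (v z - f z) else v z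

/-- Gradient of the competitor. -/
def compG (χ f v : ℂ → ℝ) (Gf Gv : ℂ → ℂ) (c : ℂ) (s : ℝ) (F : Finset ℂ) (η : ℝ) (z : ℂ) : ℂ := by
  classical
  exact if z ∈ discs F η then 0 else
    if dist z c < s then Gf z + (χ z • (Gv z - Gf z) + (v z - f z) • gradOf χ z) else Gv z

theorem isOpen_discs (F : Finset ℂ) (η : ℝ) : IsOpen (discs F η) :=
  isOpen_biUnion fun _ _ => isOpen_ball

theorem isClosed_cdiscs (F : Finset ℂ) (η : ℝ) : IsClosed (cdiscs F η) :=
  isClosed_biUnion_finset fun _ _ => isClosed_closedBall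

theorem isClosed_circles (F : Finset ℂ) (η : ℝ) : IsClosed (circles F η) :=
  isClosed_biUnion_finset fun _ _ => isClosed_sphere

theorem discs_subset_cdiscs (F : Finset ℂ) (η : ℝ) : discs F η ⊆ cdiscs F η :=
  iUnion₂_mono fun _ _ => ball_subset_closedBall

theorem circles_subset_cdiscs (F : Finset ℂ) (η : ℝ) : circles F η ⊆ cdiscs F η :=
  iUnion₂_mono fun _ _ => sphere_subset_closedBall

theorem mem_cdiscs_cases {F : Finset ℂ} {η : ℝ} {x : ℂ} (hx : x ∈ cdiscs F η) :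
    x ∈ discs F η ∨ x ∈ circles F η := by
  obtain ⟨p, hp, hxp⟩ := mem_iUnion₂.1 hx
  rcases (mem_closedBall.1 hxp).lt_or_eq with hlt | heq
  · exact Or.inl (mem_iUnion₂.2 ⟨p, hp, mem_ball.2 hlt⟩)
  · exact Or.inr (mem_iUnion₂.2 ⟨p, hp, mem_sphere.2 heq⟩)

/-- Thickness of an annulus in which `K` lies in the discs. -/
theorem exists_band {K : Set ℂ} (hK : IsClosed K) {c : ℂ} {r s η : ℝ} (hrs : r < s) (hη : 0 < η)
    {F : Finset ℂ} (hF : K ∩ sphere c s = ↑F) :
    ∃ h > 0, h ≤ η ∧ r < s - h ∧ ∀ z ∈ K, |dist z c - s| ≤ h → z ∈ discs F η := by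
  set Z := (K ∩ closedBall c (s + η)) \ discs F η with hZ
  have hZc : IsCompact Z :=
    ((isCompact_closedBall c (s + η)).inter_left hK).diff (isOpen_discs F η)
  obtain ⟨m, hm, hmZ⟩ : ∃ m > 0, ∀ z ∈ Z, m ≤ |dist z c - s| := by
    rcases Z.eq_empty_or_nonempty with he | hne
    · exact ⟨1, one_pos, by simp [he]⟩
    obtain ⟨z₀, hz₀, hmin⟩ := hZc.exists_isMinOn hne
      (f := fun z => |dist z c - s|) (by fun_prop)
    refine ⟨|dist z₀ c - s|, ?_, fun z hz => hmin hz⟩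
    rw [gt_iff_lt, abs_pos]
    intro h0
    have : z₀ ∈ K ∩ sphere c s := ⟨hz₀.1.1, mem_sphere.2 (by linarith)⟩
    rw [hF] at this
    exact hz₀.2 (mem_iUnion₂.2 ⟨z₀, this, mem_ball_self hη⟩)
  refine ⟨min (min (m / 2) η) ((s - r) / 2), by
    simp only [gt_iff_lt, lt_min_iff]; exact ⟨⟨by linarith, hη⟩, by linarith⟩,
    (min_le_left _ _).trans (min_le_right _ _), ?_, fun z hz hzh => ?_⟩
  · linarith [min_le_right (min (m / 2) η) ((s - r) / 2)]
  · by_contra hzD
    have h1 := hmZ z ⟨⟨hz, mem_closedBall.2 ?_⟩, hzD⟩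
    · linarith [(min_le_left (min (m / 2) η) ((s - r) / 2)).trans (min_le_left _ _)]
    · have := (abs_le.1 hzh).2
      linarith [(min_le_left (min (m / 2) η) ((s - r) / 2)).trans (min_le_right (m / 2) η)]

/-- The radial cutoff: `0` well inside the disc, `1` outside it. -/
theorem exists_radial_cutoff (c : ℂ) {s h : ℝ} (hh : 0 < h) :
    ∃ χ : ℂ → ℝ, ContDiff ℝ ((⊤ : ℕ∞) : WithTop ℕ∞) χ ∧ (∀ z, 0 ≤ χ z ∧ χ z ≤ 1) ∧
      (∀ z, dist z c < s - h / 2 → χ z = 0 ∧ gradOf χ z = 0) ∧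
      ∀ z, s ≤ dist z c → χ z = 1 ∧ gradOf χ z = 0 := by
  obtain ⟨ζ, hζ, -, hζs, hζ01, hζ1⟩ :=
    exists_cutoff (isCompact_closedBall c (s - h / 2)) isOpen_ball
      (closedBall_subset_ball (by linarith) : closedBall c (s - h / 2) ⊆ ball c s)
  refine ⟨fun z => 1 - ζ z, contDiff_const.sub hζ,
    fun z => ⟨by linarith [(hζ01 z).2], by linarith [(hζ01 z).1]⟩, ?_, ?_⟩
  · intro z hz
    have hev : (fun z => 1 - ζ z) =ᶠ[𝓝 z] fun _ => (0 : ℝ) := by
      filter_upwards [isOpen_ball.mem_nhds (mem_ball.2 hz)] with y hy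
      simp [hζ1 y (ball_subset_closedBall hy)]
    exact ⟨hev.self_of_nhds, by simp [gradOf, hev.fderiv_eq, Complex.ext_iff]⟩
  · intro z hz
    have hnot : z ∉ tsupport ζ := fun hmem => by linarith [mem_ball.1 (hζs hmem)]
    have hev : (fun z => 1 - ζ z) =ᶠ[𝓝 z] fun _ => (1 : ℝ) := by
      filter_upwards [notMem_tsupport_iff_eventuallyEq.1 hnot] with y hy
      simp [hy]
    exact ⟨hev.self_of_nhds, by simp [gradOf, hev.fderiv_eq, Complex.ext_iff]⟩

section Competitor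

variable {U Kn L : Set ℂ} {v f χ : ℂ → ℝ} {Gv Gf : ℂ → ℂ} {A M Λ : ℝ} {c : ℂ} {s η h : ℝ}
  {F : Finset ℂ}

theorem isOpen_compl_compK (hU : IsOpen U) (hn : IsOpen (U \ Kn)) (hL : IsClosed L) :
    IsOpen (U \ compK L Kn c s F η) := by
  have e : U \ compK L Kn c s F η = (((U \ Kn) ∪ (U ∩ ball c s)) ∩
      (L ∩ closedBall c s)ᶜ ∪ U ∩ discs F η) ∩ (circles F η)ᶜ := by
    ext z
    simp only [compK, Set.mem_sdiff, mem_union, mem_inter_iff, mem_compl_iff]
    tauto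
  rw [e]
  exact (((hn.union (hU.inter isOpen_ball)).inter
    (hL.inter isClosed_closedBall).isOpen_compl).union
    (hU.inter (isOpen_discs F η))).inter (isClosed_circles F η).isOpen_compl

theorem compK_subset (hn : Kn ⊆ U) {t : ℝ} (hst : s ≤ t) (hU : closedBall c t ⊆ U)
    (hD : cdiscs F η ⊆ closedBall c t) : compK L Kn c s F η ⊆ U := by
  rintro z (⟨hz | hz, -⟩ | hz)
  · exact hU (closedBall_subset_closedBall hst hz.2)
  · exact hn hz.1
  · exact hU (hD (circles_subset_cdiscs F η hz))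

theorem compK_diff {t : ℝ} (hst : s ≤ t) (hD : cdiscs F η ⊆ closedBall c t) :
    compK L Kn c s F η \ closedBall c t = Kn \ closedBall c t := by
  ext z
  constructor
  · rintro ⟨(⟨hz | hz, -⟩ | hz), hzt⟩
    · exact absurd (closedBall_subset_closedBall hst hz.2) hzt
    · exact ⟨hz.1, hzt⟩
    · exact absurd (hD (circles_subset_cdiscs F η hz)) hzt
  · rintro ⟨hz, hzt⟩
    exact ⟨Or.inl ⟨Or.inr ⟨hz, fun hzb =>
      hzt (ball_subset_closedBall (ball_subset_ball hst hzb))⟩,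
      fun hzD => hzt (hD (discs_subset_cdiscs F η hzD))⟩, hzt⟩

theorem isSobolevOn_comp (hU : IsOpen U) (hn : IsOpen (U \ Kn)) (hL : IsClosed L) (hh : 0 < h)
    (hv : IsSobolevOn (U \ Kn) v Gv) (hf : IsSobolevOn Lᶜ f Gf)
    (hχ : ContDiff ℝ ((⊤ : ℕ∞) : WithTop ℕ∞) χ)
    (hχin : ∀ z, dist z c < s - h / 2 → χ z = 0 ∧ gradOf χ z = 0)
    (hχout : ∀ z, s ≤ dist z c → χ z = 1 ∧ gradOf χ z = 0)
    (hband : ∀ z, |dist z c - s| < h → z ∉ cdiscs F η → z ∈ (U \ Kn) ∧ z ∉ L) :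
    IsSobolevOn (U \ compK L Kn c s F η) (compU χ f v c s F η) (compG χ f v Gf Gv c s F η) := by
  refine IsSobolevOn.of_local fun x hx => ?_
  have hD := isOpen_discs F η
  by_cases hxD : x ∈ discs F η
  · refine ⟨discs F η, hD, hxD, (isSobolevOn_const hD 0).congr hD.measurableSet ?_ ?_⟩ <;>
      (filter_upwards [ae_restrict_mem hD.measurableSet] with y hy; simp [compU, compG, hy])
  have hxDc : x ∉ cdiscs F η := fun hmem =>
    (mem_cdiscs_cases hmem).elim hxD fun hc => hx.2 (Or.inr hc)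
  have hnot : ∀ {y}, y ∉ cdiscs F η → y ∉ discs F η :=
    fun hy hy' => hy (discs_subset_cdiscs F η hy')
  have hDc := (isClosed_cdiscs F η).isOpen_compl
  rcases lt_or_ge (dist x c) (s - h / 2) with hlt | hge
  · have hxQ : x ∉ L := fun hxQ => hx.2
      (Or.inl ⟨Or.inl ⟨hxQ, mem_closedBall.2 (by linarith)⟩, hxD⟩)
    have hV : IsOpen (ball c (s - h / 2) ∩ (cdiscs F η)ᶜ ∩ Lᶜ) :=
      (isOpen_ball.inter hDc).inter hL.isOpen_compl
    refine ⟨_, hV, ⟨⟨mem_ball.2 hlt, hxDc⟩, hxQ⟩,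
      (hf.mono inter_subset_right).congr hV.measurableSet ?_ ?_⟩ <;>
    · filter_upwards [ae_restrict_mem hV.measurableSet] with y hy
      have hy1 : dist y c < s - h / 2 := mem_ball.1 hy.1.1
      simp [compU, compG, hnot hy.1.2, (show dist y c < s by linarith),
        (hχin y hy1).1, (hχin y hy1).2]
  rcases le_or_gt (dist x c) s with hle | hgt
  · set V : Set ℂ := {y | |dist y c - s| < h} ∩ (cdiscs F η)ᶜ with hVdef
    have hV : IsOpen V := (isOpen_lt (by fun_prop) continuous_const).inter hDc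
    have hVU : V ⊆ U \ Kn := fun y hy => (hband y hy.1 hy.2).1
    have hVL : V ⊆ Lᶜ := fun y hy => (hband y hy.1 hy.2).2
    refine ⟨V, hV, ⟨show |dist x c - s| < h from abs_lt.2 ⟨by linarith, by linarith⟩, hxDc⟩, ?_⟩
    refine ((hf.mono hVL).add
      (((hv.mono hVU).sub (hf.mono hVL)).smooth_mul hV hχ)).congr hV.measurableSet ?_ ?_
    · filter_upwards [ae_restrict_mem hV.measurableSet] with y hy
      by_cases hys : dist y c < s
      · simp [compU, hnot hy.2, hys]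
      · simp [compU, hnot hy.2, hys, (hχout y (not_lt.1 hys)).1]
    · filter_upwards [ae_restrict_mem hV.measurableSet] with y hy
      by_cases hys : dist y c < s
      · simp [compG, hnot hy.2, hys]
      · simp [compG, hnot hy.2, hys, (hχout y (not_lt.1 hys)).1, (hχout y (not_lt.1 hys)).2]
  · have hxK : x ∉ Kn := fun hxK => hx.2
      (Or.inl ⟨Or.inr ⟨hxK, fun hb => by linarith [mem_ball.1 hb]⟩, hxD⟩)
    set V : Set ℂ := {y | s < dist y c} ∩ (U \ Kn) ∩ (cdiscs F η)ᶜ with hVdef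
    have hV : IsOpen V := ((isOpen_lt continuous_const (by fun_prop)).inter hn).inter hDc
    refine ⟨V, hV, ⟨⟨hgt, hx.1, hxK⟩, hxDc⟩,
      (hv.mono fun y hy => hy.1.2).congr hV.measurableSet ?_ ?_⟩ <;>
    · filter_upwards [ae_restrict_mem hV.measurableSet] with y hy
      simp [compU, compG, hnot hy.2, not_lt.2 (le_of_lt (show s < dist y c from hy.1.1))]

/-- Splitting of the energy in the outer disc. -/
theorem weakEnergy_split {t : ℝ} (hst : s ≤ t) (hn : IsOpen (U \ Kn)) (hU : closedBall c t ⊆ U) :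
    weakEnergy Kn Gv (closedBall c t) =
      ((∫⁻ z in ball c s \ Kn, ‖Gv z‖ₑ ^ 2) + μH[1] (Kn ∩ ball c s)) +
        ((∫⁻ z in (closedBall c t \ ball c s) \ Kn, ‖Gv z‖ₑ ^ 2) +
          μH[1] (Kn ∩ (closedBall c t \ ball c s))) := by
  have hbt : ball c s ⊆ closedBall c t := (ball_subset_ball hst).trans ball_subset_closedBall
  have hmeasK : MeasurableSet ((closedBall c t \ ball c s) \ Kn) := by
    have : (closedBall c t \ ball c s) \ Kn = (closedBall c t \ ball c s) ∩ (U \ Kn) := by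
      ext z; exact ⟨fun hz => ⟨hz.1, hU hz.1.1, hz.2⟩, fun hz => ⟨hz.1, hz.2.2⟩⟩
    rw [this]
    exact (measurableSet_closedBall.diff measurableSet_ball).inter hn.measurableSet
  have e1 : closedBall c t \ Kn = (ball c s \ Kn) ∪ ((closedBall c t \ ball c s) \ Kn) := by
    ext z; simp only [Set.mem_sdiff, mem_union]; constructor
    · rintro ⟨h1, h2⟩; by_cases hb : z ∈ ball c s <;> simp [h1, h2, hb]
    · rintro (⟨h1, h2⟩ | ⟨⟨h1, -⟩, h2⟩)
      · exact ⟨hbt h1, h2⟩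
      · exact ⟨h1, h2⟩
  have hd : Disjoint (ball c s \ Kn) ((closedBall c t \ ball c s) \ Kn) :=
    disjoint_left.2 fun z h1 h2 => h2.1.2 h1.1
  rw [weakEnergy, e1, lintegral_union hmeasK hd,
    ← measure_inter_add_sdiff (Kn ∩ closedBall c t) measurableSet_ball (μ := μH[1])]
  have e2 : Kn ∩ closedBall c t ∩ ball c s = Kn ∩ ball c s := by
    ext z; exact ⟨fun hz => ⟨hz.1.1, hz.2⟩, fun hz => ⟨⟨hz.1, hbt hz.2⟩, hz.2⟩⟩
  have e3 : (Kn ∩ closedBall c t) \ ball c s = Kn ∩ (closedBall c t \ ball c s) :=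
    inter_sdiff_assoc _ _ _
  rw [e2, e3]
  ring

theorem length_compK {t : ℝ} (hη : 0 ≤ η) (hsph : L ∩ sphere c s ⊆ ↑F) :
    μH[1] (compK L Kn c s F η ∩ closedBall c t) ≤ μH[1] (L ∩ ball c s) +
      μH[1] (Kn ∩ (closedBall c t \ ball c s)) + (F.card : ℝ≥0∞) * ENNReal.ofReal (2 * π * η) := by
  have hsub : compK L Kn c s F η ∩ closedBall c t ⊆
      (L ∩ ball c s ∪ L ∩ sphere c s) ∪ Kn ∩ (closedBall c t \ ball c s) ∪ circles F η := by
    rintro z ⟨(⟨hz | hz, -⟩ | hz), hzt⟩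
    · refine Or.inl (Or.inl ?_)
      rcases (mem_closedBall.1 hz.2).lt_or_eq with hlt | heq
      · exact Or.inl ⟨hz.1, mem_ball.2 hlt⟩
      · exact Or.inr ⟨hz.1, mem_sphere.2 heq⟩
    · exact Or.inl (Or.inr ⟨hz.1, hzt, hz.2⟩)
    · exact Or.inr hz
  have hzero : μH[1] (L ∩ sphere c s) = 0 := by
    have := Measure.noAtoms_hausdorff ℂ zero_lt_one
    exact measure_mono_null hsph (F.finite_toSet.countable.measure_zero _)
  have hscl : μH[1] (circles F η) ≤ (F.card : ℝ≥0∞) * ENNReal.ofReal (2 * π * η) := by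
    refine (measure_biUnion_finset_le F _).trans ?_
    refine (Finset.sum_le_sum fun p _ => hausdorff_circle_le p hη).trans_eq ?_
    rw [Finset.sum_const, nsmul_eq_mul]
  calc μH[1] (compK L Kn c s F η ∩ closedBall c t) ≤ _ := measure_mono hsub
    _ ≤ (μH[1] (L ∩ ball c s ∪ L ∩ sphere c s) + μH[1] (Kn ∩ (closedBall c t \ ball c s))) +
          μH[1] (circles F η) :=
        (measure_union_le _ _).trans (add_le_add (measure_union_le _ _) le_rfl)
    _ ≤ _ := by
        refine add_le_add (add_le_add ?_ le_rfl) hscl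
        exact (measure_union_le _ _).trans (by rw [hzero, add_zero])

theorem dirichlet_comp {t ε B : ℝ} {G : ℂ → ℂ} (hε : 0 < ε) (hU : closedBall c t ⊆ U)
    (hUo : IsOpen U) (hn : IsOpen (U \ Kn)) (hL : IsClosed L)
    (hGv : ContinuousOn Gv (U \ Kn)) (hGf : AEStronglyMeasurable Gf (volume.restrict Lᶜ))
    (hχ01 : ∀ z, 0 ≤ χ z ∧ χ z ≤ 1) (hh : 0 < h)
    (hχin : ∀ z, dist z c < s - h / 2 → χ z = 0 ∧ gradOf χ z = 0)
    (hband : ∀ᵐ z, z ∈ {z | |dist z c - s| ≤ h} \ discs F η →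
      Gf z = G z ∧ |v z - f z| * ‖gradOf χ z‖ ≤ B) :
    ∫⁻ z in closedBall c t \ compK L Kn c s F η, ‖compG χ f v Gf Gv c s F η z‖ₑ ^ 2 ≤
      ENNReal.ofReal (1 + ε) * (∫⁻ z in ball c s \ L, ‖Gf z‖ₑ ^ 2) +
        (∫⁻ z in (closedBall c t \ ball c s) \ Kn, ‖Gv z‖ₑ ^ 2) +
        (ENNReal.ofReal (1 + ε⁻¹) *
            (2 * ∫⁻ z in {z | |dist z c - s| ≤ h} \ discs F η, ‖Gv z - G z‖ₑ ^ 2) +
          ENNReal.ofReal (1 + ε⁻¹) *
            (2 * ENNReal.ofReal (B ^ 2) * volume ({z | |dist z c - s| ≤ h} \ discs F η))) := by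
  set a := ENNReal.ofReal (1 + ε⁻¹) with ha
  set Band := {z | |dist z c - s| ≤ h} \ discs F η with hBand
  set f1 : ℂ → ℝ≥0∞ :=
    (ball c s \ L).indicator fun z => ENNReal.ofReal (1 + ε) * ‖Gf z‖ₑ ^ 2 with hf1
  set f2 : ℂ → ℝ≥0∞ :=
    ((closedBall c t \ ball c s) \ Kn).indicator fun z => ‖Gv z‖ₑ ^ 2 with hf2
  set f3 : ℂ → ℝ≥0∞ := Band.indicator fun z =>
    a * (2 * ‖Gv z - G z‖ₑ ^ 2 + 2 * ENNReal.ofReal (B ^ 2)) with hf3
  have hmS : MeasurableSet (closedBall c t \ compK L Kn c s F η) := by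
    have : closedBall c t \ compK L Kn c s F η =
        closedBall c t ∩ (U \ compK L Kn c s F η) := by
      ext z; exact ⟨fun hz => ⟨hz.1, hU hz.1, hz.2⟩, fun hz => ⟨hz.1, hz.2.2⟩⟩
    rw [this]
    exact measurableSet_closedBall.inter (isOpen_compl_compK hUo hn hL).measurableSet
  have hmeasK : MeasurableSet ((closedBall c t \ ball c s) \ Kn) := by
    have : (closedBall c t \ ball c s) \ Kn = (closedBall c t \ ball c s) ∩ (U \ Kn) := by
      ext z; exact ⟨fun hz => ⟨hz.1, hU hz.1.1, hz.2⟩, fun hz => ⟨hz.1, hz.2.2⟩⟩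
    rw [this]
    exact (measurableSet_closedBall.diff measurableSet_ball).inter hn.measurableSet
  have hptw : ∀ᵐ z, z ∈ closedBall c t \ compK L Kn c s F η →
      ‖compG χ f v Gf Gv c s F η z‖ₑ ^ 2 ≤ f1 z + f2 z + f3 z := by
    filter_upwards [hband] with z hz3 hz
    by_cases hzD : z ∈ discs F η
    · simp [compG, hzD]
    by_cases hzs : dist z c < s
    · have hzQ : z ∉ L := fun hzQ => hz.2
        (Or.inl ⟨Or.inl ⟨hzQ, mem_closedBall.2 hzs.le⟩, hzD⟩)
      have e1 : f1 z = ENNReal.ofReal (1 + ε) * ‖Gf z‖ₑ ^ 2 :=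
        indicator_of_mem (show z ∈ ball c s \ L from ⟨mem_ball.2 hzs, hzQ⟩) _
      have hWz : compG χ f v Gf Gv c s F η z =
          Gf z + (χ z • (Gv z - Gf z) + (v z - f z) • gradOf χ z) := by
        simp [compG, hzD, hzs]
      rw [hWz]
      rcases lt_or_ge (dist z c) (s - h / 2) with hin | hge
      · rw [(hχin z hin).1, (hχin z hin).2, zero_smul, smul_zero, add_zero, add_zero]
        refine le_trans ?_ (le_add_right (le_add_right e1.ge))
        conv_lhs => rw [← one_mul (‖Gf z‖ₑ ^ 2)]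
        refine mul_le_mul_left ?_ _
        rw [← ENNReal.ofReal_one]
        exact ENNReal.ofReal_le_ofReal (by linarith)
      · have hzB : z ∈ Band :=
          ⟨show |dist z c - s| ≤ h from abs_le.2 ⟨by linarith, by linarith⟩, hzD⟩
        obtain ⟨hGG, hB⟩ := hz3 hzB
        have e3 : f3 z = a * (2 * ‖Gv z - G z‖ₑ ^ 2 + 2 * ENNReal.ofReal (B ^ 2)) :=
          indicator_of_mem hzB _
        rw [e1, e3]
        refine (enorm_add_sq_le _ _ hε).trans ?_
        refine add_le_add le_self_add (mul_le_mul_right ?_ _)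
        have hb1 : ‖χ z • (Gv z - Gf z)‖ₑ ≤ ‖Gv z - G z‖ₑ := by
          rw [enorm_smul, hGG]
          refine mul_le_of_le_one_left' ?_
          rw [Real.enorm_eq_ofReal (hχ01 z).1, ← ENNReal.ofReal_one]
          exact ENNReal.ofReal_le_ofReal (hχ01 z).2
        have hb2 : ‖(v z - f z) • gradOf χ z‖ₑ ^ 2 ≤ ENNReal.ofReal (B ^ 2) := by
          rw [← ofReal_norm, ← ENNReal.ofReal_pow (norm_nonneg _)]
          refine ENNReal.ofReal_le_ofReal (pow_le_pow_left₀ (norm_nonneg _) ?_ 2)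
          rw [norm_smul, Real.norm_eq_abs]
          exact hB
        refine (enorm_add_sq_le _ _ one_pos).trans ?_
        rw [inv_one, show (1 : ℝ) + 1 = 2 by norm_num, ENNReal.ofReal_ofNat]
        gcongr
    · have hzK : z ∉ Kn := fun hzK => hz.2
        (Or.inl ⟨Or.inr ⟨hzK, fun hb => hzs (mem_ball.1 hb)⟩, hzD⟩)
      have e2 : f2 z = ‖Gv z‖ₑ ^ 2 := indicator_of_mem
        (show z ∈ (closedBall c t \ ball c s) \ Kn from
          ⟨⟨hz.1, fun hb => hzs (mem_ball.1 hb)⟩, hzK⟩) _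
      simp only [compG, if_neg hzD, if_neg hzs]
      exact le_trans e2.ge (le_add_right le_add_self)
  have hf1m : AEMeasurable f1 :=
    (aemeasurable_indicator_iff (measurableSet_ball.diff hL.measurableSet)).2
      (((hGf.mono_measure (Measure.restrict_mono (fun z hz => hz.2) le_rfl)).enorm.pow_const 2).const_mul _)
  have hf2m : AEMeasurable f2 :=
    (aemeasurable_indicator_iff hmeasK).2
      (((hGv.aestronglyMeasurable hn.measurableSet).mono_measure
        (Measure.restrict_mono (show (closedBall c t \ ball c s) \ Kn ⊆ U \ Kn from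
          fun z hz => ⟨hU hz.1.1, hz.2⟩) le_rfl)).enorm.pow_const 2)
  have hBm : MeasurableSet Band :=
    (isClosed_le (by fun_prop) continuous_const).measurableSet.diff (isOpen_discs F η).measurableSet
  calc ∫⁻ z in closedBall c t \ compK L Kn c s F η, ‖compG χ f v Gf Gv c s F η z‖ₑ ^ 2
      ≤ ∫⁻ z in closedBall c t \ compK L Kn c s F η, f1 z + f2 z + f3 z :=
        lintegral_mono_ae ((ae_restrict_iff' hmS).2 hptw)
    _ ≤ ∫⁻ z, f1 z + f2 z + f3 z := setLIntegral_le_lintegral _ _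
    _ = (∫⁻ z, f1 z) + (∫⁻ z, f2 z) + ∫⁻ z, f3 z :=
        (lintegral_add_left' (hf1m.add hf2m) f3).trans
          (congrArg (· + ∫⁻ z, f3 z) (lintegral_add_left' hf1m f2))
    _ = _ := by
        rw [hf1, hf2, hf3, lintegral_indicator (measurableSet_ball.diff hL.measurableSet),
          lintegral_indicator hmeasK, lintegral_indicator hBm,
          lintegral_const_mul' _ _ ENNReal.ofReal_ne_top,
          lintegral_const_mul' _ _ ENNReal.ofReal_ne_top,
          lintegral_add_right _ measurable_const, lintegral_const_mul' _ _ (by simp),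
          setLIntegral_const, mul_add]

end Competitor

/-- The comparison in a disc whose circle meets the limit set finitely often, up to small errors. -/
theorem limit_core {Uj Kj : ℕ → Set ℂ} {uj : ℕ → ℂ → ℝ} {Gj : ℕ → ℂ → ℂ} {Aj Mj Λj : ℕ → ℝ}
    (hAM : ∀ j, IsAlmostMin (Uj j) (Kj j) (uj j) (Gj j) (Aj j) (Mj j) (Λj j))
    (hUj : ∀ R : ℝ, ∀ᶠ j in atTop, closedBall (0 : ℂ) R ⊆ Uj j)
    (hΛ : Tendsto Λj atTop (𝓝 0)) {P Q : Pair} (hconv : Converges Kj uj Gj P) {c : ℂ} {r s : ℝ}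
    (hr : 0 < r) (hrs : r < s) (hQ : PairCompetes P Q c r) {F : Finset ℂ}
    (hF : P.K ∩ sphere c s = ↑F) {ε η θ : ℝ} (hε : 0 < ε) (hη : 0 < η) (hθ : 0 < θ) :
    liminf (fun j => (∫⁻ z in ball c s \ Kj j, ‖Gj j z‖ₑ ^ 2) + μH[1] (Kj j ∩ ball c s)) atTop ≤
      ENNReal.ofReal (1 + ε) * (∫⁻ z in ball c s \ Q.K, ‖Q.G z‖ₑ ^ 2) + μH[1] (Q.K ∩ ball c s) +
        ((F.card : ℝ≥0∞) * ENNReal.ofReal (2 * π * η) + ENNReal.ofReal θ) := by
  obtain ⟨⟨C, hCc, hCball, hQK, hae⟩, hsep⟩ := hQ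
  obtain ⟨h, hh, hhη, hhr, hband⟩ := exists_band P.isClosed hrs hη hF
  obtain ⟨χ, hχ, hχ01, hχin, hχout⟩ := exists_radial_cutoff c (s := s) hh
  set Band : Set ℂ := {z | |dist z c - s| ≤ h} \ discs F η with hBand
  have hBandc : IsCompact Band := by
    refine (isCompact_of_isClosed_isBounded (isClosed_le (by fun_prop) continuous_const) ?_).diff
      (isOpen_discs F η)
    exact isBounded_closedBall.subset (t := closedBall c (s + h)) fun z hz =>
      mem_closedBall.2 (by linarith [(abs_le.1 (show |dist z c - s| ≤ h from hz)).2])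
  have hBandP : Band ⊆ P.Kᶜ := fun z hz hzK => hz.2 (hband z hzK hz.1)
  have hBandC : ∀ z ∈ Band, z ∉ ball c r := fun z hz hzr => by
    linarith [mem_ball.1 hzr, (abs_le.1 (show |dist z c - s| ≤ h from hz.1)).1]
  have hBandQ : Band ⊆ Q.Kᶜ := fun z hz hzQ => by
    have : z ∈ P.K \ C := hQK ▸ ⟨hzQ, fun hC => hBandC z hz (hCball hC)⟩
    exact hBandP hz this.1
  have hBandV : Band ⊆ (C ∪ P.K)ᶜ := fun z hz h =>
    h.elim (fun hC => hBandC z hz (hCball hC)) (hBandP hz)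
  obtain ⟨Γ, hΓ⟩ : ∃ Γ : ℝ, ∀ z ∈ Band, ‖gradOf χ z‖ ≤ Γ := by
    have hcont : ContinuousOn (gradOf χ) univ :=
      continuousOn_gradOf isOpen_univ (hχ.of_le (by simp)).contDiffOn
    exact hBandc.exists_bound_of_continuousOn (hcont.mono (subset_univ _))
  set t := s + 2 * η with ht
  have hDt : cdiscs F η ⊆ closedBall c t := fun z hz => by
    obtain ⟨p, hp, hzp⟩ := mem_iUnion₂.1 hz
    have : p ∈ P.K ∩ sphere c s := hF ▸ hp
    rw [mem_closedBall]
    linarith [dist_triangle z p c, mem_closedBall.1 hzp, mem_sphere.1 this.2]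
  set a : ℝ≥0∞ := ENNReal.ofReal (1 + ε⁻¹) with ha
  obtain ⟨δ, hδ, hδθ⟩ : ∃ δ > 0,
      a * (2 * ENNReal.ofReal ((δ * Γ) ^ 2) * volume Band) ≤ ENNReal.ofReal (θ / 3) := by
    have hT : Tendsto (fun δ : ℝ => a * (2 * ENNReal.ofReal ((δ * Γ) ^ 2) * volume Band))
        (𝓝[>] 0) (𝓝 0) := by
      have h0 : Tendsto (fun δ : ℝ => ENNReal.ofReal ((δ * Γ) ^ 2)) (𝓝[>] 0) (𝓝 0) := by
        have : Tendsto (fun δ : ℝ => ENNReal.ofReal ((δ * Γ) ^ 2)) (𝓝 0) (𝓝 0) := by
          simpa using (show Continuous fun δ : ℝ => ENNReal.ofReal ((δ * Γ) ^ 2) from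
            ENNReal.continuous_ofReal.comp (by fun_prop)).tendsto 0
        exact this.mono_left nhdsWithin_le_nhds
      simpa using ENNReal.Tendsto.const_mul (a := a)
        (ENNReal.Tendsto.mul_const (b := volume Band)
          (ENNReal.Tendsto.const_mul (a := 2) h0 (Or.inr (by simp)))
          (Or.inr hBandc.measure_lt_top.ne)) (Or.inr ENNReal.ofReal_ne_top)
    obtain ⟨δ, h1, h2⟩ := ((hT.eventually (ge_mem_nhds (ENNReal.ofReal_pos.2 (by linarith :
      0 < θ / 3)))).and self_mem_nhdsWithin).exists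
    exact ⟨δ, h2, h1⟩
  have hev1 : ∀ᶠ j in atTop, a * (2 * ∫⁻ z in Band, ‖Gj j z - P.G z‖ₑ ^ 2) ≤
      ENNReal.ofReal (θ / 3) := by
    have : Tendsto (fun j => a * (2 * ∫⁻ z in Band, ‖Gj j z - P.G z‖ₑ ^ 2)) atTop (𝓝 0) := by
      simpa using ENNReal.Tendsto.const_mul (a := a)
        (ENNReal.Tendsto.const_mul (a := 2) (hconv.grad Band hBandc hBandP) (Or.inr (by simp)))
        (Or.inr ENNReal.ofReal_ne_top)
    exact this.eventually (ge_mem_nhds (ENNReal.ofReal_pos.2 (by linarith)))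
  have hev2 : ∀ᶠ j in atTop, ENNReal.ofReal (Λj j * t ^ 2) ≤ ENNReal.ofReal (θ / 3) := by
    have hT : Tendsto (fun j => ENNReal.ofReal (Λj j * t ^ 2)) atTop (𝓝 0) := by
      simpa using ENNReal.tendsto_ofReal (hΛ.mul_const (t ^ 2))
    exact hT.eventually (ge_mem_nhds (ENNReal.ofReal_pos.2 (by linarith)))
  refine liminf_le_of_frequently_le' (Eventually.frequently ?_)
  filter_upwards [hev1, hev2, eventually_disjoint_of_locConv P.isClosed hconv.sets hBandc hBandP,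
    eventually_shift_close hconv hsep hBandc hBandQ hBandP hBandC hδ,
    hUj (dist c 0 + t)] with j hj1 hj2 hjdisj hjclose hjU
  have hU : closedBall c t ⊆ Uj j :=
    (closedBall_subset_closedBall' (by linarith)).trans hjU
  have hAMj := hAM j
  have hBandU : ∀ z, |dist z c - s| < h → z ∉ cdiscs F η → z ∈ (Uj j \ Kj j) ∧ z ∉ Q.K := by
    intro z hz hzD
    have hzB : z ∈ Band := ⟨(le_of_lt hz : |dist z c - s| ≤ h),
      fun hD => hzD (discs_subset_cdiscs F η hD)⟩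
    refine ⟨⟨hU (mem_closedBall.2 ?_), fun hzK =>
      Set.eq_empty_iff_forall_notMem.1 hjdisj z ⟨hzB, hzK⟩⟩, hBandQ hzB⟩
    linarith [(abs_lt.1 hz).2]
  set f : ℂ → ℝ := fun z => Q.u z + shift Q.K P.K c r (uj j) P.u z with hf
  have hwS : IsSobolevOn (Uj j \ compK Q.K (Kj j) c s F η) (compU χ f (uj j) c s F η)
      (compG χ f (uj j) Q.G (Gj j) c s F η) :=
    isSobolevOn_comp hAMj.isOpen hAMj.isOpen_compl Q.isClosed hh hAMj.isSobolevOn
      isSobolevOn_shift hχ hχin hχout hBandU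
  have hwout : ∀ᵐ x ∂volume.restrict (Uj j \ closedBall c t),
      compU χ f (uj j) c s F η x = uj j x := by
    filter_upwards [ae_restrict_mem
      (hAMj.isOpen.measurableSet.diff measurableSet_closedBall)] with x hx
    have h1 : x ∉ discs F η := fun h => hx.2 (hDt (discs_subset_cdiscs F η h))
    have h2 : ¬ dist x c < s := fun h => hx.2 (mem_closedBall.2 (by linarith))
    simp [compU, h1, h2]
  have hmin := hAMj.almostMin c t (by linarith) hU _ _ _
    (compK_subset hAMj.subset (by linarith) hU hDt)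
    (isOpen_compl_compK hAMj.isOpen hAMj.isOpen_compl Q.isClosed)
    (compK_diff (by linarith) hDt) hwS hwout
  have hgeq : ∀ᵐ z, z ∈ Band → Q.G z = P.G z ∧ |uj j z - f z| * ‖gradOf χ z‖ ≤ δ * Γ := by
    have hV : IsOpen (C ∪ P.K)ᶜ := (hCc.isClosed.union P.isClosed).isOpen_compl
    have h1 := (ae_restrict_iff' hV.measurableSet).1 hae
    have h2 := (ae_restrict_iff' hV.measurableSet).1 (grad_eq_of_competes hCc hQK hae)
    filter_upwards [h1, h2] with z h1 h2 hz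
    refine ⟨h2 (hBandV hz), mul_le_mul ?_ (hΓ z hz) (norm_nonneg _) hδ.le⟩
    have := hjclose z hz
    rw [hf]
    simpa [h1 (hBandV hz), sub_add_eq_sub_sub] using this
  have hdir := dirichlet_comp (B := δ * Γ) (G := P.G) hε hU hAMj.isOpen hAMj.isOpen_compl
    Q.isClosed hAMj.contGrad Q.grad_meas hχ01 hh hχin hgeq
  have hsph : Q.K ∩ sphere c s ⊆ ↑F := by
    rintro z ⟨hz, hzs⟩
    have : z ∈ P.K \ C :=
      hQK ▸ ⟨hz, fun hC => by linarith [mem_ball.1 (hCball hC), mem_sphere.1 hzs]⟩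
    exact hF ▸ ⟨this.1, hzs⟩
  have hlen := length_compK (Kn := Kj j) (t := t) hη.le hsph
  have hlhs := weakEnergy_split (Gv := Gj j) (show s ≤ t by linarith) hAMj.isOpen_compl hU
  set RD : ℝ≥0∞ := ∫⁻ z in (closedBall c t \ ball c s) \ Kj j, ‖Gj j z‖ₑ ^ 2 with hRD
  set RH : ℝ≥0∞ := μH[1] (Kj j ∩ (closedBall c t \ ball c s)) with hRH
  have hfinR : RD + RH ≠ ⊤ := by
    have := hAMj.finite (closedBall c t) (isCompact_closedBall c t) hU
    rw [hlhs] at this
    exact (lt_of_le_of_lt le_add_self this).ne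
  have htot := hmin.trans (add_le_add (add_le_add hdir hlen) le_rfl)
  rw [hlhs] at htot
  refine ENNReal.le_of_add_le_add_right hfinR (htot.trans ?_)
  have h3 : ENNReal.ofReal θ = ENNReal.ofReal (θ / 3) + ENNReal.ofReal (θ / 3) +
      ENNReal.ofReal (θ / 3) := by
    rw [← ENNReal.ofReal_add (by linarith) (by linarith),
      ← ENNReal.ofReal_add (by linarith) (by linarith)]
    congr 1; ring
  rw [h3]
  calc _ ≤ ENNReal.ofReal (1 + ε) * (∫⁻ z in ball c s \ Q.K, ‖Q.G z‖ₑ ^ 2) + RD +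
        (ENNReal.ofReal (θ / 3) + ENNReal.ofReal (θ / 3)) +
        (μH[1] (Q.K ∩ ball c s) + RH + (F.card : ℝ≥0∞) * ENNReal.ofReal (2 * π * η)) +
          ENNReal.ofReal (θ / 3) :=
        add_le_add (add_le_add (add_le_add le_rfl (add_le_add hj1 hδθ)) le_rfl) hj2
    _ = _ := by ring

theorem limitSpec : LimitSpec := by
  intro Uj Kj uj Gj Aj Mj Λj hAM hUj hΛ P hconv c r hr Q hQ
  obtain ⟨s, ⟨hrs, -⟩, hfin⟩ := P.exists_finite_sphere c (lt_add_one r)
  set DQ : ℝ≥0∞ := ∫⁻ z in ball c s \ Q.K, ‖Q.G z‖ₑ ^ 2 with hDQ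
  have hEQ : weakEnergy Q.K Q.G (ball c s) ≠ ⊤ := (Q.finite c s).ne
  have hDQfin : DQ ≠ ⊤ := (lt_of_le_of_lt le_self_add (Q.finite c s)).ne
  have hcont : ∀ C, IsCompact C → C ⊆ P.Kᶜ → ∀ᶠ j in atTop, ContinuousOn (Gj j) C := by
    intro C hC hCK
    obtain ⟨R, hR⟩ := hC.isBounded.subset_closedBall 0
    filter_upwards [eventually_disjoint_of_locConv P.isClosed hconv.sets hC hCK, hUj R] with j h1 h2
    exact (hAM j).contGrad.mono fun z hz =>
      ⟨h2 (hR hz), fun hzK => Set.eq_empty_iff_forall_notMem.1 h1 z ⟨hz, hzK⟩⟩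
  have hbig : weakEnergy P.K P.G (ball c s) ≤ weakEnergy Q.K Q.G (ball c s) := by
    refine ENNReal.le_of_forall_pos_le_add fun e he _ => ?_
    set N := hfin.toFinset.card with hN
    obtain ⟨ε, hε, hεe⟩ : ∃ ε > 0, ENNReal.ofReal ε * DQ ≤ (e : ℝ≥0∞) / 3 := by
      refine ⟨(e : ℝ) / 3 / (DQ.toReal + 1), by positivity, ?_⟩
      rw [← ENNReal.ofReal_toReal hDQfin, ← ENNReal.ofReal_mul (by positivity),
        ENNReal.ofReal_toReal hDQfin]
      refine (ENNReal.ofReal_le_ofReal (q := (e : ℝ) / 3) ?_).trans_eq ?_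
      · rw [div_mul_eq_mul_div, div_le_iff₀ (by positivity)]
        nlinarith [ENNReal.toReal_nonneg (a := DQ), e.coe_nonneg]
      · rw [ENNReal.ofReal_div_of_pos (by norm_num), ENNReal.ofReal_coe_nnreal]
        simp
    obtain ⟨η, hη, hηe⟩ : ∃ η > 0, (N : ℝ≥0∞) * ENNReal.ofReal (2 * π * η) ≤ (e : ℝ≥0∞) / 3 := by
      refine ⟨(e : ℝ) / 3 / ((N + 1) * (2 * π)), by positivity, ?_⟩
      rw [← ENNReal.ofReal_natCast, ← ENNReal.ofReal_mul (by positivity)]
      refine (ENNReal.ofReal_le_ofReal (q := (e : ℝ) / 3) ?_).trans_eq ?_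
      · calc (N : ℝ) * (2 * π * ((e : ℝ) / 3 / ((N + 1) * (2 * π))))
            = (e : ℝ) / 3 * ((N : ℝ) / (N + 1)) := by field_simp
          _ ≤ (e : ℝ) / 3 * 1 := by
              refine mul_le_mul_of_nonneg_left ?_ (by positivity)
              rw [div_le_one (by positivity)]; linarith
          _ = _ := mul_one _
      · rw [ENNReal.ofReal_div_of_pos (by norm_num), ENNReal.ofReal_coe_nnreal]
        simp
    have hcore := limit_core hAM hUj hΛ hconv hr hrs hQ (hfin.coe_toFinset.symm) hε hη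
      (θ := (e : ℝ) / 3) (by positivity)
    have hlow : weakEnergy P.K P.G (ball c s) ≤ liminf (fun j =>
        (∫⁻ z in ball c s \ Kj j, ‖Gj j z‖ₑ ^ 2) + μH[1] (Kj j ∩ ball c s)) atTop :=
      le_trans (add_le_add (dirichlet_le_liminf hconv hcont c s) (hconv.length c s))
        (liminf_add_liminf_le _ _)
    refine (hlow.trans hcore).trans ?_
    have h3 : ENNReal.ofReal ((e : ℝ) / 3) = (e : ℝ≥0∞) / 3 := by
      rw [ENNReal.ofReal_div_of_pos (by norm_num), ENNReal.ofReal_coe_nnreal]; simp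
    rw [ENNReal.ofReal_add zero_le_one hε.le, ENNReal.ofReal_one, add_mul, one_mul, h3]
    calc DQ + ENNReal.ofReal ε * DQ + μH[1] (Q.K ∩ ball c s) +
          ((hfin.toFinset.card : ℝ≥0∞) * ENNReal.ofReal (2 * π * η) + (e : ℝ≥0∞) / 3)
        ≤ DQ + (e : ℝ≥0∞) / 3 + μH[1] (Q.K ∩ ball c s) + ((e : ℝ≥0∞) / 3 + (e : ℝ≥0∞) / 3) := by
          gcongr
      _ = (DQ + μH[1] (Q.K ∩ ball c s)) +
            ((e : ℝ≥0∞) / 3 + (e : ℝ≥0∞) / 3 + (e : ℝ≥0∞) / 3) := by ring
      _ = _ := by rw [ENNReal.add_thirds]; rfl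
  -- remove the common shell
  obtain ⟨⟨C, hCc, hCball, hQK, hae⟩, -⟩ := hQ
  have hsplit : ∀ R : Pair, weakEnergy R.K R.G (ball c s) = weakEnergy R.K R.G (ball c r) +
      weakEnergy R.K R.G (ball c s \ ball c r) := by
    intro R
    have hb : ball c r ⊆ ball c s := ball_subset_ball hrs.le
    unfold weakEnergy
    have e1 : ball c s \ R.K = (ball c r \ R.K) ∪ ((ball c s \ ball c r) \ R.K) := by
      ext z; simp only [Set.mem_sdiff, mem_union]; constructor
      · rintro ⟨h1, h2⟩; by_cases hzb : z ∈ ball c r <;> simp [h1, h2, hzb]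
      · rintro (⟨h1, h2⟩ | ⟨⟨h1, -⟩, h2⟩)
        · exact ⟨hb h1, h2⟩
        · exact ⟨h1, h2⟩
    rw [e1, lintegral_union ((measurableSet_ball.diff measurableSet_ball).diff
      R.isClosed.measurableSet) (disjoint_left.2 fun z h1 h2 => h2.1.2 h1.1),
      ← measure_inter_add_sdiff (R.K ∩ ball c s) measurableSet_ball (μ := μH[1]),
      inter_assoc, inter_eq_right.2 hb, inter_sdiff_assoc]
    ring
  have hshell : weakEnergy Q.K Q.G (ball c s \ ball c r) =
      weakEnergy P.K P.G (ball c s \ ball c r) := by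
    have hout : ∀ z, z ∈ ball c s \ ball c r → z ∉ C := fun z hz hC => hz.2 (hCball hC)
    have hiff : ∀ z, z ∈ ball c s \ ball c r → (z ∈ Q.K ↔ z ∈ P.K) := fun z hz =>
      ⟨fun h => (hQK ▸ (⟨h, hout z hz⟩ : z ∈ Q.K \ C) : z ∈ P.K \ C).1,
        fun h => (hQK.symm ▸ (⟨h, hout z hz⟩ : z ∈ P.K \ C) : z ∈ Q.K \ C).1⟩
    have e1 : (ball c s \ ball c r) \ Q.K = (ball c s \ ball c r) \ P.K := by
      ext z; exact ⟨fun hz => ⟨hz.1, fun h => hz.2 ((hiff z hz.1).2 h)⟩,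
        fun hz => ⟨hz.1, fun h => hz.2 ((hiff z hz.1).1 h)⟩⟩
    have e2 : Q.K ∩ (ball c s \ ball c r) = P.K ∩ (ball c s \ ball c r) := by
      ext z; exact ⟨fun hz => ⟨(hiff z hz.2).1 hz.1, hz.2⟩, fun hz => ⟨(hiff z hz.2).2 hz.1, hz.2⟩⟩
    unfold weakEnergy
    rw [e1, e2]
    congr 1
    refine lintegral_congr_ae ?_
    have hsub : (ball c s \ ball c r) \ P.K ⊆ (C ∪ P.K)ᶜ :=
      fun z hz h => h.elim (hout z hz.1) hz.2
    filter_upwards [ae_restrict_of_ae_restrict_of_subset hsub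
      (grad_eq_of_competes hCc hQK hae)] with z hz
    rw [hz]
  have hfinS : weakEnergy P.K P.G (ball c s \ ball c r) ≠ ⊤ := by
    have := P.finite c s
    rw [hsplit P] at this
    exact (lt_of_le_of_lt le_add_self this).ne
  rw [hsplit P, hsplit Q, hshell] at hbig
  exact ENNReal.le_of_add_le_add_right hfinS hbig

end Vale.Agent.P128.Bridge
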