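import Vale.Agent.P128.Bridge.Scale
import Vale.Agent.P128.Bridge.Limit

/-!
# P128 bridge: blow-ups of reduced minimisers are reduced global minimisers
-/

open MeasureTheory Set Metric Filter
open scoped ENNReal NNReal Topology Real RealInnerProductSpace

noncomputable section

namespace Vale.Agent.P128.Bridge

/-- Blow-up domains exhaust the plane. -/
theorem eventually_blow_ball {x : ℂ} {R : ℝ} (hR : 0 < R) {r : ℕ → ℝ} (hr : ∀ j, 0 < r j)
    (hr0 : Tendsto r atTop (𝓝 0)) (S : ℝ) :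
    ∀ᶠ j in atTop, closedBall (0 : ℂ) S ⊆ blowSet x (r j) (ball x R) := by
  have h : Tendsto (fun j => r j * |S|) atTop (𝓝 0) := by simpa using hr0.mul_const |S|
  filter_upwards [h.eventually (gt_mem_nhds hR)] with j hj z hz
  show x + r j • z ∈ ball x R
  rw [mem_ball, dist_self_add_left, norm_smul, Real.norm_eq_abs, abs_of_pos (hr j)]
  refine lt_of_le_of_lt (mul_le_mul_of_nonneg_left ?_ (hr j).le) hj
  exact (mem_closedBall_zero_iff.1 hz).trans (le_abs_self S)

/-- Almost every equality pulls back under blow-up. -/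
theorem blowGrad_ae_eq {x : ℂ} {r : ℝ} (hr : 0 < r) {S : Set ℂ} (hS : MeasurableSet S)
    {F G : ℂ → ℂ} (h : F =ᵐ[volume.restrict S] G) :
    blowGrad x r F =ᵐ[volume.restrict (blowSet x r S)] blowGrad x r G := by
  have hq : Measure.QuasiMeasurePreserving (fun y : ℂ => x + r • y) volume volume := by
    refine ⟨by fun_prop, ?_⟩
    rw [map_aff_volume hr]
    exact Measure.smul_absolutelyContinuous
  have hm : MeasurableSet (blowSet x r S) := hS.preimage hq.measurable
  rw [EventuallyEq, ae_restrict_iff' hm]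
  filter_upwards [hq.ae ((ae_restrict_iff' hS).1 h)] with y hy hy'
  simp only [blowGrad]
  rw [hy hy']

/-- Blow-ups of reduced minimisers, from the pieces. -/
theorem blowUp_of_pieces (hReg : RegSpec) (hCompact : CompactSpec) : BlowUpSpec := by
  intro Ω g P hΩ hg hmin hred x hx r hr hr0
  obtain ⟨R, hR, hRΩ, v, Gv, A, M, Λ, -, hGv, hAM⟩ := hReg Ω g P hΩ hg hmin x (P.subset hx)
  set K' := P.K ∩ ball x R with hK'
  have hxK' : x ∈ K' := ⟨hx, mem_ball_self hR⟩
  have hred' : IsReducedIn (ball x R) K' := by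
    intro z hz s hs hsR
    have := hred z hz.1 s hs (hsR.trans (ball_subset_closedBall.trans hRΩ))
    refine lt_of_lt_of_le this (measure_mono fun y hy =>
      ⟨⟨hy.1, hsR (ball_subset_closedBall hy.2)⟩, hy.2⟩)
  set Uj : ℕ → Set ℂ := fun j => blowSet x (r j) (ball x R) with hUj
  set Kj : ℕ → Set ℂ := fun j => blowSet x (r j) K' with hKj
  set uj : ℕ → ℂ → ℝ := fun j => blowFun x (r j) v with huj
  set Gj : ℕ → ℂ → ℂ := fun j => blowGrad x (r j) Gv with hGj
  set Aj : ℕ → ℝ := fun j => A * (r j * Real.sqrt (r j)) with hAj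
  set Λj : ℕ → ℝ := fun j => Λ * r j with hΛj
  have hAMj : ∀ j, IsAlmostMin (Uj j) (Kj j) (uj j) (Gj j) (Aj j) (M / Real.sqrt (r j)) (Λj j) :=
    fun j => scaleSpec _ _ _ _ _ _ _ hAM x (r j) (hr j)
  have hredj : ∀ j, IsReducedIn (Uj j) (Kj j) := by
    intro j z hz s hs hsU
    have hr' := hr j
    have hB : blowSet x (r j) (ball (x + r j • z) (r j * s)) = ball z s := by
      ext w
      simp only [blowSet, mem_preimage, mem_ball, dist_add_left, dist_smul₀, Real.norm_eq_abs,
        abs_of_pos hr', mul_lt_mul_iff_right₀ hr']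
    have hsub : closedBall (x + r j • z) (r j * s) ⊆ ball x R := by
      intro y hy
      have hy' : -((r j)⁻¹ • x) + (r j)⁻¹ • y ∈ closedBall z s := by
        rw [← blowSet_closedBall hr' z s, blowSet, mem_preimage, aff_inv hr'.ne']
        exact hy
      have := hsU hy'
      simp only [hUj, blowSet, mem_preimage, aff_inv hr'.ne'] at this
      exact this
    have h1 := hred' _ hz (r j * s) (mul_pos hr' hs) hsub
    rw [← hB]
    show 0 < μH[1] (blowSet x (r j) (K' ∩ ball (x + r j • z) (r j * s)))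
    rw [hausdorff_blowSet hr']
    exact ENNReal.mul_pos (by simpa using hr') h1.ne'
  have h0 : ∀ j, (0 : ℂ) ∈ Kj j := fun j => by simpa [hKj, blowSet] using hxK'
  have hexh : ∀ S : ℝ, ∀ᶠ j in atTop, closedBall (0 : ℂ) S ⊆ Uj j :=
    eventually_blow_ball hR hr hr0
  have hA0 : Tendsto Aj atTop (𝓝 0) := by
    have h1 : Tendsto (fun j => Real.sqrt (r j)) atTop (𝓝 0) := by
      simpa [Function.comp_def] using (Real.continuous_sqrt.tendsto 0).comp hr0
    simpa [hAj] using (hr0.mul h1).const_mul A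
  have hΛ0 : Tendsto Λj atTop (𝓝 0) := by simpa [hΛj] using hr0.const_mul Λ
  obtain ⟨φ, hφ, Q, hQ0, hQred, hconv⟩ :=
    hCompact Uj Kj uj Gj Aj (fun j => M / Real.sqrt (r j)) Λj hAMj hredj h0 hexh hA0 hΛ0
  have hφt := hφ.tendsto_atTop
  refine ⟨φ, hφ, Q, ?_, hQred, hQ0, ?_, ?_⟩
  · exact limitSpec (Uj ∘ φ) (Kj ∘ φ) (uj ∘ φ) (Gj ∘ φ) (Aj ∘ φ)
      ((fun j => M / Real.sqrt (r j)) ∘ φ) (Λj ∘ φ) (fun j => hAMj (φ j))
      (fun S => hφt.eventually (hexh S)) (hΛ0.comp hφt) Q hconv
  · obtain ⟨hs1, hs2⟩ := hconv.sets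
    refine ⟨fun C hC _ ε hε => ?_, fun z hz ε hε => ?_⟩
    · obtain ⟨S, hS⟩ := hC.isBounded.subset_closedBall 0
      filter_upwards [hs1 C hC (subset_univ _) ε hε, hφt.eventually (hexh S)] with j hj hjS z hz
      exact hj z ⟨⟨hz.1, hjS (hS hz.2)⟩, hz.2⟩
    · filter_upwards [hs2 z hz ε hε] with j ⟨w, hw, hzw⟩
      exact ⟨w, hw.1, hzw⟩
  · intro C hC hCQ
    refine (hconv.grad C hC hCQ).congr' ?_
    obtain ⟨S, hS⟩ := hC.isBounded.subset_closedBall 0
    filter_upwards [hφt.eventually (hexh S)] with j hj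
    have hnull : volume P.K = 0 := volume_eq_zero_of_hausdorff_one_lt_top P.finite
    have hae : Gv =ᵐ[volume.restrict (ball x R)] P.G := by
      have h1 : ball x R \ P.K =ᵐ[volume] (ball x R : Set ℂ) := sdiff_null_ae_eq_self hnull
      rwa [← Measure.restrict_congr_set h1]
    have := blowGrad_ae_eq (x := x) (hr (φ j)) measurableSet_ball hae
    refine lintegral_congr_ae ?_
    filter_upwards [ae_restrict_of_ae_restrict_of_subset (hS.trans hj) this] with z hz
    simp only [Function.comp_apply, hGj, hz]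

end Vale.Agent.P128.Bridge
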