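import Vale.Agent.P128.Bridge.Reg.Variation
import Vale.Agent.P128.Bridge.Polar
import Vale.Agent.P128.Circle.Eilenberg

/-!
# P128 bridge R0: a minimiser is an almost-minimiser near every point

`u` has a `C¹` representative off `K`; it is bounded on a good circle, hence in the disc by
truncation; the Euler equation and truncated competitors then give almost-minimality.
-/

open MeasureTheory Set Metric Filter
open scoped ENNReal NNReal Topology Real RealInnerProductSpace ContDiff

noncomputable section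

namespace Vale.Agent.P128.Bridge

open RegW

variable {Ω : Set ℂ} {g : ℂ → ℝ}

/-- The clamp to `[-k, k]`. -/
def clampTo (k t : ℝ) : ℝ := max (-k) (min k t)

theorem abs_clampTo_sub_le (k s t : ℝ) : |clampTo k s - clampTo k t| ≤ |s - t| :=
  (abs_max_sub_max_le_max _ _ _ _).trans (max_le (by simp)
    ((abs_min_sub_min_le_max _ _ _ _).trans (max_le (by simp) le_rfl)))

theorem clampTo_eq_self {k t : ℝ} (h : |t| ≤ k) : clampTo k t = t := by
  rw [abs_le] at h
  rw [clampTo, min_eq_right h.2, max_eq_right h.1]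

theorem abs_clampTo_le {k : ℝ} (hk : 0 ≤ k) (t : ℝ) : |clampTo k t| ≤ |t| := by
  have := abs_clampTo_sub_le k t 0
  rw [clampTo_eq_self (t := 0) (by simpa using hk)] at this
  simpa using this

/-- Clamping moves towards the datum. -/
theorem clampTo_closer {k a : ℝ} (ha : |a| ≤ k) (t : ℝ) :
    |clampTo k t - a| ≤ |t - a| ∧ (k < |t| → (clampTo k t - a) ^ 2 < (t - a) ^ 2) := by
  constructor
  · have := abs_clampTo_sub_le k t a
    rwa [clampTo_eq_self ha] at this
  · intro ht
    rw [abs_le] at ha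
    rcases lt_abs.1 ht with h | h
    · rw [clampTo, min_eq_left h.le, max_eq_right (by linarith)]
      nlinarith
    · rw [clampTo, min_eq_right (by linarith), max_eq_left (by linarith)]
      nlinarith

/-- A `C¹` saturation. -/
def satDeriv (k s : ℝ) : ℝ := max 0 (min 1 (2 - |s| / k))

/-- The identity on `[-k, k]`, with derivative in `[0, 1]`, bounded by `2 k`. -/
def satur (k t : ℝ) : ℝ := ∫ s in (0 : ℝ)..t, satDeriv k s

theorem continuous_satDeriv (k : ℝ) : Continuous (satDeriv k) :=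
  continuous_const.max (continuous_const.min (continuous_const.sub (continuous_abs.div_const k)))

theorem hasDerivAt_satur (k t : ℝ) : HasDerivAt (satur k) (satDeriv k t) t :=
  ((continuous_satDeriv k).integral_hasStrictDerivAt 0 t).hasDerivAt

theorem deriv_satur (k : ℝ) : deriv (satur k) = satDeriv k :=
  funext fun t => (hasDerivAt_satur k t).deriv

theorem contDiff_satur (k : ℝ) : ContDiff ℝ 1 (satur k) := by
  rw [contDiff_one_iff_deriv, deriv_satur]
  exact ⟨fun t => (hasDerivAt_satur k t).differentiableAt, continuous_satDeriv k⟩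

theorem satDeriv_mem (k s : ℝ) : 0 ≤ satDeriv k s ∧ satDeriv k s ≤ 1 :=
  ⟨le_max_left _ _, max_le zero_le_one (min_le_left _ _)⟩

theorem satur_eq_self {k t : ℝ} (hk : 0 < k) (ht : |t| ≤ k) : satur k t = t := by
  have h : ∀ s ∈ uIcc 0 t, satDeriv k s = 1 := fun s hs => by
    have h1 : |s| ≤ |t| := by
      have := abs_sub_left_of_mem_uIcc hs
      simpa using this
    have h2 : |s| / k ≤ 1 := by rw [div_le_one hk]; linarith
    rw [satDeriv, min_eq_left (by linarith), max_eq_right zero_le_one]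
  rw [satur, intervalIntegral.integral_congr h]
  simp

theorem abs_satur_le {k : ℝ} (hk : 0 < k) (t : ℝ) : |satur k t| ≤ 2 * k := by
  have hzero : ∀ s, 2 * k ≤ |s| → satDeriv k s = 0 := fun s hs => by
    have : 2 ≤ |s| / k := by rw [le_div_iff₀ hk]; linarith
    exact max_eq_left ((min_le_right _ _).trans (by linarith))
  set m := clampTo (2 * k) t with hm
  have hi : ∀ a b, IntervalIntegrable (satDeriv k) volume a b := fun a b =>
    (continuous_satDeriv k).intervalIntegrable a b
  have h0 : ∫ s in m..t, satDeriv k s = 0 := by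
    refine intervalIntegral.integral_zero_ae (Eventually.of_forall fun s hs => hzero s ?_)
    rw [hm, clampTo] at hs
    rcases le_total t (-(2 * k)) with h | h
    · rw [min_eq_right (by linarith), max_eq_left h] at hs
      rw [uIoc_of_ge h] at hs
      rw [abs_of_neg (by linarith [hs.2] : s < 0) |>.trans rfl]
      linarith [hs.2]
    rcases le_total (2 * k) t with h' | h'
    · rw [min_eq_left h', max_eq_right (by linarith)] at hs
      rw [uIoc_of_le h'] at hs
      exact hs.1.le.trans (le_abs_self s)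
    · rw [min_eq_right h', max_eq_right h] at hs
      simp at hs
  rw [satur, ← intervalIntegral.integral_add_adjacent_intervals (hi 0 m) (hi m t), h0, add_zero]
  have hle : |m| ≤ 2 * k := by
    rw [hm, clampTo, abs_le]
    exact ⟨le_max_left _ _, max_le (by linarith) (min_le_left _ _)⟩
  refine le_trans ?_ hle
  have := intervalIntegral.norm_integral_le_of_norm_le_const (a := (0 : ℝ)) (b := m) (C := 1)
    (f := satDeriv k) fun s _ => by
      rw [Real.norm_eq_abs, abs_of_nonneg (satDeriv_mem k s).1]; exact (satDeriv_mem k s).2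
  simpa using this

theorem injOn_circle (x : ℂ) {s : ℝ} (hs : 0 < s) : InjOn (circleMap x s) (Ioo (-π) π) := by
  intro a ha b hb hab
  obtain ⟨n, hn⟩ := (circleMap_eq_circleMap_iff x hs.ne').1 hab
  have hn' : a = b + n * (2 * π) := by
    have := congrArg Complex.im hn
    simpa using this
  have hn0 : n = 0 := by
    by_contra hne
    rcases Int.lt_or_gt_of_ne hne with h | h
    · have : (n : ℝ) ≤ -1 := by exact_mod_cast (show n ≤ -1 by omega)
      nlinarith [ha.1, hb.2, Real.pi_pos]
    · have : (1 : ℝ) ≤ n := by exact_mod_cast (show 1 ≤ n by omega)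
      nlinarith [ha.2, hb.1, Real.pi_pos]
  simp [hn', hn0]

/-- On a circle meeting `K` finitely often, with finite `∫ ‖∇v‖`, `v` is bounded. -/
theorem exists_circle_bound {O K : Set ℂ} {v : ℂ → ℝ} (hO : IsOpen O) (hv : ContDiffOn ℝ 1 v O)
    {x : ℂ} {s : ℝ} (hs : 0 < s) (hOK : ∀ y ∈ sphere x s, y ∉ K → y ∈ O)
    (hKfin : (K ∩ sphere x s).Finite)
    (hJ : ∫⁻ θ in Ioo (-π) π, ‖gradOf v (circleMap x s θ)‖ₑ < ⊤) :
    ∃ k : ℝ, ∀ y ∈ sphere x s, y ∉ K → |v y| ≤ k := by
  classical
  set J := (∫⁻ θ in Ioo (-π) π, ‖gradOf v (circleMap x s θ)‖ₑ).toReal with hJdef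
  set S : Set ℝ := {θ | θ ∈ Ioo (-π) π ∧ circleMap x s θ ∈ K} with hS
  have hSfin : S.Finite := by
    refine Set.Finite.of_finite_image (f := circleMap x s) (hKfin.subset ?_) ?_
    · rintro _ ⟨θ, hθ, rfl⟩
      exact ⟨hθ.2, circleMap_mem_sphere x hs.le θ⟩
    · exact (injOn_circle x hs).mono fun θ hθ => hθ.1
  have hp := Real.pi_pos
  set F : Finset ℝ := insert (-π) (insert π hSfin.toFinset) with hF
  set vals : Set ℝ := insert |v (circleMap x s π)| ((fun q : ℝ × ℝ =>
    |v (circleMap x s ((q.1 + q.2) / 2))|) '' ↑(F ×ˢ F)) with hvals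
  obtain ⟨k, hk⟩ := ((F ×ˢ F).finite_toSet.image _ |>.insert _ : vals.Finite).bddAbove
  have hJ0 : 0 ≤ J := ENNReal.toReal_nonneg
  refine ⟨k + s * J, fun y hy hyK => ?_⟩
  have : y ∈ circleMap x s '' Ioc (-π) (-π + 2 * π) := by
    rw [(periodic_circleMap x s).image_Ioc Real.two_pi_pos, range_circleMap, abs_of_pos hs]
    exact hy
  obtain ⟨θ, hθ, rfl⟩ := this
  rw [show -π + 2 * π = π by ring] at hθ
  rcases hθ.2.lt_or_eq with hθπ | rfl
  swap
  · have := hk (mem_insert _ _)
    nlinarith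
  have hne1 : (F.filter (· ≤ θ)).Nonempty :=
    ⟨-π, Finset.mem_filter.2 ⟨by simp [hF], hθ.1.le⟩⟩
  have hne2 : (F.filter (θ ≤ ·)).Nonempty :=
    ⟨π, Finset.mem_filter.2 ⟨by simp [hF], hθ.2⟩⟩
  set a := (F.filter (· ≤ θ)).max' hne1 with ha
  set b := (F.filter (θ ≤ ·)).min' hne2 with hb
  obtain ⟨haF, haθ⟩ := Finset.mem_filter.1 (Finset.max'_mem _ hne1)
  obtain ⟨hbF, hθb⟩ := Finset.mem_filter.1 (Finset.min'_mem _ hne2)
  rw [← ha] at haF haθ
  rw [← hb] at hbF hθb
  have hθS : θ ∉ F := by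
    simp only [hF, Finset.mem_insert, Finite.mem_toFinset, not_or]
    exact ⟨ne_of_gt hθ.1, hθπ.ne, fun h => hyK h.2⟩
  have haθ' : a < θ := lt_of_le_of_ne haθ fun h => hθS (h ▸ haF)
  have hθb' : θ < b := lt_of_le_of_ne hθb fun h => hθS (h ▸ hbF)
  have hfree : ∀ z ∈ Ioo a b, z ∉ F := fun z hz hzF => by
    rcases le_total z θ with h | h
    · exact absurd (Finset.le_max' _ z (Finset.mem_filter.2 ⟨hzF, h⟩)) (not_le.2 (ha ▸ hz.1))
    · exact absurd (Finset.min'_le _ z (Finset.mem_filter.2 ⟨hzF, h⟩)) (not_le.2 (hb ▸ hz.2))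
  have ha1 : -π ≤ a := by
    rw [ha]
    exact Finset.le_max' (F.filter (· ≤ θ)) (-π) (Finset.mem_filter.2 ⟨by simp [hF], hθ.1.le⟩)
  have hb1 : b ≤ π := Finset.min'_le _ _ (Finset.mem_filter.2 ⟨by simp [hF], hθ.2⟩)
  have hin : ∀ z ∈ Ioo a b, circleMap x s z ∈ O := fun z hz =>
    hOK _ (circleMap_mem_sphere x hs.le z) fun hzK => hfree z hz (by
      simp only [hF, Finset.mem_insert, Finite.mem_toFinset]
      exact Or.inr (Or.inr ⟨⟨ha1.trans_lt hz.1, hz.2.trans_le hb1⟩, hzK⟩))
  set m := (a + b) / 2 with hm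
  have hmab : m ∈ Ioo a b := ⟨by linarith [haθ', hθb'], by linarith [haθ', hθb']⟩
  have hsub : uIcc m θ ⊆ Ioo a b := fun z hz => by
    rw [mem_uIcc] at hz
    rcases hz with ⟨h1, h2⟩ | ⟨h1, h2⟩
    · exact ⟨hmab.1.trans_le h1, h2.trans_lt hθb'⟩
    · exact ⟨haθ'.trans_le h1, h2.trans_lt hmab.2⟩
  have hI : ∀ z ∈ uIcc m θ, circleMap x s z ∈ O := fun z hz => hin z (hsub hz)
  set D := fun z => ⟪gradOf v (circleMap x s z), circleMap 0 s z * Complex.I⟫ with hD
  have hcont : ContinuousOn D (uIcc m θ) :=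
    ((continuousOn_gradOf hO hv).comp (continuous_circleMap x s).continuousOn hI).inner
      ((continuous_circleMap 0 s).mul continuous_const).continuousOn
  have hint := intervalIntegral.integral_eq_sub_of_hasDerivAt
    (f := fun z => v (circleMap x s z)) (f' := D)
    (fun z hz => by
      have := (((hv.contDiffAt (hO.mem_nhds (hI z hz))).differentiableAt one_ne_zero).hasFDerivAt).comp_hasDerivAt
        z (hasDerivAt_circleMap x s z)
      simp only [hD, inner_gradOf]
      exact this)
    hcont.intervalIntegrable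
  have hosc : |v (circleMap x s θ) - v (circleMap x s m)| ≤ s * J := by
    rw [← hint, ← Real.norm_eq_abs, intervalIntegral.norm_intervalIntegral_eq,
      ← ENNReal.ofReal_le_ofReal_iff (by positivity), ofReal_norm]
    refine (enorm_integral_le_lintegral_enorm _).trans ?_
    have hle : ∀ z, ‖D z‖ₑ ≤ ENNReal.ofReal s * ‖gradOf v (circleMap x s z)‖ₑ := fun z => by
      rw [← ofReal_norm, ← ofReal_norm, ← ENNReal.ofReal_mul hs.le]
      refine ENNReal.ofReal_le_ofReal ((norm_inner_le_norm _ _).trans (le_of_eq ?_))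
      rw [norm_mul, Complex.norm_I, mul_one, norm_circleMap_zero, abs_of_pos hs, mul_comm]
    refine (lintegral_mono hle).trans ?_
    rw [lintegral_const_mul' _ _ ENNReal.ofReal_ne_top, ENNReal.ofReal_mul hs.le, hJdef,
      ENNReal.ofReal_toReal hJ.ne]
    gcongr
    intro z hz
    have := hsub (uIoc_subset_uIcc hz)
    exact ⟨ha1.trans_lt this.1, this.2.trans_le hb1⟩
  have hmid : |v (circleMap x s m)| ≤ k :=
    hk (mem_insert_of_mem _ ⟨(a, b), Finset.mem_coe.2 (Finset.mem_product.2 ⟨haF, hbF⟩), rfl⟩)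
  linarith [abs_sub_abs_le_abs_sub (v (circleMap x s θ)) (v (circleMap x s m))]

/-- The `C¹` representative near a disc. -/
theorem exists_repr (hg : MemLp g ⊤ (volume.restrict Ω)) (hΩ : IsOpen Ω) {P : Admissible Ω}
    (hmin : IsMinimizer Ω g P) {x : ℂ} {R₀ : ℝ} (hR₀ : 0 < R₀) (hsub : closedBall x R₀ ⊆ Ω) :
    ∃ v : ℂ → ℝ, ContDiffOn ℝ 1 v (ball x R₀ \ P.K) ∧
      v =ᵐ[volume.restrict (ball x R₀ \ P.K)] P.u ∧
      gradOf v =ᵐ[volume.restrict (ball x R₀ \ P.K)] P.G := by
  classical
  have hV : ball x R₀ ⊆ Ω := ball_subset_closedBall.trans hsub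
  set O := ball x R₀ \ P.K with hO
  have hOO : O = ball x R₀ ∩ (Ω \ P.K) := ext fun y =>
    ⟨fun hy => ⟨hy.1, hV hy.1, hy.2⟩, fun hy => ⟨hy.1, hy.2.2⟩⟩
  have hOopen : IsOpen O := hOO ▸ isOpen_ball.inter P.isOpen_compl
  have hOΩ : O ⊆ Ω := sdiff_subset.trans hV
  have hfinO : volume O ≠ ⊤ := ((measure_mono sdiff_subset).trans_lt measure_ball_lt_top).ne
  have : IsFiniteMeasure (volume.restrict O) := isFiniteMeasure_restrict.2 hfinO
  set F := O.indicator P.u with hFdef
  set H := O.indicator fun y => P.u y - g y with hHdef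
  have hu2 : MemLp P.u 2 (volume.restrict O) :=
    P.memL2.mono_measure (Measure.restrict_mono hOΩ le_rfl)
  have hf2 : MemLp (fun y => P.u y - g y) 2 (volume.restrict O) :=
    hu2.sub (memLp_datum hg hOΩ hfinO)
  have hF : Integrable F := (integrable_indicator_iff hOopen.measurableSet).2
    (hu2.integrable one_le_two)
  have hH : Integrable H := (integrable_indicator_iff hOopen.measurableSet).2
    (hf2.integrable one_le_two)
  have hH2 : Integrable fun y => H y ^ 2 := by
    have : (fun y => H y ^ 2) = O.indicator fun y => (P.u y - g y) ^ 2 := funext fun y => by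
      by_cases hy : y ∈ O <;> simp [hHdef, hy]
    rw [this, integrable_indicator_iff hOopen.measurableSet]
    exact (memLp_two_iff_integrable_sq hf2.1).1 hf2
  have hOsub : O ⊆ Ω \ P.K := Set.sdiff_subset_sdiff_left hV
  have hsobO := P.isSobolevOn.mono hOsub
  have heq : WeakPoisson O F H := by
    intro φ hφ hφc hφs
    have hφ1 : ContDiff ℝ ((⊤ : ℕ∞) : WithTop ℕ∞) φ := hφ
    have hd : ∀ e, ContDiff ℝ ((⊤ : ℕ∞) : WithTop ℕ∞) fun w => fderiv ℝ φ w e := fun e =>
      (hφ1.fderiv_right le_rfl).clm_apply contDiff_const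
    have hcs : ∀ e, HasCompactSupport fun w => fderiv ℝ φ w e := fun e => hφc.fderiv_apply ℝ e
    have hts : ∀ e, tsupport (fun w => fderiv ℝ φ w e) ⊆ O := fun e =>
      (tsupport_fderiv_apply_const_subset φ e).trans hφs
    have hw : ∀ e, ∫ z, P.u z * fderiv ℝ (fun w => fderiv ℝ φ w e) z e =
        -∫ z, ⟪P.G z, e⟫ * fderiv ℝ φ z e := fun e =>
      hsobO.2.2 _ (hd e) (hcs e) (hts e) e
    have hgc : Continuous (gradOf φ) := continuousOn_univ.1
      (continuousOn_gradOf isOpen_univ (hφ1.of_le (by simp)).contDiffOn)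
    have hgz : ∀ z ∉ tsupport φ, φ z = 0 ∧ gradOf φ z = 0 := fun z hz =>
      ⟨image_eq_zero_of_notMem_tsupport hz, by
        simp [gradOf, fderiv_of_notMem_tsupport ℝ hz, Complex.ext_iff]⟩
    obtain ⟨b, hb⟩ := hφ.continuous.bounded_above_of_compact_support hφc
    obtain ⟨bg, hbg⟩ := hφc.isCompact.exists_bound_of_continuousOn hgc.continuousOn
    have heu := hmin.euler hg hΩ.measurableSet hR₀ hsub (φ := φ) (Gφ := gradOf φ)
      (C := tsupport φ) ((isSobolevOn_of_contDiffOn isOpen_univ
        (hφ1.of_le (by simp)).contDiffOn).mono (subset_univ _))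
      hφc (hφs.trans sdiff_subset) hgz hb (by
        refine lt_of_le_of_lt (lintegral_mono_set sdiff_subset) (lt_of_le_of_lt
          (setLIntegral_mono' hφc.isCompact.measurableSet
            (g := fun _ => ENNReal.ofReal (bg ^ 2)) fun z hz => ?_) ?_)
        · rw [← ofReal_norm, ← ENNReal.ofReal_pow (norm_nonneg _)]
          exact ENNReal.ofReal_le_ofReal (pow_le_pow_left₀ (norm_nonneg _) (hbg z hz) 2)
        · rw [setLIntegral_const]
          exact ENNReal.mul_lt_top ENNReal.ofReal_lt_top hφc.isCompact.measure_lt_top)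
    have i1 : ∀ e, Integrable fun z => P.u z * fderiv ℝ (fun w => fderiv ℝ φ w e) z e := fun e =>
      integrable_mul_fderiv hsobO.1 (hd e) (hcs e) (hts e) e
    have i2 : ∀ e, Integrable fun z => ⟪P.G z, e⟫ * fderiv ℝ φ z e := fun e =>
      integrable_inner_mul_of_tsupport hsobO.2.1 (hd e).continuous (hcs e) (hts e) e
    have i3 : Integrable fun z => ⟪P.G z, gradOf φ z⟫ := by
      refine ((i2 1).add (i2 Complex.I)).congr (Eventually.of_forall fun z => ?_)
      simp [gradOf, Complex.inner]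
      ring
    have i4 : Integrable fun z => (P.u z - g z) * φ z := by
      have : LocallyIntegrableOn (fun z => P.u z - g z) O := by
        rw [locallyIntegrableOn_iff hOopen.isLocallyClosed]
        intro k hk _
        exact (hf2.integrable one_le_two).mono_measure (Measure.restrict_mono hk le_rfl)
      exact integrable_mul_of_tsupport this hφ.continuous hφc hφs
    rw [setIntegral_eq_integral_of_forall_compl_eq_zero (fun z hz => by
      have : z ∉ tsupport φ := fun h' => hz (hOsub (hφs h'))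
      simp [(hgz z this).1, (hgz z this).2]), integral_add i3 i4] at heu
    have hG : ∫ z, ⟪P.G z, gradOf φ z⟫ =
        (∫ z, ⟪P.G z, (1 : ℂ)⟫ * fderiv ℝ φ z 1) + ∫ z, ⟪P.G z, Complex.I⟫ * fderiv ℝ φ z Complex.I := by
      rw [← integral_add (i2 1) (i2 Complex.I)]
      refine integral_congr_ae (Eventually.of_forall fun z => ?_)
      simp [gradOf, Complex.inner]
      ring
    have hFl : ∫ z, F z * lap φ z = ∫ z, P.u z * lap φ z := by
      refine integral_congr_ae (Eventually.of_forall fun z => ?_)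
      by_cases hz : z ∈ O
      · simp [hFdef, hz]
      · simp [lap_eq_zero_of_notMem fun h' => hz (hφs h')]
    have hHl : ∫ z, H z * φ z = ∫ z, (P.u z - g z) * φ z := by
      refine integral_congr_ae (Eventually.of_forall fun z => ?_)
      by_cases hz : z ∈ O
      · simp [hHdef, hz]
      · simp [image_eq_zero_of_notMem_tsupport fun h' => hz (hφs h')]
    rw [hFl, hHl]
    simp only [lap, mul_add]
    rw [integral_add (i1 1) (i1 Complex.I), hw, hw]
    linarith
  set v := ptVal F with hvdef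
  have hae : v =ᵐ[volume.restrict O] P.u := by
    filter_upwards [ptVal_ae_eq hF hH2 heq hOopen, ae_restrict_mem hOopen.measurableSet] with y hy hyO
    rw [hvdef, hy, hFdef, indicator_of_mem hyO]
  have hc := continuousOn_ptVal hF hH2 heq hOopen
  have hb : ∀ a ∈ O, ∃ ε > 0, ∃ M : ℝ, ∀ᵐ y, y ∈ ball a ε → |H y| ≤ M := by
    intro a ha
    obtain ⟨ε, hε, hεO⟩ := Metric.nhds_basis_closedBall.mem_iff.1 (hOopen.mem_nhds ha)
    obtain ⟨B, hB⟩ := (isCompact_closedBall a ε).exists_bound_of_continuousOn (hc.mono hεO)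
    refine ⟨ε, hε, B + datumBound Ω g, ?_⟩
    have h1 := (ae_restrict_iff' hOopen.measurableSet).1 hae
    have h2 := (ae_restrict_iff' hΩ.measurableSet).1 (ae_abs_le_datumBound hg)
    filter_upwards [h1, h2] with y hy1 hy2 hy
    have hyc := ball_subset_closedBall hy
    have hyO := hεO hyc
    rw [hHdef, indicator_of_mem hyO, ← hy1 hyO]
    exact (abs_sub _ _).trans (add_le_add (hB y hyc) (hy2 (hOΩ hyO)))
  have hC1 := contDiffOn_ptVal hF hH hH2 heq hOopen hb
  exact ⟨v, hC1, hae, (isSobolevOn_of_contDiffOn hOopen hC1).grad_congr hOopen hsobO hae⟩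

/-- The representative is bounded in a smaller disc. -/
theorem exists_bound (hg : MemLp g ⊤ (volume.restrict Ω)) (hΩ : IsOpen Ω) {P : Admissible Ω}
    (hmin : IsMinimizer Ω g P) {x : ℂ} {R₀ : ℝ} (hR₀ : 0 < R₀) (hsub : closedBall x R₀ ⊆ Ω)
    {v : ℂ → ℝ} (hv : ContDiffOn ℝ 1 v (ball x R₀ \ P.K))
    (hvu : v =ᵐ[volume.restrict (ball x R₀ \ P.K)] P.u)
    (hvG : gradOf v =ᵐ[volume.restrict (ball x R₀ \ P.K)] P.G) :
    ∃ R k : ℝ, 0 < R ∧ R < R₀ ∧ 0 < k ∧ datumBound Ω g ≤ k ∧
      ∀ y ∈ ball x R \ P.K, |v y| ≤ k := by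
  classical
  have hV : ball x R₀ ⊆ Ω := ball_subset_closedBall.trans hsub
  set O := ball x R₀ \ P.K with hO
  have hOopen : IsOpen O := by
    have : O = ball x R₀ ∩ (Ω \ P.K) := ext fun y =>
      ⟨fun hy => ⟨hy.1, hV hy.1, hy.2⟩, fun hy => ⟨hy.1, hy.2.2⟩⟩
    rw [this]; exact isOpen_ball.inter P.isOpen_compl
  -- the energy on circles
  set f : ℂ → ℝ≥0∞ := O.indicator fun y => ‖gradOf v y‖ₑ ^ 2 with hf
  have hfm : Measurable f := by
    rw [hf, ← piecewise_eq_indicator]
    exact ContinuousOn.measurable_piecewise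
      ((ENNReal.continuous_pow 2).comp_continuousOn (continuousOn_gradOf hOopen hv).enorm)
      continuousOn_const hOopen.measurableSet
  set C := fun r : ℝ => ∫⁻ θ in Ioo (-π) π, f (circleMap x r θ) with hC
  have hCm : Measurable C := Measurable.lintegral_prod_right'
    (f := fun q : ℝ × ℝ => f (circleMap x q.1 q.2))
    (hfm.comp (continuous_circleMap_uncurry x).measurable)
  have hfin : ∫⁻ r in Ioo (0 : ℝ) R₀, ENNReal.ofReal r * C r ≠ ⊤ := by
    rw [← lintegral_ball_polar hfm.aemeasurable.restrict]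
    refine ne_top_of_le_ne_top (b := ∫⁻ y in O, ‖P.G y‖ₑ ^ 2) ?_ ?_
    · have hG := P.gradL2.mono_measure
        (Measure.restrict_mono (Set.sdiff_subset_sdiff_left hV) le_rfl : volume.restrict O ≤ _)
      have := ((memLp_two_iff_integrable_sq_norm hG.1).1 hG).2
      rw [hasFiniteIntegral_iff_enorm] at this
      simpa [enorm_pow] using this.ne
    · refine (setLIntegral_le_lintegral _ _).trans (le_of_eq ?_)
      rw [hf, lintegral_indicator hOopen.measurableSet]
      exact lintegral_congr_ae (hvG.mono fun y hy => by simp only [hy])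
  have hgood : ∀ᵐ r ∂volume.restrict (Ioo (R₀ / 2) R₀), ENNReal.ofReal r * C r < ⊤ :=
    ae_restrict_of_ae_restrict_of_subset (Ioo_subset_Ioo_left (by linarith))
      (ae_lt_top (ENNReal.measurable_ofReal.mul hCm) hfin)
  obtain ⟨s, ⟨hs1, hs2⟩, hsK, hsC⟩ : ∃ s ∈ Ioo (R₀ / 2) R₀,
      (P.K ∩ sphere x s).Finite ∧ C s ≠ ⊤ := by
    by_contra hno
    push Not at hno
    have hall : ∀ᵐ r ∂volume.restrict (Ioo (R₀ / 2) R₀),
        (⊤ : ℝ≥0∞) ≤ ((P.K ∩ {y | dist y x = r}).encard : ℝ≥0∞) := by
      filter_upwards [hgood, ae_restrict_mem measurableSet_Ioo] with r hr hrm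
      have hr0 : ENNReal.ofReal r ≠ 0 := by
        simpa using (half_pos hR₀).trans hrm.1
      by_cases hfinK : (P.K ∩ sphere x r).Finite
      · rw [hno r hrm hfinK, ENNReal.mul_top hr0] at hr
        exact absurd hr (lt_irrefl _)
      · have : (P.K ∩ {y | dist y x = r}).encard = ⊤ :=
          encard_eq_top_iff.2 (Set.not_finite.1 hfinK)
        rw [this]; simp
    have h1 := ((lintegral_mono_ae hall).trans (setLIntegral_le_lintegral _ _)).trans
      (eilenberg_dist x P.K)
    rw [setLIntegral_const, ENNReal.top_mul (by rw [Real.volume_Ioo]; simp; linarith)] at h1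
    exact absurd (h1.trans_lt P.finite) (lt_irrefl _)
  have hs : 0 < s := (half_pos hR₀).trans hs1
  have hsphere : ∀ y ∈ sphere x s, y ∉ P.K → y ∈ O := fun y hy hyK =>
    ⟨by rw [mem_ball, mem_sphere.1 hy]; exact hs2, hyK⟩
  have hL1 : ∫⁻ θ in Ioo (-π) π, ‖gradOf v (circleMap x s θ)‖ₑ < ⊤ := by
    have hne : ∀ᵐ θ ∂volume.restrict (Ioo (-π) π), circleMap x s θ ∈ O := by
      have hz : volume ({θ | circleMap x s θ ∈ P.K} ∩ Ioo (-π) π) = 0 := by
        refine Set.Finite.measure_zero (Set.Finite.of_finite_image (f := circleMap x s)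
          (hsK.subset ?_) ?_) _
        · rintro _ ⟨θ, hθ, rfl⟩
          exact ⟨hθ.1, circleMap_mem_sphere x hs.le θ⟩
        · exact (injOn_circle x hs).mono fun θ hθ => hθ.2
      rw [ae_restrict_iff' measurableSet_Ioo, ae_iff]
      refine measure_mono_null (fun θ hθ => ?_) hz
      simp only [mem_ofPred_eq, Classical.not_imp] at hθ
      exact ⟨by_contra fun h => hθ.2 (hsphere _ (circleMap_mem_sphere x hs.le θ) h), hθ.1⟩
    calc ∫⁻ θ in Ioo (-π) π, ‖gradOf v (circleMap x s θ)‖ₑ
        ≤ ∫⁻ θ in Ioo (-π) π, (1 + f (circleMap x s θ)) := by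
          refine lintegral_mono_ae (hne.mono fun θ hθ => ?_)
          rw [hf, indicator_of_mem hθ]
          rcases le_total ‖gradOf v (circleMap x s θ)‖ₑ 1 with h | h
          · exact h.trans le_self_add
          · exact (le_self_pow h two_ne_zero).trans le_add_self
      _ < ⊤ := by
          rw [lintegral_add_left measurable_const, setLIntegral_const]
          exact ENNReal.add_lt_top.2 ⟨ENNReal.mul_lt_top ENNReal.one_lt_top
            (by rw [Real.volume_Ioo]; exact ENNReal.ofReal_lt_top), lt_top_iff_ne_top.2 hsC⟩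
  obtain ⟨k₀, hk₀⟩ := exists_circle_bound hOopen hv hs hsphere hsK hL1
  set k := max (|k₀| + 1) (datumBound Ω g) with hk
  have hk0 : 0 < k := lt_of_lt_of_le (by positivity) (le_max_left _ _)
  have hkd : datumBound Ω g ≤ k := le_max_right _ _
  refine ⟨s, k, hs, hs2, hk0, hkd, ?_⟩
  have hBO : ∀ y ∈ ball x s \ P.K, y ∈ O := fun y hy => ⟨ball_subset_ball hs2.le hy.1, hy.2⟩
  -- the truncated competitor
  set w : ℂ → ℝ := fun y => if y ∈ ball x s then clampTo k (v y) else v y with hw
  have hlipv : ∀ y ∈ O, ∃ c : ℝ≥0, ∃ T ∈ 𝓝 y, LipschitzOnWith c v T := fun y hy =>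
    (hv.contDiffAt (hOopen.mem_nhds hy)).exists_lipschitzOnWith
  have hwv : ∀ y ∈ O, y ∉ ball x s → w =ᶠ[𝓝 y] v := by
    intro y hy hys
    by_cases hsp : y ∈ sphere x s
    · have h1 : |v y| < k := lt_of_lt_of_le (lt_of_le_of_lt ((hk₀ y hsp hy.2).trans (le_abs_self k₀))
        (lt_add_one _)) (le_max_left _ _)
      filter_upwards [(hv.continuousOn.continuousAt (hOopen.mem_nhds hy)).abs.eventually_lt_const h1]
        with z hz
      simp only [hw]
      split_ifs
      · exact clampTo_eq_self hz.le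
      · rfl
    · have : y ∉ closedBall x s := fun h => by
        rcases (mem_closedBall.1 h).lt_or_eq with h' | h'
        exacts [hys h', hsp h']
      filter_upwards [isClosed_closedBall.isOpen_compl.mem_nhds this] with z hz
      simp only [hw]
      rw [if_neg fun h => hz (ball_subset_closedBall h)]
  have hwLL : LocallyLipschitzOn O w := by
    intro y hy
    obtain ⟨c, T, hT, hc⟩ := hlipv y hy
    by_cases hys : y ∈ ball x s
    · refine ⟨c, T ∩ ball x s, mem_nhdsWithin_of_mem_nhds (inter_mem hT (isOpen_ball.mem_nhds hys)),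
        LipschitzOnWith.of_dist_le_mul fun a ha b hb => ?_⟩
      simp only [hw, if_pos ha.2, if_pos hb.2, Real.dist_eq]
      exact (abs_clampTo_sub_le _ _ _).trans (hc.dist_le_mul a ha.1 b hb.1)
    · obtain ⟨T', hT', hTeq⟩ := (hwv y hy hys).exists_mem
      refine ⟨c, T ∩ T', mem_nhdsWithin_of_mem_nhds (inter_mem hT hT'),
        LipschitzOnWith.of_dist_le_mul fun a ha b hb => ?_⟩
      rw [hTeq ha.2, hTeq hb.2]
      exact hc.dist_le_mul a ha.1 b hb.1
  have hgradle : ∀ y ∈ O, ‖gradOf w y‖ ≤ ‖gradOf v y‖ := by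
    intro y hy
    have hdv := ((hv.contDiffAt (hOopen.mem_nhds hy)).differentiableAt one_ne_zero).hasFDerivAt
    rw [← innerSL_apply_norm (𝕜 := ℝ) (gradOf w y), ← innerSL_apply_norm (𝕜 := ℝ) (gradOf v y),
      innerSL_gradOf, innerSL_gradOf]
    by_cases hd : DifferentiableAt ℝ w y
    swap
    · simp [fderiv_zero_of_not_differentiableAt hd]
    by_cases hys : y ∈ ball x s
    · refine le_of_forall_pos_le_add fun ε hε => ?_
      refine hd.hasFDerivAt.le_of_lip' (by positivity) ?_
      filter_upwards [isOpen_ball.mem_nhds hys, hdv.isLittleO.def hε] with z hz hzl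
      simp only [hw, if_pos hz, if_pos hys, Real.norm_eq_abs]
      refine (abs_clampTo_sub_le _ _ _).trans ?_
      calc |v z - v y| = ‖(v z - v y - fderiv ℝ v y (z - y)) + fderiv ℝ v y (z - y)‖ := by
            rw [sub_add_cancel, Real.norm_eq_abs]
        _ ≤ ε * ‖z - y‖ + ‖fderiv ℝ v y‖ * ‖z - y‖ :=
            (norm_add_le _ _).trans (add_le_add hzl ((fderiv ℝ v y).le_opNorm _))
        _ = _ := by ring
    · rw [(hwv y hy hys).fderiv_eq]
  set O2 := (Ω \ P.K) \ closedBall x s with hO2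
  have hO2open : IsOpen O2 := P.isOpen_compl.sdiff isClosed_closedBall
  set Qu : ℂ → ℝ := fun y => if y ∈ ball x s then w y else P.u y with hQu
  set QG : ℂ → ℂ := fun y => if y ∈ ball x s then gradOf w y else P.G y with hQG
  have hcover : Ω \ P.K = O ∪ O2 := by
    refine Subset.antisymm (fun y hy => ?_) (union_subset
      (Set.sdiff_subset_sdiff_left hV) sdiff_subset)
    by_cases hys : y ∈ closedBall x s
    · exact Or.inl ⟨closedBall_subset_ball hs2 hys, hy.2⟩
    · exact Or.inr ⟨hy, hys⟩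
  have hsob : IsSobolevOn (Ω \ P.K) Qu QG := by
    rw [hcover]
    refine IsSobolevOn.union hOopen hO2open ?_ ?_
    · refine (isSobolevOn_of_locallyLipschitzOn hOopen hwLL).congr hOopen.measurableSet ?_ ?_
      · filter_upwards [hvu] with y hy
        simp only [hQu]
        split_ifs with hys
        · rfl
        · simp only [hw, if_neg hys]; exact hy
      · filter_upwards [hvG, ae_restrict_mem hOopen.measurableSet] with y hy hyO
        simp only [hQG]
        split_ifs with hys
        · rfl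
        · rw [← hy]
          simp only [gradOf, (hwv y hyO hys).fderiv_eq]
    · refine (P.isSobolevOn.mono sdiff_subset).congr hO2open.measurableSet ?_ ?_ <;>
        filter_upwards [ae_restrict_mem hO2open.measurableSet] with y hy
      · simp only [hQu, if_neg fun h => hy.2 (ball_subset_closedBall h)]
      · simp only [hQG, if_neg fun h => hy.2 (ball_subset_closedBall h)]
  have hΩeq : volume.restrict (Ω \ P.K) = volume.restrict Ω :=
    Measure.restrict_congr_set (P.sdiff_ae Ω)
  have hvu' : ∀ᵐ y ∂volume.restrict (Ω \ P.K), y ∈ ball x s → v y = P.u y := by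
    rw [ae_restrict_iff' P.isOpen_compl.measurableSet]
    filter_upwards [(ae_restrict_iff' hOopen.measurableSet).1 hvu] with y hy hyK hys
    exact hy (hBO y ⟨hys, hyK.2⟩)
  have hvG' : ∀ᵐ y ∂volume.restrict (Ω \ P.K), y ∈ ball x s → gradOf v y = P.G y := by
    rw [ae_restrict_iff' P.isOpen_compl.measurableSet]
    filter_upwards [(ae_restrict_iff' hOopen.measurableSet).1 hvG] with y hy hyK hys
    exact hy (hBO y ⟨hys, hyK.2⟩)
  let Q : Admissible Ω :=
    { K := P.K
      u := Qu
      G := QG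
      subset := P.subset
      isOpen_compl := P.isOpen_compl
      finite := P.finite
      memL2 := by
        refine P.memL2.mono (hΩeq ▸ hsob.1.aestronglyMeasurable) ?_
        rw [← hΩeq]
        filter_upwards [hvu'] with y hy
        simp only [hQu, Real.norm_eq_abs]
        split_ifs with hys
        · simp only [hw, if_pos hys]
          rw [← hy hys]
          exact abs_clampTo_le hk0.le _
        · exact le_rfl
      gradL2 := by
        refine P.gradL2.mono hsob.2.1.aestronglyMeasurable ?_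
        filter_upwards [hvG', ae_restrict_mem P.isOpen_compl.measurableSet] with y hy hyK
        simp only [hQG]
        split_ifs with hys
        · rw [← hy hys]
          exact hgradle y (hBO y ⟨hys, hyK.2⟩)
        · exact le_rfl
      weakGrad := hsob.2.2 }
  have hle := hmin.integral_le hg hR₀ hsub (Q := Q) rfl (isCompact_closedBall x s)
    (closedBall_subset_ball hs2) (by
      filter_upwards [ae_restrict_mem (hΩ.measurableSet.diff measurableSet_closedBall)] with y hy
      simp only [Q, hQu, if_neg fun h => hy.2 (ball_subset_closedBall h)])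
  have hiP := integrableOn_msDens hg P hV measure_ball_lt_top.ne
  have hiQ : IntegrableOn (msDens g Q) O := integrableOn_msDens hg Q hV measure_ball_lt_top.ne
  have hdatum : ∀ᵐ y ∂volume.restrict O, |g y| ≤ k :=
    (ae_restrict_of_ae_restrict_of_subset (sdiff_subset.trans hV)
      (ae_abs_le_datumBound hg)).mono fun y hy => hy.trans hkd
  have hpt : ∀ᵐ y ∂volume.restrict O, msDens g Q y ≤ msDens g P y ∧
      (y ∈ ball x s → k < |v y| → msDens g Q y < msDens g P y) := by
    filter_upwards [hdatum, hvu, hvG, ae_restrict_mem hOopen.measurableSet] with y hgy hu hG hyO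
    simp only [msDens, Q, hQu, hQG]
    split_ifs with hys
    · simp only [hw, if_pos hys]
      rw [← hu, ← hG]
      obtain ⟨h1, h2⟩ := clampTo_closer hgy (v y)
      have h3 := hgradle y hyO
      have h4 : ‖gradOf w y‖ ^ 2 ≤ ‖gradOf v y‖ ^ 2 := pow_le_pow_left₀ (norm_nonneg _) h3 2
      have h5 : (clampTo k (v y) - g y) ^ 2 ≤ (v y - g y) ^ 2 := sq_le_sq.2 h1
      exact ⟨add_le_add h4 h5, fun _ hk' => add_lt_add_of_le_of_lt h4 (h2 hk')⟩
    · exact ⟨le_rfl, fun h => absurd h hys⟩
  have hzero : ∫ y in O, (msDens g P y - msDens g Q y) = 0 := by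
    refine le_antisymm ?_ (integral_nonneg_of_ae (hpt.mono fun y hy => sub_nonneg.2 hy.1))
    rw [integral_sub hiP hiQ]
    exact sub_nonpos.2 hle
  have heq0 := (integral_eq_zero_iff_of_nonneg_ae
    (hpt.mono fun y hy => sub_nonneg.2 hy.1) (hiP.sub hiQ)).1 hzero
  intro y hy
  by_contra hgt
  push Not at hgt
  set T := (ball x s ∩ O) ∩ (fun z => |v z|) ⁻¹' Ioi k
  have hTopen : IsOpen T :=
    ((hv.continuousOn.abs).mono inter_subset_right).isOpen_inter_preimage
      (isOpen_ball.inter hOopen) isOpen_Ioi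
  have hT0 : volume T = 0 := by
    have h := (ae_restrict_iff' hOopen.measurableSet).1 (hpt.and heq0)
    rw [ae_iff] at h
    refine measure_mono_null (fun z hz => ?_) h
    simp only [mem_ofPred_eq, Classical.not_imp]
    refine ⟨hz.1.2, fun hh => ?_⟩
    have h1 := hh.1.2 hz.1.1 hz.2
    have h2 := hh.2
    simp only [Pi.zero_apply] at h2
    linarith
  exact (hTopen.measure_pos volume ⟨y, ⟨hy.1, hBO y hy⟩, hgt⟩).ne' hT0

/-- Competitors: truncate, then compare. -/
theorem almostMin_of_bound (hg : MemLp g ⊤ (volume.restrict Ω)) (hΩ : IsOpen Ω) {P : Admissible Ω}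
    (hmin : IsMinimizer Ω g P) {x : ℂ} {R₀ R k : ℝ} (hR₀ : 0 < R₀) (hR : R < R₀)
    (hsub : closedBall x R₀ ⊆ Ω) (hk : 0 < k) {v : ℂ → ℝ}
    (hvu : v =ᵐ[volume.restrict (ball x R₀ \ P.K)] P.u)
    (hvG : gradOf v =ᵐ[volume.restrict (ball x R₀ \ P.K)] P.G)
    (hbd : ∀ y ∈ ball x R \ P.K, |v y| ≤ k) {z : ℂ} {t : ℝ} (ht : 0 < t)
    (hzt : closedBall z t ⊆ ball x R) {L : Set ℂ} {w : ℂ → ℝ} {Gw : ℂ → ℂ} (hLU : L ⊆ ball x R)
    (hLopen : IsOpen (ball x R \ L))
    (hLK : L \ closedBall z t = (P.K ∩ ball x R) \ closedBall z t)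
    (hsob : IsSobolevOn (ball x R \ L) w Gw)
    (hout : ∀ᵐ y ∂volume.restrict (ball x R \ closedBall z t), w y = v y) :
    weakEnergy (P.K ∩ ball x R) (gradOf v) (closedBall z t) ≤
      weakEnergy L Gw (closedBall z t) +
        ENNReal.ofReal (π * (2 * k + datumBound Ω g) ^ 2 * t ^ 2) := by
  classical
  set D := closedBall z t with hD
  set U := ball x R with hU
  have hUΩ : U ⊆ Ω := ((ball_subset_ball hR.le).trans ball_subset_closedBall).trans hsub
  have hDm : MeasurableSet D := measurableSet_closedBall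
  rcases eq_or_ne (weakEnergy L Gw D) ⊤ with htop | htop
  · rw [htop, top_add]; exact le_top
  obtain ⟨hG', hH'⟩ := ENNReal.add_ne_top.1 (show
    (∫⁻ y in D \ L, ‖Gw y‖ₑ ^ 2) + μH[1] (L ∩ D) ≠ ⊤ from htop)
  set K' := (P.K \ U) ∪ L with hK'
  have hK'out : ∀ y ∉ D, y ∈ K' ↔ y ∈ P.K := by
    intro y hy
    constructor
    · rintro (h | h)
      · exact h.1
      · have : y ∈ L \ D := ⟨h, hy⟩
        rw [hLK] at this
        exact this.1.1
    · intro h
      by_cases hyU : y ∈ U
      · have : y ∈ (P.K ∩ U) \ D := ⟨⟨h, hyU⟩, hy⟩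
        rw [← hLK] at this
        exact Or.inr this.1
      · exact Or.inl ⟨h, hyU⟩
  have hK'D : ∀ y ∈ D, y ∈ K' ↔ y ∈ L := fun y hy =>
    ⟨fun h => h.elim (fun h' => absurd (hzt hy) h'.2) id, Or.inr⟩
  have hcover : Ω \ K' = (U \ L) ∪ ((Ω \ P.K) \ D) := by
    ext y
    by_cases hy : y ∈ D
    · simp [Set.mem_sdiff, hK'D y hy, hy, hzt hy, hUΩ (hzt hy)]
    · simp only [Set.mem_sdiff, hK'out y hy, mem_union, hy, not_false_eq_true, and_true]
      constructor
      · exact Or.inr
      · rintro (⟨hyU, hyL⟩ | h)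
        · exact ⟨hUΩ hyU, fun hK => hyL (((hK'out y hy).2 hK).resolve_left fun h' => h'.2 hyU)⟩
        · exact h
  have hO2 : IsOpen ((Ω \ P.K) \ D) := P.isOpen_compl.sdiff isClosed_closedBall
  have hopen : IsOpen (Ω \ K') := hcover ▸ hLopen.union hO2
  have hfinK : μH[1] K' < ⊤ := by
    have : K' ⊆ P.K ∪ (L ∩ D) := fun y hy => by
      by_cases hyD : y ∈ D
      · exact Or.inr ⟨(hK'D y hyD).1 hy, hyD⟩
      · exact Or.inl ((hK'out y hyD).1 hy)
    exact (measure_mono this).trans_lt ((measure_union_le _ _).trans_lt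
      (ENNReal.add_lt_top.2 ⟨P.finite, lt_top_iff_ne_top.2 hH'⟩))
  set Qu : ℂ → ℝ := fun y => if y ∈ D then satur k (w y) else P.u y with hQu
  set QG : ℂ → ℂ := fun y => if y ∈ D then satDeriv k (w y) • Gw y else P.G y with hQG
  have hsat := IsSobolevOn.comp hLopen hsob (contDiff_satur k) fun s => by
    rw [deriv_satur, abs_of_nonneg (satDeriv_mem k s).1]; exact (satDeriv_mem k s).2
  simp only [deriv_satur] at hsat
  have hULD : (U \ L) \ D ⊆ ball x R₀ \ P.K := fun y hy => ⟨ball_subset_ball hR.le hy.1.1, fun hK =>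
    hy.1.2 (((hK'out y hy.2).2 hK).resolve_left fun h' => h'.2 hy.1.1)⟩
  have hWopen : IsOpen ((U \ L) \ D) := hLopen.sdiff isClosed_closedBall
  have hWu : (fun y => satur k (w y)) =ᵐ[volume.restrict ((U \ L) \ D)] P.u := by
    filter_upwards [ae_restrict_mem hWopen.measurableSet,
      ae_restrict_of_ae_restrict_of_subset (Set.sdiff_subset_sdiff_left sdiff_subset) hout,
      ae_restrict_of_ae_restrict_of_subset hULD hvu] with y hy h1 h2
    rw [h1, satur_eq_self hk (hbd y ⟨hy.1.1, (hULD hy).2⟩), h2]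
  have hWG : (fun y => satDeriv k (w y) • Gw y) =ᵐ[volume.restrict ((U \ L) \ D)] P.G :=
    (hsat.mono sdiff_subset).grad_congr hWopen
      (P.isSobolevOn.mono (hULD.trans (Set.sdiff_subset_sdiff_left
        (ball_subset_closedBall.trans hsub)))) hWu
  have hQsob : IsSobolevOn (Ω \ K') Qu QG := by
    rw [hcover]
    refine IsSobolevOn.union hLopen hO2 ?_ ?_
    · refine hsat.congr hLopen.measurableSet ?_ ?_
      · rw [EventuallyEq, ae_restrict_iff' hLopen.measurableSet]
        filter_upwards [(ae_restrict_iff' hWopen.measurableSet).1 hWu] with y hy hyL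
        simp only [hQu]
        split_ifs with hyD
        · rfl
        · exact hy ⟨hyL, hyD⟩
      · rw [EventuallyEq, ae_restrict_iff' hLopen.measurableSet]
        filter_upwards [(ae_restrict_iff' hWopen.measurableSet).1 hWG] with y hy hyL
        simp only [hQG]
        split_ifs with hyD
        · rfl
        · exact hy ⟨hyL, hyD⟩
    · refine (P.isSobolevOn.mono sdiff_subset).congr hO2.measurableSet ?_ ?_ <;>
        filter_upwards [ae_restrict_mem hO2.measurableSet] with y hy
      · simp only [hQu, if_neg hy.2]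
      · simp only [hQG, if_neg hy.2]
  have hK'0 : volume K' = 0 := volume_eq_zero_of_hausdorff_one_lt_top hfinK
  have hΩeq : volume.restrict (Ω \ K') = volume.restrict Ω :=
    Measure.restrict_congr_set (sdiff_null_ae_eq_self hK'0)
  let Q : Admissible Ω :=
    { K := K'
      u := Qu
      G := QG
      subset := union_subset (sdiff_subset.trans P.subset) (hLU.trans hUΩ)
      isOpen_compl := hopen
      finite := hfinK
      memL2 := by
        have h1 : MemLp (fun y => |P.u y| + D.indicator (fun _ => 2 * k) y) 2 (volume.restrict Ω) := by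
          refine P.memL2.abs.add ?_
          rw [memLp_indicator_iff_restrict hDm, Measure.restrict_restrict hDm]
          have : IsFiniteMeasure (volume.restrict (D ∩ Ω)) := isFiniteMeasure_restrict.2
            ((measure_mono inter_subset_left).trans_lt measure_closedBall_lt_top).ne
          exact memLp_const _
        refine h1.mono (hΩeq ▸ hQsob.1.aestronglyMeasurable) (Eventually.of_forall fun y => ?_)
        simp only [hQu, Real.norm_eq_abs]
        split_ifs with hy
        · rw [indicator_of_mem hy, abs_of_nonneg (by positivity : 0 ≤ |P.u y| + 2 * k)]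
          exact (abs_satur_le hk _).trans (le_add_of_nonneg_left (abs_nonneg _))
        · simp [indicator_of_notMem hy]
      gradL2 := by
        rw [memLp_two_iff_integrable_sq_norm hQsob.2.1.aestronglyMeasurable]
        refine ⟨hQsob.2.1.aestronglyMeasurable.norm.pow 2, ?_⟩
        rw [hasFiniteIntegral_iff_enorm]
        simp only [enorm_pow, enorm_norm]
        have hun : Ω \ K' ⊆ (D \ L) ∪ ((Ω \ P.K) \ D) := fun y hy => by
          by_cases hyD : y ∈ D
          · exact Or.inl ⟨hyD, fun h => hy.2 ((hK'D y hyD).2 h)⟩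
          · exact Or.inr ⟨⟨hy.1, fun h => hy.2 ((hK'out y hyD).2 h)⟩, hyD⟩
        refine lt_of_le_of_lt ((lintegral_mono_set hun).trans (lintegral_union_le _ _ _))
          (ENNReal.add_lt_top.2 ⟨?_, ?_⟩)
        · refine lt_of_le_of_lt (setLIntegral_mono' ?_ fun y hy => ?_) (lt_top_iff_ne_top.2 hG')
          · have : D \ L = D ∩ (U \ L) := ext fun y =>
              ⟨fun hy => ⟨hy.1, hzt hy.1, hy.2⟩, fun hy => ⟨hy.1, hy.2.2⟩⟩
            rw [this]; exact hDm.inter hLopen.measurableSet
          · simp only [hQG, if_pos hy.1]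
            rw [← ofReal_norm, ← ofReal_norm, norm_smul, Real.norm_eq_abs]
            gcongr
            exact mul_le_of_le_one_left (norm_nonneg _) (by
              rw [abs_of_nonneg (satDeriv_mem k _).1]; exact (satDeriv_mem k _).2)
        · have hG := ((memLp_two_iff_integrable_sq_norm P.gradL2.1).1 P.gradL2).2
          rw [hasFiniteIntegral_iff_enorm] at hG
          simp only [enorm_pow, enorm_norm] at hG
          refine lt_of_le_of_lt (le_of_eq (setLIntegral_congr_fun hO2.measurableSet fun y hy => ?_))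
            (lt_of_le_of_lt (lintegral_mono_set sdiff_subset) hG)
          simp only [hQG, if_neg hy.2]
      weakGrad := hQsob.2.2 }
  -- minimality in the big disc
  set V := ball x R₀ with hV'
  have hV : V ⊆ Ω := ball_subset_closedBall.trans hsub
  have hDV : D ⊆ V := hzt.trans (ball_subset_ball hR.le)
  have hVfin : volume V ≠ ⊤ := measure_ball_lt_top.ne
  have hmem : ∀ y ∉ D, y ∈ Q.K ↔ y ∈ P.K := hK'out
  have hsd : symmDiff Q.K P.K ⊆ D := by
    intro y hy
    by_contra hyD
    rw [mem_symmDiff, hmem y hyD] at hy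
    tauto
  have hmin' := hmin V isOpen_ball (by rw [closure_ball x hR₀.ne']; exact isCompact_closedBall x R₀)
    (by rw [closure_ball x hR₀.ne']; exact hsub) Q ⟨D, isCompact_closedBall z t, hDV, hsd, by
      filter_upwards [ae_restrict_mem (hΩ.measurableSet.diff hDm)] with y hy
      simp only [Q, hQu, if_neg hy.2]⟩
  -- split at the small disc
  have hsplit : ∀ (N : Admissible Ω), (∀ y ∉ D, y ∈ N.K ↔ y ∈ P.K) →
      (∀ y ∉ D, N.u y = P.u y ∧ N.G y = P.G y) →
      msEnergy g N V = msEnergy g N D + (msEnergy g P (V \ D)) := by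
    intro N hNK hN
    have e1 : (V \ N.K) ∩ D = D \ N.K := ext fun y =>
      ⟨fun h => ⟨h.2, h.1.2⟩, fun h => ⟨⟨hDV h.1, h.2⟩, h.1⟩⟩
    have e2 : (V \ N.K) \ D = (V \ D) \ P.K := ext fun y =>
      ⟨fun h => ⟨⟨h.1.1, h.2⟩, fun hK => h.1.2 ((hNK y h.2).2 hK)⟩,
        fun h => ⟨⟨h.1.1, fun hK => h.2 ((hNK y h.1.2).1 hK)⟩, h.1.2⟩⟩
    have e3 : (N.K ∩ V) ∩ D = N.K ∩ D := ext fun y =>
      ⟨fun h => ⟨h.1.1, h.2⟩, fun h => ⟨⟨h.1, hDV h.2⟩, h.2⟩⟩
    have e4 : (N.K ∩ V) \ D = P.K ∩ (V \ D) := ext fun y =>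
      ⟨fun h => ⟨(hNK y h.2).1 h.1.1, h.1.2, h.2⟩,
        fun h => ⟨⟨(hNK y h.2.2).2 h.1, h.2.1⟩, h.2.2⟩⟩
    have hm2 : MeasurableSet ((V \ D) \ P.K) := by
      have : (V \ D) \ P.K = (V \ D) ∩ (Ω \ P.K) := ext fun y =>
        ⟨fun hy => ⟨hy.1, hV hy.1.1, hy.2⟩, fun hy => ⟨hy.1, hy.2.2⟩⟩
      rw [this]; exact (measurableSet_ball.diff hDm).inter P.isOpen_compl.measurableSet
    simp only [msEnergy, weakEnergy]
    rw [← lintegral_inter_add_sdiff (μ := volume) (fun y => ‖N.G y‖ₑ ^ 2) (V \ N.K) hDm,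
      ← measure_inter_add_sdiff (μ := μH[1]) (N.K ∩ V) hDm,
      ← lintegral_inter_add_sdiff (μ := volume) (fun y => ‖N.u y - g y‖ₑ ^ 2) V hDm,
      inter_eq_self_of_subset_right hDV, e1, e2, e3, e4,
      setLIntegral_congr_fun hm2 (f := fun y => ‖N.G y‖ₑ ^ 2) (g := fun y => ‖P.G y‖ₑ ^ 2)
        fun y hy => by simp only [(hN y hy.1.2).2],
      setLIntegral_congr_fun (measurableSet_ball.diff hDm) (f := fun y => ‖N.u y - g y‖ₑ ^ 2)
        (g := fun y => ‖P.u y - g y‖ₑ ^ 2) fun y hy => by simp only [(hN y hy.2).1]]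
    ring
  have hPfin : msEnergy g P (V \ D) ≠ ⊤ := by
    refine ne_top_of_le_ne_top (b := msEnergy g P V) ?_ ?_
    · rw [msEnergy_eq hg P hV hVfin]
      exact ENNReal.add_ne_top.2 ⟨ENNReal.ofReal_ne_top,
        ((measure_mono inter_subset_left).trans_lt P.finite).ne⟩
    · rw [hsplit P (fun _ _ => Iff.rfl) (fun _ _ => ⟨rfl, rfl⟩)]
      exact le_add_self
  rw [hsplit P (fun _ _ => Iff.rfl) (fun _ _ => ⟨rfl, rfl⟩), hsplit Q hmem (fun y hy => by
    simp only [Q, hQu, hQG, if_neg hy, and_self]), ENNReal.add_le_add_iff_right hPfin] at hmin'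
  -- rewrite both sides
  have hL : weakEnergy (P.K ∩ U) (gradOf v) D = weakEnergy P.K P.G D := by
    have e : (P.K ∩ U) ∩ D = P.K ∩ D := ext fun y =>
      ⟨fun h => ⟨h.1.1, h.2⟩, fun h => ⟨⟨h.1, hzt h.2⟩, h.2⟩⟩
    have e' : D \ (P.K ∩ U) = D \ P.K := ext fun y =>
      ⟨fun h => ⟨h.1, fun hK => h.2 ⟨hK, hzt h.1⟩⟩, fun h => ⟨h.1, fun hK => h.2 hK.1⟩⟩
    rw [weakEnergy, weakEnergy, e, e']
    congr 1
    refine lintegral_congr_ae ?_
    filter_upwards [ae_restrict_of_ae_restrict_of_subset (Set.sdiff_subset_sdiff_left hDV) hvG]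
      with y hy
    simp only [hy]
  rw [hL]
  have hR1 : weakEnergy K' QG D ≤ weakEnergy L Gw D := by
    have e : D \ K' = D \ L := ext fun y => ⟨fun h => ⟨h.1, fun h' => h.2 ((hK'D y h.1).2 h')⟩,
      fun h => ⟨h.1, fun h' => h.2 ((hK'D y h.1).1 h')⟩⟩
    have e' : K' ∩ D = L ∩ D := ext fun y => ⟨fun h => ⟨(hK'D y h.2).1 h.1, h.2⟩,
      fun h => ⟨(hK'D y h.2).2 h.1, h.2⟩⟩
    rw [weakEnergy, weakEnergy, e, e']
    refine add_le_add (setLIntegral_mono' ?_ fun y hy => ?_) le_rfl
    · have : D \ L = D ∩ (U \ L) := ext fun y =>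
        ⟨fun hy => ⟨hy.1, hzt hy.1, hy.2⟩, fun hy => ⟨hy.1, hy.2.2⟩⟩
      rw [this]; exact hDm.inter hLopen.measurableSet
    · simp only [hQG, if_pos hy.1]
      rw [← ofReal_norm, ← ofReal_norm, norm_smul, Real.norm_eq_abs]
      gcongr
      exact mul_le_of_le_one_left (norm_nonneg _) (by
        rw [abs_of_nonneg (satDeriv_mem k _).1]; exact (satDeriv_mem k _).2)
  have hR2 : ∫⁻ y in D, ‖Qu y - g y‖ₑ ^ 2 ≤
      ENNReal.ofReal (π * (2 * k + datumBound Ω g) ^ 2 * t ^ 2) := by
    calc ∫⁻ y in D, ‖Qu y - g y‖ₑ ^ 2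
        ≤ ∫⁻ _ in D, ENNReal.ofReal ((2 * k + datumBound Ω g) ^ 2) := by
          refine lintegral_mono_ae ?_
          filter_upwards [ae_restrict_mem hDm, ae_restrict_of_ae_restrict_of_subset (hDV.trans hV)
            (ae_abs_le_datumBound hg)] with y hy hgy
          rw [← ofReal_norm, ← ENNReal.ofReal_pow (norm_nonneg _)]
          refine ENNReal.ofReal_le_ofReal (pow_le_pow_left₀ (norm_nonneg _) ?_ 2)
          simp only [hQu, if_pos hy, Real.norm_eq_abs]
          exact (abs_sub _ _).trans (add_le_add (abs_satur_le hk _) hgy)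
      _ = _ := by
          rw [setLIntegral_const, hD, Complex.volume_closedBall, ← ENNReal.ofReal_pow ht.le,
            ← ENNReal.ofReal_coe_nnreal, ← ENNReal.ofReal_mul (by positivity),
            ← ENNReal.ofReal_mul (by positivity), NNReal.coe_real_pi]
          congr 1
          ring
  exact (le_self_add.trans hmin').trans (add_le_add hR1 hR2)

/-- **R0.** -/
theorem reg : RegSpec := by
  intro Ω g P hΩ hg hmin x hx
  classical
  obtain ⟨R₀, hR₀, hsub⟩ := Metric.nhds_basis_closedBall.mem_iff.1 (hΩ.mem_nhds hx)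
  obtain ⟨v, hv, hvu, hvG⟩ := exists_repr hg hΩ hmin hR₀ hsub
  obtain ⟨R, k, hR, hRR, hk, -, hbd⟩ := exists_bound hg hΩ hmin hR₀ hsub hv hvu hvG
  set U := ball x R with hU
  have hV : ball x R₀ ⊆ Ω := ball_subset_closedBall.trans hsub
  set A := k + datumBound Ω g with hA
  set M := 2 * k with hM
  set Λ := max (A * M) (π * (2 * k + datumBound Ω g) ^ 2) with hΛ
  have hUO : U \ (P.K ∩ U) = U \ P.K := by
    ext y; simp [Set.mem_sdiff]
  have hsubO : U \ P.K ⊆ ball x R₀ \ P.K := Set.sdiff_subset_sdiff_left (ball_subset_ball hRR.le)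
  have hOopen : IsOpen (U \ P.K) := by
    have : U \ P.K = U ∩ (Ω \ P.K) := ext fun y =>
      ⟨fun hy => ⟨hy.1, hV (ball_subset_ball hRR.le hy.1), hy.2⟩, fun hy => ⟨hy.1, hy.2.2⟩⟩
    rw [this]; exact isOpen_ball.inter P.isOpen_compl
  have hUeq : volume.restrict U = volume.restrict (U \ P.K) :=
    (Measure.restrict_congr_set (P.sdiff_ae U)).symm
  refine ⟨R, hR, (closedBall_subset_closedBall hRR.le).trans hsub, v, gradOf v, A, M, Λ, ?_, ?_, ?_⟩
  · rw [← hU, hUeq]
    exact ae_restrict_of_ae_restrict_of_subset hsubO hvu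
  · exact ae_restrict_of_ae_restrict_of_subset hsubO hvG
  refine
    { isOpen := isOpen_ball
      subset := inter_subset_right
      isOpen_compl := hUO ▸ hOopen
      finite := fun C hC hCU => ?_
      contGrad := ?_
      hasGrad := ?_
      A_nonneg := by have := datumBound_nonneg Ω g; positivity
      M_nonneg := by positivity
      AM_le := le_max_left _ _
      osc := ?_
      weakEq := ?_
      almostMin := ?_ }
  · have hC' : C \ (P.K ∩ U) ⊆ U \ P.K := fun y hy => ⟨hCU hy.1, fun hK => hy.2 ⟨hK, hCU hy.1⟩⟩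
    refine ENNReal.add_lt_top.2 ⟨?_, (measure_mono
      (inter_subset_left.trans inter_subset_left)).trans_lt P.finite⟩
    calc ∫⁻ y in C \ (P.K ∩ U), ‖gradOf v y‖ₑ ^ 2
        = ∫⁻ y in C \ (P.K ∩ U), ‖P.G y‖ₑ ^ 2 := lintegral_congr_ae
          ((ae_restrict_of_ae_restrict_of_subset (hC'.trans hsubO) hvG).mono fun y hy => by
            simp only [hy])
      _ ≤ ∫⁻ y in Ω \ P.K, ‖P.G y‖ₑ ^ 2 := lintegral_mono_set
          (hC'.trans (hsubO.trans (Set.sdiff_subset_sdiff_left hV)))
      _ < ⊤ := by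
          have hG := ((memLp_two_iff_integrable_sq_norm P.gradL2.1).1 P.gradL2).2
          rw [hasFiniteIntegral_iff_enorm] at hG
          simpa only [enorm_pow, enorm_norm] using hG
  · rw [hUO]; exact continuousOn_gradOf hOopen (hv.mono hsubO)
  · intro y hy
    rw [hUO] at hy
    rw [innerSL_gradOf]
    exact (((hv.mono hsubO).contDiffAt (hOopen.mem_nhds hy)).differentiableAt one_ne_zero).hasFDerivAt
  · intro a ha b hb
    rw [hUO] at ha hb
    exact (abs_sub _ _).trans ((add_le_add (hbd a ha) (hbd b hb)).trans_eq (two_mul k).symm)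
  · intro φ Gφ C hC hCU hφ hφb hφ0 hφfin
    rw [hUO] at hφ ⊢
    have hC' : C \ (P.K ∩ U) = C \ P.K := ext fun y =>
      ⟨fun hy => ⟨hy.1, fun hK => hy.2 ⟨hK, hCU hy.1⟩⟩, fun hy => ⟨hy.1, fun hK => hy.2 hK.1⟩⟩
    rw [hC'] at hφfin
    obtain ⟨b, hb⟩ := hφb
    have hcover : Ω \ P.K = (U \ P.K) ∪ ((Ω \ P.K) \ C) := by
      refine Subset.antisymm (fun y hy => ?_) (union_subset
        (hsubO.trans (Set.sdiff_subset_sdiff_left hV)) sdiff_subset)
      by_cases hyC : y ∈ C
      · exact Or.inl ⟨hCU hyC, hy.2⟩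
      · exact Or.inr ⟨hy, hyC⟩
    have hO2 : IsOpen ((Ω \ P.K) \ C) := P.isOpen_compl.sdiff hC.isClosed
    have hs : IsSobolevOn (Ω \ P.K) φ Gφ := by
      rw [hcover]
      refine hφ.union hOopen hO2 ((isSobolevOn_const hO2 0).congr hO2.measurableSet ?_ ?_) <;>
        filter_upwards [ae_restrict_mem hO2.measurableSet] with y hy
      · exact (hφ0 y hy.2).1.symm
      · exact (hφ0 y hy.2).2.symm
    have he := hmin.euler hg hΩ.measurableSet hR₀ hsub hs hC (hCU.trans (ball_subset_ball hRR.le))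
      hφ0 hb hφfin
    rw [setIntegral_eq_of_subset_of_forall_sdiff_eq_zero P.isOpen_compl.measurableSet
      (s := U \ P.K) (hsubO.trans (Set.sdiff_subset_sdiff_left hV)) (fun y hy => by
        have : y ∉ C := fun h => hy.2 ⟨hCU h, hy.1.2⟩
        simp [(hφ0 y this).1, (hφ0 y this).2])] at he
    have hfinU : volume (U \ P.K) < ⊤ := (measure_mono sdiff_subset).trans_lt measure_ball_lt_top
    have : IsFiniteMeasure (volume.restrict (U \ P.K)) := isFiniteMeasure_restrict.2 hfinU.ne
    have hae1 := ae_restrict_of_ae_restrict_of_subset hsubO hvu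
    have hae2 := ae_restrict_of_ae_restrict_of_subset hsubO hvG
    have hφi : IntegrableOn φ (U \ P.K) :=
      (integrable_const b).mono' hφ.1.aestronglyMeasurable (Eventually.of_forall hb)
    have hgb : ∀ᵐ y ∂volume.restrict (U \ P.K), |P.u y - g y| ≤ A := by
      filter_upwards [hae1, ae_restrict_mem hOopen.measurableSet,
        ae_restrict_of_ae_restrict_of_subset (sdiff_subset.trans ((ball_subset_ball hRR.le).trans hV))
          (ae_abs_le_datumBound hg)] with y h1 hy h2
      rw [← h1]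
      exact (abs_sub _ _).trans (add_le_add (hbd y hy) h2)
    have hUO' : U \ P.K ⊆ Ω \ P.K := hsubO.trans (Set.sdiff_subset_sdiff_left hV)
    have him : AEStronglyMeasurable (fun y => P.u y - g y) (volume.restrict (U \ P.K)) :=
      (P.memL2.1.mono_set (hUO'.trans sdiff_subset)).sub (hg.1.mono_set (hUO'.trans sdiff_subset))
    have i2 : IntegrableOn (fun y => (P.u y - g y) * φ y) (U \ P.K) :=
      hφi.bdd_mul (c := A) him (hgb.mono fun y hy => by rwa [Real.norm_eq_abs])
    have i1 : IntegrableOn (fun y => ⟪P.G y, Gφ y⟫) (U \ P.K) := by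
      have h1 : MemLp P.G 2 (volume.restrict (U \ P.K)) :=
        P.gradL2.mono_measure (Measure.restrict_mono hUO' le_rfl)
      have h2 : MemLp Gφ 2 (volume.restrict (U \ P.K)) := by
        rw [memLp_two_iff_integrable_sq_norm hφ.2.1.aestronglyMeasurable]
        refine ⟨hφ.2.1.aestronglyMeasurable.norm.pow 2, ?_⟩
        rw [hasFiniteIntegral_iff_enorm]
        refine lt_of_le_of_lt ?_ hφfin
        have hCm : MeasurableSet (C \ P.K) := by
          have : C \ P.K = C ∩ (U \ P.K) := ext fun y =>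
            ⟨fun hy => ⟨hy.1, hCU hy.1, hy.2⟩, fun hy => ⟨hy.1, hy.2.2⟩⟩
          rw [this]; exact hC.measurableSet.inter hOopen.measurableSet
        rw [← lintegral_indicator hOopen.measurableSet, ← lintegral_indicator hCm]
        refine lintegral_mono fun y => ?_
        by_cases hyC : y ∈ C
        · by_cases hyK : y ∈ P.K
          · simp [hyK]
          · simp [hyC, hyK, show y ∈ U from hCU hyC, enorm_pow]
        · by_cases hyU : y ∈ U \ P.K <;> simp [hyU, hyC, (hφ0 y hyC).2]
      refine Integrable.mono' (g := fun y => ‖P.G y‖ * ‖Gφ y‖) (h1.norm.integrable_mul h2.norm)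
        (h1.1.inner h2.1) (Eventually.of_forall fun y => ?_)
      rw [Real.norm_eq_abs]
      exact abs_real_inner_le_norm _ _
    rw [integral_add i1 i2] at he
    have e1 : ∫ y in U \ P.K, ⟪gradOf v y, Gφ y⟫ = ∫ y in U \ P.K, ⟪P.G y, Gφ y⟫ :=
      integral_congr_ae (hae2.mono fun y hy => by simp only [hy])
    rw [e1, eq_neg_of_add_eq_zero_left he, abs_neg, ← Real.norm_eq_abs, ← integral_const_mul]
    refine norm_integral_le_of_norm_le (hφi.abs.const_mul A) (hgb.mono fun y hy => ?_)
    rw [norm_mul, Real.norm_eq_abs, Real.norm_eq_abs]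
    exact mul_le_mul_of_nonneg_right hy (abs_nonneg _)
  · intro z t ht hzt L w Gw hLU hLopen hLK hsob hout
    refine (almostMin_of_bound hg hΩ hmin hR₀ hRR hsub hk hvu hvG hbd ht hzt hLU hLopen hLK hsob
      hout).trans (add_le_add le_rfl (ENNReal.ofReal_le_ofReal ?_))
    exact mul_le_mul_of_nonneg_right (le_max_right _ _) (sq_nonneg _)

end Vale.Agent.P128.Bridge
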