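import Vale.Agent.P128.Bridge.Spec
import Vale.Agent.P128.Bridge.Sobolev

/-!
# P128 bridge: scale covariance
-/

open MeasureTheory Set Metric Filter
open scoped ENNReal NNReal Topology Real RealInnerProductSpace

noncomputable section

namespace Vale.Agent.P128.Bridge

variable {x : ℂ} {r : ℝ}

/-- The affine homeomorphism `z ↦ x + r z`. -/
def aff (x : ℂ) (r : ℝ) (hr : r ≠ 0) : ℂ ≃ₜ ℂ :=
  (Homeomorph.smulOfNeZero r hr).trans (Homeomorph.addLeft x)

theorem aff_apply (hr : r ≠ 0) (z : ℂ) : aff x r hr z = x + r • z := rfl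

theorem aff_inv (hr : r ≠ 0) (y : ℂ) : x + r • ((-(r⁻¹ • x)) + r⁻¹ • y) = y := by
  rw [smul_add, smul_neg, smul_smul, smul_smul, mul_inv_cancel₀ hr, one_smul, one_smul]; abel

theorem inv_aff (hr : r ≠ 0) (z : ℂ) : -(r⁻¹ • x) + r⁻¹ • (x + r • z) = z := by
  rw [smul_add, smul_smul, inv_mul_cancel₀ hr, one_smul]; abel

theorem blowSet_blowSet (hr : r ≠ 0) (S : Set ℂ) :
    blowSet x r (blowSet (-(r⁻¹ • x)) r⁻¹ S) = S := by
  ext z; simp only [blowSet, mem_preimage, inv_aff hr]

theorem blowSet_blowSet' (hr : r ≠ 0) (S : Set ℂ) :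
    blowSet (-(r⁻¹ • x)) r⁻¹ (blowSet x r S) = S := by
  ext z; simp only [blowSet, mem_preimage, aff_inv hr]

theorem isOpen_blowSet {S : Set ℂ} (hS : IsOpen S) (x : ℂ) (r : ℝ) : IsOpen (blowSet x r S) :=
  hS.preimage (by fun_prop)

theorem blowSet_closedBall (hr : 0 < r) (z : ℂ) (t : ℝ) :
    blowSet x r (closedBall (x + r • z) (r * t)) = closedBall z t := by
  ext w
  simp only [blowSet, mem_preimage, mem_closedBall, dist_add_left, dist_smul₀, Real.norm_eq_abs,
    abs_of_pos hr, mul_le_mul_iff_right₀ hr]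

theorem integral_blow {E : Type*} [NormedAddCommGroup E] [NormedSpace ℝ E] (f : ℂ → E)
    (hr : 0 < r) (x : ℂ) : ∫ z, f (x + r • z) = (r ^ 2)⁻¹ • ∫ y, f y := by
  rw [Measure.integral_comp_smul volume (fun w => f (x + w)) r, integral_add_left_eq_self f x,
    Complex.finrank_real_complex, abs_of_nonneg (by positivity)]

theorem map_aff_volume (hr : 0 < r) :
    Measure.map (fun z : ℂ => x + r • z) volume = ENNReal.ofReal (r ^ 2)⁻¹ • volume := by
  have h : (fun z : ℂ => x + r • z) = (fun w => x + w) ∘ (fun z => r • z) := rfl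
  rw [h, ← Measure.map_map (by fun_prop) (by fun_prop), Measure.map_addHaar_smul volume hr.ne',
    Measure.map_smul, map_add_left_eq_self, Complex.finrank_real_complex,
    abs_of_nonneg (by positivity)]

theorem lintegral_blow (f : ℂ → ℝ≥0∞) (hr : 0 < r) (x : ℂ) :
    ∫⁻ z, f (x + r • z) = ENNReal.ofReal (r ^ 2)⁻¹ * ∫⁻ y, f y := by
  rw [← smul_eq_mul, ← lintegral_smul_measure, ← map_aff_volume (x := x) hr,
    show Measure.map (fun z : ℂ => x + r • z) volume =
      Measure.map (aff x r hr.ne').toMeasurableEquiv volume from rfl, lintegral_map_equiv]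
  rfl

theorem setLIntegral_blow (f : ℂ → ℝ≥0∞) (hr : 0 < r) (x : ℂ) {S : Set ℂ}
    (hS : MeasurableSet S) :
    ∫⁻ z in blowSet x r S, f (x + r • z) = ENNReal.ofReal (r ^ 2)⁻¹ * ∫⁻ y in S, f y := by
  have hm : MeasurableSet (blowSet x r S) := hS.preimage (by fun_prop)
  rw [← lintegral_indicator hS, ← lintegral_blow _ hr x, ← lintegral_indicator hm]
  rfl

theorem hausdorff_blowSet_le (hr : 0 < r) (x : ℂ) (S : Set ℂ) :
    μH[1] (blowSet x r S) ≤ ENNReal.ofReal r⁻¹ * μH[1] S := by
  have h : AntilipschitzWith (Real.toNNReal r⁻¹) fun z : ℂ => x + r • z := by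
    refine AntilipschitzWith.of_le_mul_dist fun a b => ?_
    rw [dist_add_left, dist_smul₀, Real.norm_eq_abs, abs_of_pos hr,
      Real.coe_toNNReal _ (by positivity), ← mul_assoc, inv_mul_cancel₀ hr.ne', one_mul]
  have := h.hausdorffMeasure_preimage_le zero_le_one S
  simpa [blowSet, ENNReal.ofReal] using this

theorem hausdorff_blowSet (hr : 0 < r) (x : ℂ) (S : Set ℂ) :
    μH[1] (blowSet x r S) = ENNReal.ofReal r⁻¹ * μH[1] S := by
  refine le_antisymm (hausdorff_blowSet_le hr x S) ?_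
  have h := hausdorff_blowSet_le (inv_pos.2 hr) (-(r⁻¹ • x)) (blowSet x r S)
  rw [blowSet_blowSet' hr.ne', inv_inv] at h
  calc ENNReal.ofReal r⁻¹ * μH[1] S
      ≤ ENNReal.ofReal r⁻¹ * (ENNReal.ofReal r * μH[1] (blowSet x r S)) := mul_le_mul_right h _
    _ = μH[1] (blowSet x r S) := by
        rw [← mul_assoc, ← ENNReal.ofReal_mul (by positivity), inv_mul_cancel₀ hr.ne',
          ENNReal.ofReal_one, one_mul]

theorem weakEnergy_blow (hr : 0 < r) (x : ℂ) (K : Set ℂ) (G : ℂ → ℂ) {S : Set ℂ}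
    (hS : MeasurableSet (S \ K)) :
    weakEnergy (blowSet x r K) (blowGrad x r G) (blowSet x r S) =
      ENNReal.ofReal r⁻¹ * weakEnergy K G S := by
  have e1 : ∀ y, ‖Real.sqrt r • G y‖ₑ ^ 2 = ENNReal.ofReal r * ‖G y‖ₑ ^ 2 := fun y => by
    rw [enorm_smul, mul_pow, Real.enorm_eq_ofReal (Real.sqrt_nonneg r),
      ← ENNReal.ofReal_pow (Real.sqrt_nonneg r), Real.sq_sqrt hr.le]
  have e2 : ∫⁻ z in blowSet x r S \ blowSet x r K, ‖blowGrad x r G z‖ₑ ^ 2 =
      ENNReal.ofReal r⁻¹ * ∫⁻ y in S \ K, ‖G y‖ₑ ^ 2 := by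
    have := setLIntegral_blow (fun y => ‖Real.sqrt r • G y‖ₑ ^ 2) hr x hS
    rw [show blowSet x r S \ blowSet x r K = blowSet x r (S \ K) from rfl]
    simp only [blowGrad]
    rw [this]
    simp only [e1]
    rw [lintegral_const_mul' _ _ ENNReal.ofReal_ne_top, ← mul_assoc,
      ← ENNReal.ofReal_mul (by positivity)]
    congr 2
    field_simp
  unfold weakEnergy
  rw [e2, mul_add, ← hausdorff_blowSet hr x (K ∩ S)]
  rfl

theorem blowGrad_blowGrad (hr : 0 < r) (G : ℂ → ℂ) :
    blowGrad x r (blowGrad (-(r⁻¹ • x)) r⁻¹ G) = G := by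
  funext z
  simp only [blowGrad, inv_aff hr.ne', smul_smul, Real.sqrt_inv]
  rw [mul_inv_cancel₀ (by positivity), one_smul]

theorem isSobolevOn_comp_aff {U : Set ℂ} {w : ℂ → ℝ} {G : ℂ → ℂ} (h : IsSobolevOn U w G)
    (hU : IsOpen U) (hr : 0 < r) (x : ℂ) :
    IsSobolevOn (blowSet x r U) (fun z => w (x + r • z)) (fun z => r • G (x + r • z)) := by
  have hint : ∀ {E : Type} [NormedAddCommGroup E] [NormedSpace ℝ E] {f : ℂ → E},
      LocallyIntegrableOn f U → LocallyIntegrableOn (fun z => f (x + r • z)) (blowSet x r U) := by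
    intro E _ _ f hf
    rw [locallyIntegrableOn_iff (isOpen_blowSet hU x r).isLocallyClosed]
    intro C hC hCc
    have hC' : IsCompact ((fun z => x + r • z) '' C) := hCc.image (by fun_prop)
    have hi := ((integrable_indicator_iff hC'.measurableSet).2
      (hf.integrableOn_compact_subset (by rintro _ ⟨z, hz, rfl⟩; exact hC hz) hC'))
    have h2 := ((hi.comp_add_left x).comp_smul (R := r) hr.ne')
    refine (integrable_indicator_iff hCc.measurableSet).1 (h2.congr (Eventually.of_forall ?_))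
    intro z
    have hinj : Function.Injective fun z : ℂ => x + r • z := fun a b hab =>
      smul_right_injective ℂ hr.ne' (add_left_cancel hab)
    by_cases hz : z ∈ C
    · show indicator _ f (x + r • z) = _
      rw [indicator_of_mem (mem_image_of_mem _ hz), indicator_of_mem hz]
    · show indicator _ f (x + r • z) = _
      rw [indicator_of_notMem (fun hm => hz (hinj.mem_set_image.1 hm)), indicator_of_notMem hz]
  refine ⟨hint h.1, (hint h.2.1).smul r, fun φ hφ hc hs e => ?_⟩
  set ψ : ℂ → ℝ := fun y => φ (-(r⁻¹ • x) + r⁻¹ • y) with hψ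
  have hcd : ContDiff ℝ ((⊤ : ℕ∞) : WithTop ℕ∞) ψ := hφ.comp (by fun_prop)
  have hψc : HasCompactSupport ψ := hc.comp_homeomorph (aff (-(r⁻¹ • x)) r⁻¹ (inv_ne_zero hr.ne'))
  have hψs : tsupport ψ ⊆ U := by
    have : tsupport ψ = (fun y => -(r⁻¹ • x) + r⁻¹ • y) ⁻¹' tsupport φ :=
      tsupport_comp_eq_preimage φ (aff (-(r⁻¹ • x)) r⁻¹ (inv_ne_zero hr.ne'))
    intro y hy
    rw [this] at hy
    have := hs hy
    rwa [blowSet, mem_preimage, aff_inv hr.ne'] at this
  have hd : ∀ z, fderiv ℝ ψ (x + r • z) e = r⁻¹ * fderiv ℝ φ z e := by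
    intro z
    have h1 : HasFDerivAt ψ ((fderiv ℝ φ z).comp (r⁻¹ • ContinuousLinearMap.id ℝ ℂ)) (x + r • z) := by
      have hi : HasFDerivAt (fun y : ℂ => -(r⁻¹ • x) + r⁻¹ • y)
          (r⁻¹ • ContinuousLinearMap.id ℝ ℂ) (x + r • z) :=
        ((hasFDerivAt_id _).const_smul r⁻¹).const_add _
      have hφz : HasFDerivAt φ (fderiv ℝ φ z) (-(r⁻¹ • x) + r⁻¹ • (x + r • z)) := by
        rw [inv_aff hr.ne']; exact ((hφ.differentiable (by simp)) z).hasFDerivAt
      exact hφz.comp (x + r • z) hi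
    rw [h1.fderiv]
    simp
  have h0 := h.2.2 ψ hcd hψc hψs e
  have a := integral_blow (fun y => w y * fderiv ℝ ψ y e) hr x
  have b := integral_blow (fun y => ⟪G y, e⟫ * ψ y) hr x
  simp only [hd, smul_eq_mul] at a
  simp only [hψ, inv_aff hr.ne', smul_eq_mul] at b
  calc ∫ z, w (x + r • z) * fderiv ℝ φ z e
      = r * ∫ z, w (x + r • z) * (r⁻¹ * fderiv ℝ φ z e) := by
        rw [← integral_const_mul]; congr 1; funext z; field_simp
    _ = r * ((r ^ 2)⁻¹ * ∫ y, w y * fderiv ℝ ψ y e) := by rw [a]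
    _ = -(r * ((r ^ 2)⁻¹ * ∫ y, ⟪G y, e⟫ * ψ y)) := by rw [h0]; ring
    _ = -∫ z, ⟪r • G (x + r • z), e⟫ * φ z := by
        rw [← b, ← integral_const_mul]; congr 2; funext z
        rw [real_inner_smul_left]; ring

theorem isSobolevOn_blow {U : Set ℂ} {w : ℂ → ℝ} {G : ℂ → ℂ} (h : IsSobolevOn U w G)
    (hU : IsOpen U) (hr : 0 < r) (x : ℂ) :
    IsSobolevOn (blowSet x r U) (blowFun x r w) (blowGrad x r G) := by
  have h1 := (isSobolevOn_comp_aff h hU hr x).const_mul (Real.sqrt r)⁻¹
  refine h1.congr (isOpen_blowSet hU x r).measurableSet EventuallyEq.rfl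
    (Eventually.of_forall fun z => ?_)
  simp only [blowGrad, smul_smul]
  congr 1
  rw [inv_mul_eq_div, div_eq_iff (by positivity), Real.mul_self_sqrt hr.le]

theorem scaleSpec : ScaleSpec := by
  intro U K u G A M Λ h x r hr
  have hne := hr.ne'
  have hsq : 0 < Real.sqrt r := Real.sqrt_pos.2 hr
  set x' : ℂ := -(r⁻¹ • x) with hx'
  have hfinv : ∀ y, x + r • (x' + r⁻¹ • y) = y := fun y => aff_inv hne y
  refine
    { isOpen := isOpen_blowSet h.isOpen x r
      subset := preimage_mono h.subset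
      isOpen_compl := isOpen_blowSet h.isOpen_compl x r
      finite := ?_, contGrad := ?_, hasGrad := ?_
      A_nonneg := mul_nonneg h.A_nonneg (by positivity)
      M_nonneg := div_nonneg h.M_nonneg hsq.le
      AM_le := ?_, osc := ?_, weakEq := ?_, almostMin := ?_ }
  · intro C hC hCU
    set C' := blowSet x' r⁻¹ C with hC'
    have hCC : blowSet x r C' = C := blowSet_blowSet hne C
    have hC'c : IsCompact C' := by
      have : C' = (aff x' r⁻¹ (inv_ne_zero hne)) ⁻¹' C := rfl
      rw [this]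
      exact (Homeomorph.isCompact_preimage _).2 hC
    have hC'U : C' ⊆ U := fun y hy => by
      have := hCU hy
      rwa [blowSet, mem_preimage, hfinv] at this
    have hmeas : MeasurableSet (C' \ K) := by
      have : C' \ K = C' ∩ (U \ K) := by
        ext y; exact ⟨fun hy => ⟨hy.1, hC'U hy.1, hy.2⟩, fun hy => ⟨hy.1, hy.2.2⟩⟩
      rw [this]; exact hC'c.measurableSet.inter h.isOpen_compl.measurableSet
    rw [← hCC, weakEnergy_blow hr x K G hmeas]
    exact ENNReal.mul_lt_top ENNReal.ofReal_lt_top (h.finite C' hC'c hC'U)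
  · exact (h.contGrad.comp (f := fun z : ℂ => x + r • z) (s := blowSet x r (U \ K))
      (by fun_prop) fun z hz => hz).const_smul (Real.sqrt r)
  · intro z hz
    have hi : HasFDerivAt (fun w : ℂ => x + r • w) (r • ContinuousLinearMap.id ℝ ℂ) z :=
      ((hasFDerivAt_id z).const_smul r).const_add x
    have := ((h.hasGrad _ hz).comp z hi).const_smul (Real.sqrt r)⁻¹
    refine this.congr_fderiv ?_
    ext e
    simp only [blowGrad, smul_apply, ContinuousLinearMap.coe_comp,
      Function.comp_apply, ContinuousLinearMap.id_apply, innerSL_apply_apply,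
      real_inner_smul_left, real_inner_smul_right, smul_eq_mul]
    rw [← mul_assoc]
    congr 1
    rw [inv_mul_eq_div, div_eq_iff hsq.ne', Real.mul_self_sqrt hr.le]
  · calc A * (r * Real.sqrt r) * (M / Real.sqrt r) = A * M * r := by field_simp
      _ ≤ Λ * r := mul_le_mul_of_nonneg_right h.AM_le hr.le
  · intro y hy z hz
    have := h.osc _ hy _ hz
    rw [blowFun, blowFun, ← mul_sub, abs_mul, abs_of_nonneg (inv_nonneg.2 hsq.le), inv_mul_eq_div]
    exact div_le_div_of_nonneg_right this hsq.le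
  · intro φ Gφ C hC hCU hφ hb hout hfin
    set C' := blowSet x' r⁻¹ C with hC'
    have hC'c : IsCompact C' := by
      have : C' = (aff x' r⁻¹ (inv_ne_zero hne)) ⁻¹' C := rfl
      rw [this]
      exact (Homeomorph.isCompact_preimage _).2 hC
    have hC'U : C' ⊆ U := fun y hy => by
      have := hCU hy
      rwa [blowSet, mem_preimage, hfinv] at this
    set ψ : ℂ → ℝ := fun y => φ (x' + r⁻¹ • y) with hψ
    set Gψ : ℂ → ℂ := fun y => r⁻¹ • Gφ (x' + r⁻¹ • y) with hGψ
    have hψS : IsSobolevOn (U \ K) ψ Gψ := by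
      have h1 := isSobolevOn_comp_aff hφ (isOpen_blowSet h.isOpen_compl x r) (inv_pos.2 hr) x'
      rwa [show blowSet x r U \ blowSet x r K = blowSet x r (U \ K) from rfl,
        blowSet_blowSet' hne] at h1
    have hψb : ∃ b : ℝ, ∀ y, |ψ y| ≤ b := hb.imp fun b hb y => hb _
    have hψo : ∀ y ∉ C', ψ y = 0 ∧ Gψ y = 0 := fun y hy => by
      obtain ⟨h1, h2⟩ := hout _ hy
      refine ⟨h1, ?_⟩
      show r⁻¹ • Gφ (x' + r⁻¹ • y) = 0
      rw [h2, smul_zero]
    have hψf : ∫⁻ y in C' \ K, ‖Gψ y‖ₑ ^ 2 < ⊤ := by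
      have hm : MeasurableSet (C' \ K) := by
        have : C' \ K = C' ∩ (U \ K) := by
          ext y; exact ⟨fun hy => ⟨hy.1, hC'U hy.1, hy.2⟩, fun hy => ⟨hy.1, hy.2.2⟩⟩
        rw [this]; exact hC'c.measurableSet.inter h.isOpen_compl.measurableSet
      have e : blowSet x r (C' \ K) = C \ blowSet x r K := by
        show blowSet x r C' \ blowSet x r K = _
        rw [blowSet_blowSet hne]
      have h2 := setLIntegral_blow (fun y => ‖Gψ y‖ₑ ^ 2) hr x hm
      rw [e] at h2
      simp only [hGψ, hx', inv_aff hne, enorm_smul, mul_pow] at h2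
      rw [lintegral_const_mul' _ _ (by simp)] at h2
      by_contra htop
      rw [not_lt, top_le_iff] at htop
      simp only [hGψ, hx', enorm_smul, mul_pow] at htop
      rw [htop, ENNReal.mul_top (by simp; positivity)] at h2
      exact (ENNReal.mul_lt_top (by simp) hfin).ne h2
    have hmain := h.weakEq ψ Gψ C' hC'c hC'U hψS hψb hψo hψf
    have hint : ∀ g : ℂ → ℝ, ∫ z in blowSet x r U \ blowSet x r K, g (x + r • z) =
        (r ^ 2)⁻¹ * ∫ y in U \ K, g y := by
      intro g
      rw [← integral_indicator h.isOpen_compl.measurableSet, ← smul_eq_mul,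
        ← integral_blow _ hr x,
        show blowSet x r U \ blowSet x r K = blowSet x r (U \ K) from rfl, ← integral_indicator
          (isOpen_blowSet h.isOpen_compl x r).measurableSet]
      rfl
    have a1 := hint fun y => ⟪G y, Gψ y⟫
    have a2 := hint fun y => |ψ y|
    simp only [hψ, hGψ, hx', inv_aff hne, real_inner_smul_right] at a1 a2
    rw [integral_const_mul] at a1
    have b1 : ∫ z in blowSet x r U \ blowSet x r K, ⟪blowGrad x r G z, Gφ z⟫ =
        Real.sqrt r * (r * ((r ^ 2)⁻¹ * ∫ y in U \ K, ⟪G y, Gψ y⟫)) := by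
      simp only [hGψ, hx', real_inner_smul_right, blowGrad, real_inner_smul_left]
      rw [← a1, integral_const_mul]
      field_simp
    rw [b1, a2, abs_mul, abs_mul, abs_mul, abs_of_pos hsq, abs_of_pos hr,
      abs_of_pos (show (0 : ℝ) < (r ^ 2)⁻¹ by positivity)]
    calc Real.sqrt r * (r * ((r ^ 2)⁻¹ * |∫ y in U \ K, ⟪G y, Gψ y⟫|))
        ≤ Real.sqrt r * (r * ((r ^ 2)⁻¹ * (A * ∫ y in U \ K, |ψ y|))) := by gcongr
      _ = A * (r * Real.sqrt r) * ((r ^ 2)⁻¹ * ∫ y in U \ K, |ψ y|) := by ring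
  · intro z t ht hball L w Gw hLU hLopen hLout hw hae
    set L' := blowSet x' r⁻¹ L with hL'
    set w' := blowFun x' r⁻¹ w with hw'
    set Gw' := blowGrad x' r⁻¹ Gw with hGw'
    have hLL : blowSet x r L' = L := blowSet_blowSet hne L
    set Z := x + r • z with hZ
    have hB : blowSet x r (closedBall Z (r * t)) = closedBall z t := blowSet_closedBall hr z t
    have hB' : closedBall Z (r * t) = blowSet x' r⁻¹ (closedBall z t) := by
      rw [← hB, blowSet_blowSet' hne]
    have hBU : closedBall Z (r * t) ⊆ U := by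
      rw [hB', ← blowSet_blowSet' (x := x) hne U]
      exact preimage_mono hball
    have hL'U : L' ⊆ U := by
      rw [hL', ← blowSet_blowSet' (x := x) hne U]; exact preimage_mono hLU
    have e : U \ L' = blowSet x' r⁻¹ (blowSet x r U \ L) := by
      show _ = blowSet x' r⁻¹ (blowSet x r U) \ blowSet x' r⁻¹ L
      rw [blowSet_blowSet' hne]
    have hL'o : L' \ closedBall Z (r * t) = K \ closedBall Z (r * t) := by
      rw [hB', hL']
      show blowSet x' r⁻¹ (L \ closedBall z t) = _
      rw [hLout]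
      show blowSet x' r⁻¹ (blowSet x r K) \ blowSet x' r⁻¹ (closedBall z t) = _
      rw [blowSet_blowSet' hne]
    have hw'S : IsSobolevOn (U \ L') w' Gw' := by
      rw [e]; exact isSobolevOn_blow hw hLopen (inv_pos.2 hr) x'
    have hL'open : IsOpen (U \ L') := e ▸ isOpen_blowSet hLopen _ _
    have hae' : ∀ᵐ y ∂volume.restrict (U \ closedBall Z (r * t)), w' y = u y := by
      have hm : MeasurableSet (U \ closedBall Z (r * t)) :=
        h.isOpen.measurableSet.diff measurableSet_closedBall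
      rw [ae_restrict_iff' hm]
      have h1 := (ae_restrict_iff'
        ((isOpen_blowSet h.isOpen x r).measurableSet.diff measurableSet_closedBall)).1 hae
      have hq : Measure.QuasiMeasurePreserving (fun y : ℂ => x' + r⁻¹ • y) volume volume := by
        refine ⟨by fun_prop, ?_⟩
        rw [map_aff_volume (inv_pos.2 hr)]
        exact Measure.smul_absolutelyContinuous
      filter_upwards [hq.ae h1] with y hy hy'
      have hmem : x' + r⁻¹ • y ∈ blowSet x r U \ closedBall z t := by
        refine ⟨by rw [blowSet, mem_preimage, hfinv]; exact hy'.1, fun hc => hy'.2 ?_⟩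
        rw [hB']; exact hc
      have := hy hmem
      simp only [hw', blowFun] at this ⊢
      rw [this, hfinv, Real.sqrt_inv, inv_inv, ← mul_assoc, mul_inv_cancel₀ hsq.ne', one_mul]
    have hmin := h.almostMin Z (r * t) (mul_pos hr ht) hBU L' w' Gw' hL'U hL'open hL'o hw'S hae'
    have hmK : MeasurableSet (closedBall Z (r * t) \ K) := by
      have : closedBall Z (r * t) \ K = closedBall Z (r * t) ∩ (U \ K) := by
        ext y; exact ⟨fun hy => ⟨hy.1, hBU hy.1, hy.2⟩, fun hy => ⟨hy.1, hy.2.2⟩⟩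
      rw [this]; exact measurableSet_closedBall.inter h.isOpen_compl.measurableSet
    have hmL : MeasurableSet (closedBall Z (r * t) \ L') := by
      have : closedBall Z (r * t) \ L' = closedBall Z (r * t) ∩ (U \ L') := by
        ext y; exact ⟨fun hy => ⟨hy.1, hBU hy.1, hy.2⟩, fun hy => ⟨hy.1, hy.2.2⟩⟩
      rw [this]; exact measurableSet_closedBall.inter hL'open.measurableSet
    calc weakEnergy (blowSet x r K) (blowGrad x r G) (closedBall z t)
        = ENNReal.ofReal r⁻¹ * weakEnergy K G (closedBall Z (r * t)) := by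
          rw [← hB, weakEnergy_blow hr x K G hmK]
      _ ≤ ENNReal.ofReal r⁻¹ * (weakEnergy L' Gw' (closedBall Z (r * t)) +
            ENNReal.ofReal (Λ * (r * t) ^ 2)) := mul_le_mul_right hmin _
      _ = weakEnergy L Gw (closedBall z t) + ENNReal.ofReal (Λ * r * t ^ 2) := by
          rw [mul_add, ← weakEnergy_blow hr x L' Gw' hmL, hLL, hB, hGw', blowGrad_blowGrad hr,
            ← ENNReal.ofReal_mul (by positivity)]
          congr 2
          field_simp

end Vale.Agent.P128.Bridge
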